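import Vale.Agent.P354RF.Defs
import Vale.Agent.P354YW.Jk

/-!
RINV: the function W of the radius and of the height of the ray.
-/

open scoped ContDiff
open Set Filter Topology Function

noncomputable section

namespace Vale.Agent.P354RF

open Vale.Agent.P354I (P3 rm)
open Vale.Agent.P354RG (Y3 gs gz)
open Vale.Agent.P354YQ (JB JD SA)
open Vale.Agent.P354YW (rm_pos)

section gen

variable {E F : Type} [NormedAddCommGroup E] [NormedSpace ℝ E] [NormedAddCommGroup F]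
  [NormedSpace ℝ F]

/-- An injective local diffeomorphism has a smooth inverse. -/
theorem ri_inv [FiniteDimensional ℝ E] {f : E → E} {O : Set E} (hO : IsOpen O)
    (hf : ContDiffOn ℝ ∞ f O) (i : ∀ p ∈ O, Injective (fderiv ℝ f p)) (j : InjOn f O) :
    IsOpen (f '' O) ∧ ContDiffOn ℝ ∞ (invFunOn f O) (f '' O) := by
  have : CompleteSpace E := FiniteDimensional.complete ℝ E
  have k : ∀ p ∈ O, f '' O ∈ 𝓝 (f p) ∧ ContDiffAt ℝ ∞ (invFunOn f O) (f p) := fun p m => by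
    have s := hf.contDiffAt (hO.mem_nhds m)
    let A : E ≃L[ℝ] E := ContinuousLinearEquiv.ofBijective (fderiv ℝ f p)
      (LinearMap.ker_eq_bot.2 (i p m))
      (LinearMap.range_eq_top.2 (LinearMap.injective_iff_surjective.1 (i p m)))
    have d : HasFDerivAt f (A : E →L[ℝ] E) p := (s.differentiableAt (by simp)).hasFDerivAt
    have S := s.hasStrictFDerivAt' d (by simp)
    exact ⟨S.map_nhds_eq_of_equiv ▸ image_mem_map (hO.mem_nhds m),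
      (s.to_localInverse d (by simp)).congr_of_eventuallyEq (S.localInverse_unique
        ((hO.eventually_mem m).mono fun x a => j.leftInvOn_invFunOn a))⟩
  exact ⟨isOpen_iff_mem_nhds.2 fun _ ⟨p, m, e⟩ => e ▸ (k p m).1,
    fun _ ⟨p, m, e⟩ => e ▸ (k p m).2.contDiffWithinAt⟩

/-- Jets are bounded on compact sets. -/
theorem ri_jb (k : ℕ) {f : E → F} {K O : Set E} (hK : IsCompact K) (hO : IsOpen O) (s : K ⊆ O)
    (hf : ContDiffOn ℝ ∞ f O) : ∃ C, 0 ≤ C ∧ ∀ x ∈ K, JB k f x C := by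
  have h : ∀ i : ℕ, ∃ C, ∀ x ∈ K, ‖iteratedFDeriv ℝ i f x‖ ≤ C := fun i =>
    hK.exists_bound_of_continuousOn fun x m =>
      ((hf.contDiffAt (hO.mem_nhds (s m))).continuousAt_iteratedFDeriv
        (P354YQ.le_inf i)).continuousWithinAt
  choose C hC using h
  refine ⟨∑ i ∈ Finset.range (k + 1), |C i|, Finset.sum_nonneg fun _ _ => abs_nonneg _,
    fun x m => ⟨SA.of_on hf hO (s m), fun i hi => (hC i x m).trans ((le_abs_self _).trans ?_)⟩⟩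
  exact Finset.single_le_sum (f := fun i => |C i|) (fun _ _ => abs_nonneg _)
    (Finset.mem_range.2 (Nat.lt_succ_of_le hi))

end gen

theorem ri_jd {r : ℝ} (hr : 1 ≤ r) : JD 2 (fun t : ℝ => t⁻¹) r 2 := by
  have h0 : 0 < r := by linarith
  refine ⟨(eventually_ne_nhds h0.ne').mono fun t m => contDiffAt_inv ℝ m, fun i h1 h2 => ?_⟩
  rw [norm_iteratedFDeriv_eq_norm_iteratedDeriv, iteratedDeriv_eq_iterate]
  have e := iter_deriv_inv i r
  rw [show (fun t : ℝ => t⁻¹) = Inv.inv from rfl, e, norm_mul, norm_mul, norm_pow, norm_neg,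
    norm_one, one_pow, one_mul, Real.norm_of_nonneg (zpow_pos h0 _).le]
  have k : r ^ (-1 - i : ℤ) ≤ 1 := zpow_le_one_of_nonpos₀ hr (by omega)
  have k2 : ‖((i.factorial : ℕ) : ℝ)‖ ≤ 2 := by
    interval_cases i <;> norm_num [Nat.factorial]
  nlinarith [norm_nonneg ((i.factorial : ℕ) : ℝ), zpow_pos h0 (-1 - i : ℤ)]

theorem ri_gz {f : Y3 → ℝ} (hf : ContDiff ℝ ∞ f) (p : P3) (ρ ζ : ℝ) :
    HasDerivAt (fun t => f (p, ρ, t)) (gz f (p, ρ, ζ)) ζ :=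
  (hf.differentiable (by simp) _).hasFDerivAt.comp_hasDerivAt ζ
    ((hasDerivAt_const ζ p).prodMk ((hasDerivAt_const ζ ρ).prodMk (hasDerivAt_id ζ)))

theorem rinv : RINV := by
  intro B δ Y hB fl
  obtain ⟨m, hm⟩ := hB.exists_bound_of_continuousOn (f := fun p : P3 => p.1)
    continuous_fst.continuousOn
  set ρ0 : ℝ := (|m| + 1)⁻¹ with hρ
  have ρp : 0 < ρ0 := by positivity
  have sub : ∀ p ∈ B, Icc 0 ρ0 ⊆ Icc 0 (rm p.1 p.2.1)⁻¹ := fun p hp =>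
    Icc_subset_Icc_right (inv_anti₀ (rm_pos (fl.par p hp).1 (fl.par p hp).2.1) (by
      have := Real.sqrt_nonneg (p.1 ^ 2 - p.2.1 ^ 2)
      have := (le_abs_self _).trans (hm p hp)
      rw [rm]
      linarith [le_abs_self m]))
  have s1 := fl.smooth 1
  have cg : Continuous (gz (Y 1)) :=
    (s1.continuous_fderiv (by simp)).clm_apply continuous_const
  have hK : IsCompact (B ×ˢ (Icc 0 ρ0 ×ˢ Icc (-1 : ℝ) 1)) :=
    hB.prod (isCompact_Icc.prod isCompact_Icc)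
  obtain ⟨u, v, ou, ov, su, sv, uv⟩ := generalized_tube_lemma hB
    (isCompact_Icc.prod isCompact_Icc) (isOpen_lt continuous_const cg)
    (fun x m => (fl.noc x m.1 (sub _ m.1 m.2.1) m.2.2).1 :
      B ×ˢ (Icc 0 ρ0 ×ˢ Icc (-1 : ℝ) 1) ⊆ {x | 0 < gz (Y 1) x})
  obtain ⟨v1, v2, o1, o2, t1, t2, vv⟩ := generalized_tube_lemma isCompact_Icc isCompact_Icc ov sv
  obtain ⟨a, a', ⟨a1, a2⟩, a3⟩ := mem_nhds_iff_exists_Ioo_subset.1
    (o2.mem_nhds (t2 (left_mem_Icc.2 (by norm_num))))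
  obtain ⟨b', b, ⟨b1, b2⟩, b3⟩ := mem_nhds_iff_exists_Ioo_subset.1
    (o2.mem_nhds (t2 (right_mem_Icc.2 (by norm_num))))
  have iv : Ioo a b ⊆ v2 := fun t m => by
    rcases lt_or_ge t (-1) with k | k
    · exact a3 ⟨m.1, k.trans a2⟩
    rcases lt_or_ge 1 t with l | l
    · exact b3 ⟨b1.trans l, m.2⟩
    exact t2 ⟨k, l⟩
  set O : Set Y3 := u ×ˢ (v1 ×ˢ Ioo a b) with hO
  have oO : IsOpen O := ou.prod (o1.prod isOpen_Ioo)
  have pos : ∀ x ∈ O, 0 < gz (Y 1) x := fun x m => uv ⟨m.1, vv ⟨m.2.1, iv m.2.2⟩⟩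
  have mono : ∀ p ∈ u, ∀ ρ ∈ v1, StrictMonoOn (fun t => Y 1 (p, ρ, t)) (Ioo a b) :=
    fun p hp ρ h => strictMonoOn_of_deriv_pos (convex_Ioo a b)
      (fun t _ => (ri_gz s1 p ρ t).continuousAt.continuousWithinAt) fun t m => by
        rw [(ri_gz s1 p ρ t).deriv]
        exact pos _ ⟨hp, h, interior_subset m⟩
  set Φ : Y3 → Y3 := fun x => (x.1, x.2.1, Y 1 x) with hΦ
  have sΦ : ContDiff ℝ ∞ Φ := contDiff_fst.prodMk (contDiff_snd.fst.prodMk s1)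
  have inj : InjOn Φ O := by
    rintro ⟨p, ρ, t⟩ m ⟨p', ρ', t'⟩ m' e
    obtain ⟨rfl, rfl, e⟩ : p = p' ∧ ρ = ρ' ∧ Y 1 (p, ρ, t) = Y 1 (p', ρ', t') := by
      simpa only [hΦ, Prod.mk.injEq] using e
    obtain rfl : t = t' := (mono p m.1 ρ m.2.1).injOn m.2.2 m'.2.2 e
    rfl
  have imm : ∀ x ∈ O, Injective (fderiv ℝ Φ x) := fun x m => by
    have d : HasFDerivAt Φ _ x := hasFDerivAt_fst.prodMk (hasFDerivAt_snd.fst.prodMk
      (s1.differentiable (by simp) x).hasFDerivAt)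
    rw [d.fderiv, injective_iff_map_eq_zero]
    rintro ⟨p, ρ, t⟩ e
    obtain ⟨rfl, rfl, e⟩ : p = 0 ∧ ρ = 0 ∧ fderiv ℝ (Y 1) x (p, ρ, t) = 0 := by
      simpa [Prod.ext_iff] using e
    have k : ((0, 0, t) : Y3) = t • ((0, 0, 1) : Y3) := by simp
    rw [k, map_smul, smul_eq_mul] at e
    obtain rfl : t = 0 := (mul_eq_zero.1 e).resolve_right (pos x m).ne'
    rfl
  obtain ⟨oI, sI⟩ := ri_inv oO sΦ.contDiffOn imm inj
  have KO : B ×ˢ (Icc 0 ρ0 ×ˢ Icc (-1 : ℝ) 1) ⊆ O := fun x m =>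
    ⟨su m.1, t1 m.2.1, a1.trans_le m.2.2.1, m.2.2.2.trans_lt b2⟩
  have KI : B ×ˢ (Icc 0 ρ0 ×ˢ Icc (-1 : ℝ) 1) ⊆ Φ '' O := by
    rintro ⟨p, ρ, t⟩ m
    have n : (-1 : ℝ) ≤ 1 := by norm_num
    have e1 := (fl.noc (p, ρ, 1) m.1 (sub _ m.1 m.2.1) (right_mem_Icc.2 n)).2.2.1
    have e2 := (fl.noc (p, ρ, -1) m.1 (sub _ m.1 m.2.1) (left_mem_Icc.2 n)).2.2.1
    have lt := mono p (su m.1) ρ (t1 m.2.1) ⟨a1, by linarith⟩ ⟨by linarith, b2⟩
      (by norm_num : (-1 : ℝ) < 1)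
    simp only [one_pow, sub_self, zero_mul, add_zero, even_two, Even.neg_pow] at e1 e2 lt
    obtain ⟨f1, f2⟩ : Y 1 (p, ρ, 1) = 1 ∧ Y 1 (p, ρ, -1) = -1 := by
      rcases sq_eq_one_iff.1 e1 with k | k <;>
        rcases sq_eq_one_iff.1 e2 with l | l <;>
        exact ⟨by linarith, by linarith⟩
    obtain ⟨t', m', e⟩ := intermediate_value_Icc n (f := fun t => Y 1 (p, ρ, t))
      (fun t _ => (ri_gz s1 p ρ t).continuousAt.continuousWithinAt) (by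
        rw [f1, f2]
        exact m.2.2 : t ∈ _)
    exact ⟨(p, ρ, t'), KO ⟨m.1, m.2.1, m'⟩, by simp only [hΦ, e]⟩
  set S0 : Y3 → ℝ := fun x => -Y 2 (invFunOn Φ O x) with hS
  have sS : ContDiffOn ℝ ∞ S0 (Φ '' O) := ((fl.smooth 2).comp_contDiffOn sI).neg
  obtain ⟨C, C0, hC⟩ := ri_jb 2 hK oI KI sS
  refine ⟨fun x => S0 (x.1, x.2.1⁻¹, x.2.2), (Nat.factorial 2 : ℕ) * C * 4 ^ 2,
    |m| + 1 + 2 * C, fun p hp r hr ζ hζ => ?_⟩
  have r1 : 1 ≤ r := by linarith [abs_nonneg m]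
  have r0 : 0 < r := by linarith
  have mK : ((p, r⁻¹, ζ) : Y3) ∈ B ×ˢ (Icc 0 ρ0 ×ˢ Icc (-1 : ℝ) 1) :=
    ⟨hp, ⟨(inv_pos.2 r0).le, inv_anti₀ (by positivity) (by linarith)⟩, hζ⟩
  have j := hC _ mK
  have cd : ContDiffAt ℝ ∞ (fun x : Y3 => S0 (x.1, x.2.1⁻¹, x.2.2)) (p, r, ζ) :=
    j.sm.at.comp (p, r, ζ) (f := fun x : Y3 => (x.1, x.2.1⁻¹, x.2.2))
      (contDiffAt_fst.prodMk ((contDiffAt_snd.fst.inv r0.ne').prodMk contDiffAt_snd.snd))
  refine ⟨cd, ?_, ?_, ?_⟩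
  · have k1 : JD 2 (fun y : ℝ × ℝ => y.1⁻¹) (r, ζ) ((Nat.factorial 2 : ℕ) * 2 * 1 ^ 2) :=
      JD.comp (u := fun t : ℝ => t⁻¹) (f := ContinuousLinearMap.fst ℝ ℝ ℝ) (ri_jd r1)
        ((JD.lin _).mono (ContinuousLinearMap.norm_fst_le ..)) le_rfl zero_le_two
    have k2 : JD 2 (fun y : ℝ × ℝ => ((p, y.1⁻¹, y.2) : Y3)) (r, ζ) 4 :=
      ((JD.const p).mono (by norm_num)).prod ((k1.mono (by norm_num [Nat.factorial])).prod
        ((JD.lin (ContinuousLinearMap.snd ℝ ℝ ℝ)).mono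
          ((ContinuousLinearMap.norm_snd_le ..).trans (by norm_num))))
    exact JD.comp (u := S0) j.jd k2 (by norm_num) C0
  · have d1 : HasDerivAt (fun t : ℝ => ((p, t, ζ) : Y3)) (0, 1, 0) r :=
      (hasDerivAt_const r p).prodMk ((hasDerivAt_id r).prodMk (hasDerivAt_const r ζ))
    have d2 : HasDerivAt (fun t : ℝ => ((p, t⁻¹, ζ) : Y3)) (0, -(r ^ 2)⁻¹, 0) r :=
      (hasDerivAt_const r p).prodMk ((hasDerivAt_inv r0.ne').prodMk (hasDerivAt_const r ζ))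
    have d3 : HasDerivAt (fun t : ℝ => S0 (p, t⁻¹, ζ))
        (fderiv ℝ S0 (p, r⁻¹, ζ) (0, -(r ^ 2)⁻¹, 0)) r :=
      HasFDerivAt.comp_hasDerivAt (l := S0) r j.sm.diff.hasFDerivAt d2
    have d4 := HasFDerivAt.comp_hasDerivAt (l := fun x : Y3 => S0 (x.1, x.2.1⁻¹, x.2.2)) r
      (cd.differentiableAt (by simp)).hasFDerivAt d1
    have e := d4.unique d3
    have n : ‖fderiv ℝ S0 (p, r⁻¹, ζ)‖ ≤ C := (j.jd.fderiv (k := 1)).zero
    have n2 : ‖((0, -(r ^ 2)⁻¹, 0) : Y3)‖ ≤ r⁻¹ := by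
      simp only [Prod.norm_mk, norm_zero, norm_neg, max_le_iff, inv_nonneg, r0.le, true_and,
        and_true]
      rw [Real.norm_of_nonneg (by positivity)]
      exact inv_anti₀ r0 (by nlinarith)
    rw [gs, e, ← Real.norm_eq_abs]
    refine (ContinuousLinearMap.le_of_opNorm_le_of_le _ n n2).trans ?_
    rw [← div_eq_mul_inv, div_le_iff₀ r0]
    linarith [abs_nonneg m]
  · have := inj.leftInvOn_invFunOn (KO mK)
    simp only [hS]
    rw [show ((p, r⁻¹, Y 1 (p, r⁻¹, ζ)) : Y3) = Φ (p, r⁻¹, ζ) from rfl, this]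

end Vale.Agent.P354RF
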