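import Vale.Agent.P354NE.Psi
import Vale.Agent.P354YJ.Chain
import Vale.Agent.P354J.Pull

/-!
The rays of Kerr near the top slice.
-/

open scoped ContDiff
open Set Filter Topology Real

noncomputable section

namespace Vale.Agent.P354RF

open Vale.Agent.P354n (R4)
open Vale.Agent.P354H (X3)
open Vale.Agent.P354I (X P3)
open Vale.Agent.P354XE (rd xs ur Par)
open Vale.Agent.P354XM (sh sh_sh rd_sh)
open Vale.Agent.P354XA (hor rd_cont rd_lin)
open Vale.Agent.P354YJ (Js JJ dir iv rd_inv)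
open Vale.Agent.P354YW (rd_pt rz_norm nsq sgn_sq)
open Vale.Agent.P354YM (Jd pp)
open Vale.Agent.P354SA
open Vale.Agent.P354SM (Rf)
open Vale.Agent.P354NE (Ac Ac_cpt Ac_le rd_mono)

theorem rd_Js (k : ℝ) (H : ℕ → P354RG.Y3 → ℝ) (b : Bool) (p : P3) (t : ℝ) (y : X) :
    rd (Js k H b p t y) = rd (Js k H true p t y) := by
  simp only [Js, JJ, rd_pt, norm_smul, rz_norm]
  refine congrArg _ ((sq_eq_sq₀ (norm_nonneg _) (norm_nonneg _)).1 ?_)
  simp only [nsq, dir, Matrix.cons_val_zero, Matrix.cons_val_one, Matrix.cons_val, mul_pow, sgn_sq]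

variable {j : Jd} {ε1 C0 s1 r1 t rr : ℝ} {b σ : Bool} {Ψ : P3 × ℝ → R4 → R4}
  {S : P354RG.Y3 → ℝ}

theorem exp_mem {k : ℝ} (hk : 0 ≤ k) (ht : 0 ≤ t) : exp (-k * t) ∈ Icc (0 : ℝ) 1 :=
  ⟨(exp_pos _).le, exp_le_one_iff.2 (by nlinarith [mul_nonneg hk ht])⟩

/-- A lower bound for the radius near and before the top slice. -/
theorem rr_low (R : Rf j.M j.a j.k ε1 C0 s1 r1 j.H b σ Ψ S) (ht : 0 ≤ t) (hk : 0 ≤ j.k)
    (h : (j.t t).Rad rr) : ∃ ρ ∈ Ioc (0 : ℝ) (1 / 2), ∃ ε ∈ Ioc 0 ε1,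
      ∀ p ∈ Metric.closedBall j.p0 ε, ∀ w : R4, w.2 ∈ Ac → -2 * t - ρ ≤ w.1 →
        rr < rd (Ψ (p, exp (-j.k * t)) w) := by
  obtain ⟨-, e1, -, -, -, R⟩ := R
  have m := exp_mem hk ht
  have r0 := R _ (Metric.mem_closedBall_self e1.le) _ m
  have top : ∀ y : X3, rr < rd (Ψ (j.p0, exp (-j.k * t)) (-2 * t, y)) := fun y => by
    have := r0.top t rfl (y.1 - t, y.2)
    rw [sub_add_cancel] at this
    refine (h _ ?_).trans_eq ((rd_Js j.k j.H b j.p0 t _).symm.trans (congrArg rd this.symm))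
    have n := P354J.phi_ne σ (y.1 - t, y.2)
    cases b
    exacts [smul_ne_zero (inv_ne_zero (pow_ne_zero 2 (norm_ne_zero_iff.2 n))) n, n]
  have c : ∀ y ∈ Ac, ContinuousAt (fun z : (P3 × ℝ) × X3 =>
      rd (Ψ (z.1.1, exp (-j.k * t)) (z.1.2, z.2))) ((j.p0, -2 * t), y) := fun y hy =>
    rd_cont.continuousAt.comp (ContinuousAt.comp (g := fun y : (P3 × ℝ) × R4 => Ψ y.1 y.2)
      (f := fun z : (P3 × ℝ) × X3 => ((z.1.1, exp (-j.k * t)), (z.1.2, z.2)))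
      (r0.smooth (-2 * t, y) (Ac_le hy)).continuousAt (by fun_prop))
  obtain ⟨δ, d0, hδ⟩ := Metric.eventually_nhds_iff.1 (Ac_cpt.eventually_forall_of_forall_eventually
    (x₀ := (j.p0, -2 * t)) (P := fun x y => rr < rd (Ψ (x.1, exp (-j.k * t)) (x.2, y)))
    fun y hy => (c y hy).eventually (lt_mem_nhds (top y)))
  refine ⟨min (1 / 2) (δ / 2), ⟨by positivity, min_le_left _ _⟩, min ε1 (δ / 2),
    ⟨by positivity, min_le_left _ _⟩, fun p hp w hw a => ?_⟩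
  refine (hδ (y := (p, -2 * t - min (1 / 2) (δ / 2))) (max_lt ?_ ?_) w.2 hw).trans_le
    (rd_mono (R p (Metric.closedBall_subset_closedBall (min_le_left _ _) hp) _ m) (Ac_le hw) a)
  · exact (Metric.mem_closedBall.1 hp).trans_lt ((min_le_right _ _).trans_lt (half_lt_self d0))
  · rw [Real.dist_eq, sub_sub_cancel_left, abs_neg, abs_of_pos (by positivity)]
    exact (min_le_right _ _).trans_lt (half_lt_self d0)

/-- The top slice consists of the initial points of the rays. -/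
theorem top_eq {p0 : P3} {q : Par}
    (h : Ref p0 j.k ε1 C0 s1 r1 j.H b σ Ψ S (pp j.M q, exp (-j.k * t))) :
    ∃ c0 ∈ Icc (1 / 2 : ℝ) 2, ∃ om, ∀ R c φ (x : X3), P354SA.Jt (j.t t) q c φ b σ R x =
      q.lin (sh (c + c0 * (R + t)) (φ + om * (R + t))
        (Ψ (pp j.M q, exp (-j.k * t)) (-2 * t, x))) := by
  obtain ⟨c0, om, m, -, e⟩ := h.sym
  refine ⟨c0, m, om, fun R c φ x => congrArg q.lin ?_⟩
  rw [← sh_sh, ← e (-2 * t, x) (R + t), ← add_assoc]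
  exact congrArg (sh c φ) (h.top t rfl (x.1 + R, x.2)).symm

/-- The rays near the pole stay in the half space. -/
theorem pole_q {p0 k H x M a ε} {q : Par} (h : Ref p0 k ε1 C0 s1 r1 H b σ Ψ S x)
    (ha : |x.1.2.1| < x.1.1) (hq : q.Near M a ε) (c0 : 0 < C0) (e : 3 * ε * C0 ≤ 1) (c φ : ℝ)
    {w : R4} (hw : ‖w.2.2‖ ≤ 3 / 5) : 0 < P354E.sg σ * (q.lin (sh c φ (Ψ x w))).2.2.2 := by
  have r := (hor ha).2.1.trans_lt (h.imm w (hw.trans (by norm_num))).2.1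
  have k := h.pole w hw
  rw [P354RG.zh, ← mul_div_assoc] at k
  replace k : C0⁻¹ * rd (Ψ x w) ≤ P354E.sg σ * (sh c φ (Ψ x w)).2.2.2 := (le_div_iff₀ r).1 k
  rw [← rd_sh c φ] at r k
  generalize sh c φ (Ψ x w) = p at r k
  have n : ∀ i, |(q.R - 1) 2 i * xs p i| < ε * rd p := fun i => by
    rw [abs_mul]
    exact (mul_le_mul_of_nonneg_left (PiLp.norm_apply_le (xs p) i) (abs_nonneg _)).trans_lt
      (mul_lt_mul_of_pos_right (hq.2.2.2.2 2 i) r)
  have v : (q.lin p).2.2.2 = p.2.2.2 + ((q.R - 1) 2 0 * xs p 0 + (q.R - 1) 2 1 * xs p 1 +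
      (q.R - 1) 2 2 * xs p 2) := by
    simp [Par.lin, P354XE.pt, Matrix.mulVec, dotProduct, Fin.sum_univ_three, xs]
    ring
  have u := mul_le_mul_of_nonneg_right ((le_div_iff₀ c0).2 e) r.le
  have n0 := abs_lt.1 (n 0)
  have n1 := abs_lt.1 (n 1)
  have n2 := abs_lt.1 (n 2)
  rw [v, one_div] at *
  cases σ <;> simp only [P354E.sg, cond] at k ⊢ <;> linarith [n0.1, n0.2, n1.1, n1.2, n2.1, n2.2]

theorem ur_q {q q' : Par} (h : q.R.transpose * q.R = 1) (h' : q'.R.transpose * q'.R = 1)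
    (p : R4) : ur q'.M q'.a (P354YM.inv q' (q.lin p)) = q.l / q'.l * p.1 - Fq q'.M q'.a (rd p) := by
  rw [ur, rd_inv h', rd_lin h, Fq, div_mul_eq_mul_div q.l, sub_sub]
  rfl

end Vale.Agent.P354RF
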