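import Vale.Agent.P354NE.Defs
import Vale.Agent.P354CH.Rz
import Vale.Agent.P354YI.Pbg
import Vale.Agent.P354XM.Kin

/-!
The metric of Kerr in the chart of the rays.
-/

set_option maxSynthPendingDepth 3

open scoped ContDiff
open Set Filter Topology

noncomputable section

namespace Vale.Agent.P354RF

open Vale.Agent.P354n (R4)
open Vale.Agent.P354 (Bilin)
open Vale.Agent.P354R (Met Pull)
open Vale.Agent.P354RC (B2 cv)
open Vale.Agent.P354XD (tb rp_tb)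
open Vale.Agent.P354XE (Tw pb gin rd)
open Vale.Agent.P354XM (sh sh_fd hin_ap hin_sh)
open Vale.Agent.P354YQ (SA JB JD)
open Vale.Agent.P354YO (tb_ap bil_pb)
open Vale.Agent.P354SA
open Vale.Agent.P354SM (Shp)
open Vale.Agent.P354NE (MET1 MET2)

theorem pb_ch {ψ Λ : R4 → R4} {y : R4} {A : R4 →L[ℝ] R4} (h : DifferentiableAt ℝ ψ (Λ y))
    (l : HasFDerivAt Λ A y) (c φ M a : ℝ) (v w : R4) :
    pb (fun y => sh c φ (ψ (Λ y))) (gin M a) y v w = pb ψ (gin M a) (Λ y) (A v) (A w) := by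
  rw [pb, show fderiv ℝ (fun y => sh c φ (ψ (Λ y))) y = _ from
    ((sh_fd c φ _).comp y (h.hasFDerivAt.comp y l)).fderiv]
  exact (hin_ap (M, a) _ _ _).symm.trans ((hin_sh _ _ _ _ _ _).trans (hin_ap _ _ _ _))

/-- The shear as a linear map. -/
def shL : R4 →L[ℝ] R4 := (cv 0 - cv 1).prod (.snd ℝ ℝ _)

theorem pb_shr {ψ : R4 → R4} {y : R4} (h : DifferentiableAt ℝ ψ (shr y)) (g : Tw) (v w : R4) :
    pb (ψ ∘ shr) g y v w = pb ψ g (shr y) (shL v) (shL w) := by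
  rw [pb, show fderiv ℝ (ψ ∘ shr) y = _ from
    (h.hasFDerivAt.comp y (f := shr) shL.hasFDerivAt).fderiv]
  rfl

theorem ref_df {p0 k ε1 C0 s1 r H b σ Ψ S x} (h : Ref p0 k ε1 C0 s1 r H b σ Ψ S x) {z : R4}
    (hz : ‖z.2.2‖ ≤ 9) : DifferentiableAt ℝ (Ψ x) z :=
  ((h.smooth z hz).comp z (f := fun y => (x, y))
    (contDiffAt_const.prodMk contDiffAt_id)).differentiableAt (by simp)

theorem cov_nm (l : R4 →L[ℝ] ℝ) : ‖l‖ ≤ |l e0| + |l e1| + |l (ey 0)| + |l (ey 1)| :=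
  l.opNorm_le_bound (by positivity) fun v => by
    have e : v = v.1 • e0 + v.2.1 • e1 + v.2.2.1 • ey 0 + v.2.2.2 • ey 1 := by simp [e0, e1, ey]
    have n : ∀ (t : ℝ) u, |t| ≤ ‖v‖ → |l (t • u)| ≤ |l u| * ‖v‖ := fun t u h => by
      rw [map_smul, smul_eq_mul, abs_mul, mul_comm]
      exact mul_le_mul_of_nonneg_left h (abs_nonneg _)
    have a := norm_snd_le v
    have b := (norm_snd_le v.2).trans a
    conv_lhs => rw [e]
    simp only [map_add, add_mul]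
    exact norm_add_le_of_le (norm_add_le_of_le (norm_add_le_of_le (n _ _ (norm_fst_le v))
      (n _ _ ((norm_fst_le v.2).trans a))) (n _ _ ((norm_fst_le v.2.2).trans b)))
      (n _ _ ((norm_snd_le v.2.2).trans b))

/-- Lower bounds from a bound for the inverse of the metric. -/
theorem met_low {g : Tw} {z : R4} {C : ℝ} (hC : 1 ≤ C) (b : Bilin (g z))
    (s : ∀ v w, g z v w = g z w v) (n : Nul g z) (o : 0 < Om g z) (d : 0 < dg g z)
    (p : 0 < gm g 0 0 z) (h : ∀ v, ‖v‖ ≤ C * ‖tb g z v‖) :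
    C⁻¹ ≤ Om g z ∧ (C ^ 2)⁻¹ ≤ dg g z ∧ C⁻¹ ≤ gm g 0 0 z := by
  have c0 : 0 < C := by linarith
  have k : ∀ v, ‖v‖ ≤ C * (|g z v e0| + |g z v e1| + |g z v (ey 0)| + |g z v (ey 1)|) := fun v =>
    (h v).trans (mul_le_mul_of_nonneg_left (by simpa only [tb_ap b] using cov_nm (tb g z v)) c0.le)
  have k0 := k e0
  have k1 : ∀ α β : ℝ, max |α| |β| ≤ C * (|α * gm g 0 0 z + β * gm g 0 1 z| +
      |α * gm g 0 1 z + β * gm g 1 1 z|) := fun α β => by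
    have := k (α • ey 0 + β • ey 1 + (-g z (α • ey 0 + β • ey 1) e1 / Om g z) • e0)
    rw [b.add_left _ (_ • e0) e1, b.smul_left _ e0 e1, show g z e0 e1 = Om g z from rfl,
      div_mul_cancel₀ _ o.ne', add_neg_cancel] at this
    simp only [b.add_left, b.smul_left, s _ e0, n.1, n.2, s (ey 1) (ey 0), mul_zero, add_zero,
      abs_zero, zero_add] at this
    refine le_trans (le_trans ?_ ((norm_snd_le _).trans (norm_snd_le _))) this
    simp [ey, e0, Prod.norm_def]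
  have k2 := (le_abs_self _).trans ((le_max_left _ _).trans (k1 (gm g 1 1 z) (-gm g 0 1 z)))
  have k3 := (le_abs_self _).trans ((le_max_right _ _).trans (k1 (-gm g 0 1 z) (gm g 0 0 z)))
  have e1 : gm g 1 1 z * gm g 0 0 z + -gm g 0 1 z * gm g 0 1 z = dg g z := by rw [dg]; ring
  have e2 : -gm g 0 1 z * gm g 0 1 z + gm g 0 0 z * gm g 1 1 z = dg g z := by rw [dg]; ring
  rw [e1, show gm g 1 1 z * gm g 0 1 z + -gm g 0 1 z * gm g 1 1 z = 0 by ring, abs_zero, add_zero,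
    abs_of_pos d] at k2
  rw [e2, show -gm g 0 1 z * gm g 0 0 z + gm g 0 0 z * gm g 0 1 z = 0 by ring, abs_zero, zero_add,
    abs_of_pos d] at k3
  have k4 : 1 ≤ gm g 0 0 z * C := le_of_mul_le_mul_right (a := dg g z) (by
    have := mul_le_mul_of_nonneg_left k2 p.le
    rw [← e2] at this ⊢
    nlinarith [mul_self_nonneg (gm g 0 1 z)]) d
  rw [n.1, n.2, n.2, show g z e0 P354SA.e1 = Om g z from rfl, abs_of_pos o] at k0
  refine ⟨(inv_le_iff_one_le_mul₀' c0).2 (by simpa [e0] using k0),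
    (inv_le_iff_one_le_mul₀' (by positivity)).2 (by nlinarith),
    (inv_le_iff_one_le_mul₀ c0).2 k4⟩

/-- The null structure does not depend on the parameter along the rays. -/
theorem nul_ch {G : R4 → R4 → ℝ} (b : Bilin G) (s : ∀ v w, G v w = G w v) {A A' : R4 →L[ℝ] R4}
    {g g' : Tw} {z z' : R4} (hA : ∀ v, (A v).2 = v.2) (hA' : ∀ v, (A' v).2 = v.2)
    (p : 0 < (A e0).1) (p' : 0 < (A' e0).1) (e : ∀ v w, g z v w = G (A v) (A w))
    (e' : ∀ v w, g' z' v w = G (A' v) (A' w))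
    (h : Nul g z ∧ 0 < Om g z ∧ 0 < dg g z ∧ 0 < gm g 0 0 z) :
    Nul g' z' ∧ 0 < Om g' z' ∧ 0 < dg g' z' ∧ 0 < gm g' 0 0 z' := by
  have f : ∀ {A : R4 →L[ℝ] R4}, (∀ v, (A v).2 = v.2) → ∀ v, A v = ((A v).1 - v.1) • e0 + v :=
    fun hA v => Prod.ext (by simp [e0]) (by simp [e0, hA, Prod.mk_zero_zero])
  have f0 : ∀ {A : R4 →L[ℝ] R4}, (∀ v, (A v).2 = v.2) → A e0 = (A e0).1 • e0 :=
    fun hA => Prod.ext (by simp [e0]) (by simp [e0, hA, Prod.mk_zero_zero])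
  obtain ⟨⟨n0, n1⟩, o, d, q⟩ := h
  have m0 : G e0 e0 = 0 := by
    rw [e, f0 hA, b.smul_left, b.smul_right] at n0
    simpa [p.ne'] using n0
  have m : ∀ {A : R4 →L[ℝ] R4}, (∀ v, (A v).2 = v.2) → ∀ v, G (A e0) (A v) = (A e0).1 * G e0 v :=
    fun hA v => by
      rw [f hA v, b.add_right, b.smul_right, f0 hA, b.smul_left, b.smul_left, m0]
      simp [e0]
  have m1 : ∀ a, G e0 (ey a) = 0 := fun a => by simpa [e, m hA, p.ne'] using n1 a
  have m2 : ∀ {A : R4 →L[ℝ] R4}, (∀ v, (A v).2 = v.2) → ∀ a c,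
      G (A (ey a)) (A (ey c)) = G (ey a) (ey c) := fun hA a c => by
    rw [f hA (ey a), f hA (ey c)]
    simp only [b.add_left, b.add_right, b.smul_left, b.smul_right, s _ e0, m0, m1, mul_zero,
      add_zero, zero_add]
  simp only [Nul, Om, dg, gm, e, e', m hA, m hA', m2 hA, m2 hA', m0, m1, mul_zero] at *
  exact ⟨⟨trivial, fun _ => trivial⟩, mul_pos p' ((mul_pos_iff_of_pos_left p).1 o), d, q⟩

theorem shp_mono {g : Tw} {z : R4} {C C' r : ℝ} (h : Shp C r g z) (e : C ≤ C') : Shp C' r g z :=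
  ⟨h.1.mono e, fun a => (h.2.1 a).mono e, fun a b => ⟨(h.2.2 a b).1.mono e,
    (h.2.2 a b).2.trans (div_le_div_of_nonneg_right e (sq_nonneg _))⟩⟩

theorem met1 : MET1 := by
  intro M a r1 r2 B hB h0
  obtain ⟨C, c1, hC⟩ := P354YI.pbg M a r1 r2 B 3 h0
  have i1 : C ≤ B * C ^ 2 := by nlinarith [mul_le_mul hB (one_le_pow₀ c1 (n := 2))]
  have i2 : C ^ 2 ≤ B * C ^ 2 := le_mul_of_one_le_left (by positivity) hB
  have i3 : B ≤ B * C ^ 2 := le_mul_of_one_le_right (by positivity) (one_le_pow₀ c1)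
  obtain ⟨E, e1, hE⟩ := P354CH.rzs (B * C ^ 2) (hB.trans i3)
  refine ⟨max E (B * C ^ 2), e1.trans (le_max_left _ _), ?_⟩
  rintro p0 k ε1 C0 s1 r H b σ Ψ S x Λ Θ c φ z g h hM ha hz hΛ hΘ hg j l hr
  obtain ⟨b1, b2⟩ := hg ▸ hC _ _ Θ z hM ha j l hr
  obtain ⟨s0, l0, p⟩ := hΛ.self_of_nhds
  have n9 : ‖(Λ z).2.2‖ ≤ 9 := l0 ▸ hz.le
  have d := ref_df h n9
  have u : shr ((Λ z).1 + (Λ z).2.1, (Λ z).2) = Λ z := by simp [shr]
  obtain ⟨n0, n1, n2, n3, n4, -⟩ := h.ray ((Λ z).1 + (Λ z).2.1, (Λ z).2) n9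
  have bl : Bilin (g z) := hg ▸ bil_pb (P354XA.gin_bil _ _ _)
  have sy : ∀ v w, g z v w = g z w v := fun v w => hg ▸ P354XA.gin_symm _ _ _ _ _
  obtain ⟨m0, m1, m2, m3⟩ := nul_ch (G := pb (Ψ x) (gin x.1.1 x.1.2.1) (Λ z))
    (bil_pb (P354XA.gin_bil _ _ _)) (fun v w => P354XA.gin_symm _ _ _ _ _) (A := shL)
    (A' := fderiv ℝ Λ z) (g' := g) (z' := z) (fun _ => rfl) (fun v => congrArg (· v)
      ((s0.diff.hasFDerivAt.snd.congr_of_eventuallyEq (hΛ.mono fun _ m => m.2.1.symm)).unique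
        hasFDerivAt_snd)) (by simp [shL, cv, e0]) p
    (fun v w => by rw [pb_shr (u.symm ▸ d), u])
    (fun v w => by rw [hg, hΘ, pb_ch d s0.diff.hasFDerivAt]) ⟨⟨n0, n1⟩, n2, n3, n4⟩
  obtain ⟨o1, o2, o3⟩ := met_low c1 bl sy m0 m1 m2 m3 b2
  have b0 : 0 ≤ B := by linarith
  obtain ⟨U, oU, hU, sm, q⟩ := j.sm.on
    (((P354XA.rd_cont.continuousAt.comp j.sm.cont).eventually (lt_mem_nhds (h0.trans_le hr.1))).and
      (j.sm.fderiv.cont.eventually (ContinuousLinearMap.isOpen_injective.mem_nhds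
        ((injective_iff_map_eq_zero _).2 fun v m => norm_le_zero_iff.1
          ((l v).trans_eq (by rw [m, norm_zero, mul_zero]))))))
  have G := P354XA.gin_lv x.1.1 x.1.2.1
  have P : Pull Θ g U _ _ := ⟨oU, G.isOpen, G.met, sm, fun y m => (q y m).1, fun y m => (q y m).2,
    fun _ _ _ _ => hg ▸ rfl⟩
  have w : ∀ {t s : ℝ}, 0 < t → t ≤ B * C ^ 2 → t⁻¹ ≤ s → (B * C ^ 2)⁻¹ ≤ s :=
    fun t0 t1 t2 => (inv_anti₀ t0 t1).trans t2
  have w' : ∀ {s : ℝ}, (B * C ^ 2)⁻¹ ≤ s → (max E (B * C ^ 2))⁻¹ ≤ s :=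
    fun t => (inv_anti₀ (by positivity) (le_max_right _ _)).trans t
  have a1 := w (by positivity) i1 o1
  have a2 := w (by positivity) i2 o2
  exact ⟨m0, w' a1, w' a2, w' (w (by positivity) i1 o3), fun rc m =>
    shp_mono (hE g U z rc oU (P354RC.rp_pb P (rp_tb G.isOpen G.met)).met hU
      (P354YO.bd_mono b1 le_rfl i1) a1 a2 ⟨m.1, m.2.trans i3⟩) (le_max_left _ _)⟩

theorem jb_tr {k : ℕ} {f f' : R4 → ℝ} {z v : R4} {C : ℝ} (h : JB k f (z - v) C)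
    (e : f' =ᶠ[𝓝 z] fun y => f (y - v)) : JB k f' z C :=
  JB.congr ⟨h.sm.comp (f := fun y => y - v) (.of (by fun_prop)), fun i m => by
    rw [iteratedFDeriv_comp_sub]
    exact h.le i m⟩ e

theorem met2 : MET2 := by
  intro p0 k ε1 C0 s1 r H b σ Ψ S x Λ c φ sc z g h c0 hz hΛ hg
  have n9 : ∀ᶠ y : R4 in 𝓝 z, ‖y.2.2‖ < 9 :=
    (show ContinuousAt (fun y : R4 => ‖y.2.2‖) z by fun_prop).eventually (gt_mem_nhds hz)
  have u : ∀ y : R4, (y - sc • e0).2 = y.2 ∧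
      (y - sc • e0).1 - (y - sc • e0).2.1 = y.1 - y.2.1 - sc := fun y =>
    ⟨by simp [e0, Prod.mk_zero_zero], by simp [e0]; ring⟩
  have E : ∀ᶠ y in 𝓝 z, g y = pb (Ψ x ∘ shr) (gin x.1.1 x.1.2.1) (y - sc • e0) := by
    filter_upwards [hΛ.eventually_nhds, n9] with y m n
    have v : shr (y - sc • e0) = Λ y := by rw [shr, (u y).2, (u y).1, m.self_of_nhds]
    have d := ref_df h (z := Λ y) (by rw [m.self_of_nhds]; exact n.le)
    funext α β
    rw [hg, pb_shr (v ▸ d), v, pb_ch d ((shL.hasFDerivAt.sub_const (sc, 0)).congr_of_eventuallyEq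
      (m.mono fun _ i => i.trans (Prod.ext rfl (sub_zero _).symm)))]
  have R : ∀ y : R4, ‖y.2.2‖ < 9 → y.1 - y.2.1 - sc ≤ 0 → _ := fun y m n =>
    (h.ray (y - sc • e0) ((u y).1.symm ▸ m.le)).2.2.2.2.2 ((u y).2.trans_le n)
  have Z : ∀ᶠ y in 𝓝 z, y.1 - y.2.1 - sc ≤ 0 → a0 g y = 0 := by
    filter_upwards [E, n9] with y m n i
    rw [← (R y n i).1]
    simp only [a0, a1, Om, gi, dg, gm, m]
  refine ⟨Z.self_of_nhds, fun i => ?_⟩
  obtain ⟨-, r1, r2⟩ := R z hz i.le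
  have i' : ∀ᶠ y : R4 in 𝓝 z, y.1 - y.2.1 - sc < 0 :=
    (show ContinuousAt (fun y : R4 => y.1 - y.2.1 - sc) z by fun_prop).eventually (gt_mem_nhds i)
  refine ⟨((JB.const (0 : ℝ)).mono (norm_zero.trans_le c0)).congr
    ((Z.and i').mono fun y m => m.1 m.2.le), fun a => jb_tr ((r1 a).ord (by omega))
      (E.mono fun y m => by simp only [a1, gi, dg, gm, m]), fun a b =>
    ⟨jb_tr ((r2 a b).1.ord (by omega)) (E.mono fun y m => by simp only [a2, Om, gi, dg, gm, m]), ?_⟩⟩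
  rw [← (u z).2]
  simpa only [a2, Om, gi, dg, gm, E.self_of_nhds] using (r2 a b).2

end Vale.Agent.P354RF
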