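import Vale.Agent.P354RF.Bas
import Vale.Agent.P354YJ.GB2

/-!
The rays are the lines of the gradient of v.
-/

open scoped ContDiff
open Set Real

noncomputable section

namespace Vale.Agent.P354RF

open Vale.Agent.P354n (R4)
open Vale.Agent.P354I (X P3 rm rp)
open Vale.Agent.P354R (ht omm kap ht_smooth ht_mem)
open Vale.Agent.P354RG (Y3 gs gz zh)
open Vale.Agent.P354XE (gin rd xs pt dr dq kf)
open Vale.Agent.P354XA (ip rd_sq rd_nonneg dr_eq dq_eq rnd_eq Sg_eq)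
open Vale.Agent.P354D (sgn)
open Vale.Agent.P354YJ (hT hP rz)
open Vale.Agent.P354SA (e0)

theorem key_alg {M a r n1 n2 z R g κ T T' : ℝ} (A : R4) (hr : 0 < r)
    (hN : n1 ^ 2 + n2 ^ 2 + z ^ 2 = 1) {P : R4} (hP : P = (T, r * n1, r * n2, r * z)) :
    gin M a P (T', R * n1 + r * (-(g * n2) + κ * z * n1), R * n2 + r * (g * n1 + κ * z * n2),
      R * z + r * -(κ * (1 - z ^ 2))) A =
    -(T' * A.1) + R * dr P A - a * (R * dq P A + g * (1 - z ^ 2) * dr P A) +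
      (r ^ 2 + a ^ 2 * z ^ 2) * (g * dq P A - κ * ((A.2.2.2 - z * dr P A) / r)) +
      a ^ 2 * (g * (1 - z ^ 2) * dq P A) + 2 * M * r / (r ^ 2 + a ^ 2 * z ^ 2) *
        ((T' + R - a * (g * (1 - z ^ 2))) * (A.1 + dr P A - a * dq P A)) := by
  have e : rd P = r := by
    rw [← sq_eq_sq₀ (rd_nonneg _) hr.le, rd_sq, hP, ip]
    linear_combination r ^ 2 * hN
  have r0 := hr.ne'
  generalize hV : ((T', R * n1 + r * (-(g * n2) + κ * z * n1), R * n2 + r * (g * n1 + κ * z * n2),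
      R * z + r * -(κ * (1 - z ^ 2))) : R4) = V
  have e1 : dr P V = R := by
    rw [dr_eq, e, hP, ← hV, ip]
    field_simp
    linear_combination (R + r * κ * z) * hN
  have e2 : dq P V = g * (1 - z ^ 2) := by
    rw [dq_eq, e, hP, ← hV]
    field_simp
    linear_combination g * r * hN
  have e3 : P354I.Sg a r (xs P) = r ^ 2 + a ^ 2 * z ^ 2 := by
    rw [← e, Sg_eq, e, hP]
    field_simp
  have e4 : P354I.rnd (xs P) (xs V) (xs A) = g * dq P A - κ * ((A.2.2.2 - z * dr P A) / r) := by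
    rw [rnd_eq, dq_eq, dr_eq, e, hP, ← hV]
    simp only [ip]
    field_simp
    linear_combination (-(R + r * κ * z) * (n1 * A.2.1 + n2 * A.2.2.1 + z * A.2.2.2)) * hN
  simp only [gin, kf, e, e1, e2, e3, e4]
  rw [← hV]

theorem key_num {M a u q ζ z s c R r f x0 x1 x2 x3 : ℝ} (hr : 0 < r) (hq : 0 < q) (hc : 0 < c)
    (hu : u ^ 2 = a ^ 2) (h1 : s ^ 2 + c ^ 2 = 1) (h2 : z ^ 2 + (1 - ζ ^ 2) * c ^ 2 = 1)
    (h3 : q ^ 2 = (1 + a ^ 2 * r⁻¹ ^ 2) ^ 2 - a ^ 2 * (1 - ζ ^ 2) *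
      (r⁻¹ ^ 2 * (1 - 2 * M * r⁻¹ + a ^ 2 * r⁻¹ ^ 2)))
    (h4 : f = -(a ^ 2 * (1 - ζ ^ 2)) / (q + (1 + a ^ 2 * r⁻¹ ^ 2))) {T g κ : ℝ}
    (hT : T = (f + u * (u / q) * ((1 - ζ ^ 2) * s ^ 2)) * (-R / r ^ 2) - R)
    (hg : g = -(a * (1 + r⁻¹ ^ 2 * f) / q) * (-R / r ^ 2))
    (hκ : κ = -(s / c * (u / q) * (-R / r ^ 2))) :
    -(T * x0) + R * x1 - a * (R * x2 + g * (1 - z ^ 2) * x1) +
      (r ^ 2 + a ^ 2 * z ^ 2) * (g * x2 - κ * x3) + a ^ 2 * (g * (1 - z ^ 2) * x2) +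
      2 * M * r / (r ^ 2 + a ^ 2 * z ^ 2) * ((T + R - a * (g * (1 - z ^ 2))) * (x0 + x1 - a * x2)) =
    R * ((1 + a ^ 2 * z ^ 2 * r⁻¹ ^ 2) / q) * (x0 + (1 + r⁻¹ ^ 2 * f) * x1 - u * (s / c) * x3) := by
  have r0 := hr.ne'
  have q0 := hq.ne'
  have c0 := hc.ne'
  have e1 : f * (q * r ^ 2 + r ^ 2 + a ^ 2) = -(a ^ 2 * (1 - ζ ^ 2) * r ^ 2) := by
    have : 0 < q + (1 + a ^ 2 * r⁻¹ ^ 2) := by positivity
    rw [h4]
    field_simp
    ring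
  have e2 : q ^ 2 * r ^ 4 = (r ^ 2 + a ^ 2) ^ 2 -
      a ^ 2 * (1 - ζ ^ 2) * (r ^ 2 - 2 * M * r + a ^ 2) := by
    rw [h3]
    field_simp
  have e3 : f * (r ^ 2 - 2 * M * r + a ^ 2) = r ^ 2 * (q * r ^ 2 - r ^ 2 - a ^ 2) := by
    refine mul_right_cancel₀ (b := q * r ^ 2 + r ^ 2 + a ^ 2) (by positivity) ?_
    linear_combination (r ^ 2 - 2 * M * r + a ^ 2) * e1 - r ^ 2 * e2
  have e4 : T = -((f + a ^ 2 * (z ^ 2 - ζ ^ 2) / q) * R / r ^ 2) - R := by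
    rw [hT, show (1 - ζ ^ 2) * s ^ 2 = z ^ 2 - ζ ^ 2 by linear_combination (1 - ζ ^ 2) * h1 - h2,
      ← hu]
    ring
  have e6 : 2 * M * f = r * (r ^ 2 + a ^ 2 * ζ ^ 2 - f * q - r ^ 2 * q) :=
    mul_left_cancel₀ r0 (by linear_combination e1 - e3)
  have e5 : 2 * M * r / (r ^ 2 + a ^ 2 * z ^ 2) * (T + R - a * (g * (1 - z ^ 2))) =
      R * ((1 + a ^ 2 * z ^ 2 * r⁻¹ ^ 2) / q) + T := by
    have : 0 < r ^ 2 + a ^ 2 * z ^ 2 := by positivity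
    rw [e4, hg]
    field_simp
    linear_combination (r ^ 2 + a ^ 2 * z ^ 2) * R * e6 - 2 * M * R * e1
  rw [← mul_assoc (2 * M * r / _), e5, e4, hg, hκ]
  field_simp
  linear_combination R * c * (a * x2 - x1) * e1

theorem line_d {E : Type} [NormedAddCommGroup E] [NormedSpace ℝ E] {F : R4 → E} {z : R4}
    (hF : DifferentiableAt ℝ F z) (A : R4) :
    HasDerivAt (fun t : ℝ => F (z + t • A)) (fderiv ℝ F z A) 0 :=
  hF.hasFDerivAt.hasLineDerivAt A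

theorem y_d {f : Y3 → ℝ} (hf : ContDiff ℝ ∞ f) (p : P3) {u v : ℝ → ℝ} {u' v' t : ℝ}
    (hu : HasDerivAt u u' t) (hv : HasDerivAt v v' t) : HasDerivAt (fun t => f (p, u t, v t))
      (gs f (p, u t, v t) * u' + gz f (p, u t, v t) * v') t := by
  refine (HasFDerivAt.comp_hasDerivAt t (f := fun t => ((p, u t, v t) : Y3))
    (hf.differentiable (by simp) _).hasFDerivAt
    ((hasDerivAt_const t p).prodMk (hu.prodMk hv))).congr_deriv ?_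
  rw [show ((0, u', v') : Y3) = u' • ((0, 1, 0) : Y3) + v' • ((0, 0, 1) : Y3) by simp, map_add,
    map_smul, map_smul, gs, gz, smul_eq_mul, smul_eq_mul, mul_comm, mul_comm v']

namespace Cx.Ok

variable {c : Cx} (h : c.Ok) {x : P3 × ℝ} (hp : x.1 ∈ c.B) (z : R4)
include h hp

theorem Ps_df : DifferentiableAt ℝ (c.Ps x) z :=
  ((h.Ps_cd hp z).comp z (f := fun z => (x, z)) (by fun_prop)).differentiableAt (by simp)

/-- The differentials of the time, the radius and the height. -/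
theorem dA (A : R4) : ∃ ζ' : ℝ, ∀ V, V = fderiv ℝ (c.Ps x) z A → ∀ r', r' = dr (c.Ps x z) V →
    V.1 = gs (c.Y 2) (c.ar x.1 z) * (-r' / c.rr x.1 z ^ 2) + gz (c.Y 2) (c.ar x.1 z) * ζ' - r' +
      c.lam x.1 * A.2.1 ∧ (V.2.2.2 - c.Y 1 (c.ar x.1 z) * r') / c.rr x.1 z =
      gs (c.Y 1) (c.ar x.1 z) * (-r' / c.rr x.1 z ^ 2) + gz (c.Y 1) (c.ar x.1 z) * ζ' := by
  have r0 := (h.rr_pos hp z).ne'
  have s := ht_smooth c.σ
  have D := line_d (h.Ps_df hp z) A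
  have D1 := line_d (F := fun w : R4 => ht c.σ w.2.2) (z := z)
    ((s.comp (by fun_prop)).differentiable (by simp) z) A
  have D2 : HasDerivAt (fun t : ℝ => c.rr x.1 (z + t • A))
      (dr (c.Ps x z) (fderiv ℝ (c.Ps x) z A)) 0 := by
    have k := (P354XA.rd_cd (n := 1) ((h.Ps_rd hp z).trans_ne r0)).differentiableAt one_ne_zero
    have := k.hasFDerivAt.comp_hasDerivAt_of_eq (0 : ℝ) D (by simp)
    rw [P354XA.rd_fd ((h.Ps_rd hp z).trans_ne r0)] at this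
    exact this.congr_of_eventuallyEq (.of_forall fun t => (h.Ps_rd hp _).symm)
  have D3 := fun i => y_d (h.fl.smooth i) x.1 (D2.inv (by simpa using r0)) D1
  have D4 : HasDerivAt (fun t : ℝ => (z + t • A).2.1) A.2.1 0 := by
    simpa using ((hasDerivAt_id (0 : ℝ)).mul_const A.2.1).const_add z.2.1
  refine ⟨fderiv ℝ (fun w : R4 => ht c.σ w.2.2) z A, ?_⟩
  rintro _ rfl _ rfl
  have k1 := (P354RG.hd1 D).unique (((((D3 2).const_add (x.1.2.2 + hT x.1.1 x.1.2.1 x.1.2.2)).sub D2).add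
    (D4.const_mul (c.lam x.1))).congr_of_eventuallyEq (.of_forall fun t => rfl))
  have k2 := (P354RG.hd2 (P354RG.hd2 (P354RG.hd2 D))).unique ((D2.mul (D3 1)).congr_of_eventuallyEq
    (.of_forall fun t => rfl))
  simp only [Pi.inv_apply, zero_smul, add_zero] at k1 k2
  refine ⟨k1, ?_⟩
  rw [div_eq_iff r0, Cx.ar]
  linear_combination k2

/-- The tangent of the ray. -/
theorem d0 : ∃ n1 n2 T, n1 ^ 2 + n2 ^ 2 + c.Y 1 (c.ar x.1 z) ^ 2 = 1 ∧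
    c.Ps x z = (T, c.rr x.1 z * n1, c.rr x.1 z * n2, c.rr x.1 z * c.Y 1 (c.ar x.1 z)) ∧
    ∀ R u g κ, R = gs c.R (x.1, z.1, ht c.σ z.2.2) → u = -R / c.rr x.1 z ^ 2 →
      g = gs (c.Y 3) (c.ar x.1 z) * u →
      κ = -(sin (c.Y 0 (c.ar x.1 z)) / cos (c.Y 0 (c.ar x.1 z)) * ww (c.ar x.1 z) * u) →
      fderiv ℝ (c.Ps x) z e0 = (gs (c.Y 2) (c.ar x.1 z) * u - R,
        R * n1 + c.rr x.1 z * (-(g * n2) + κ * c.Y 1 (c.ar x.1 z) * n1),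
        R * n2 + c.rr x.1 z * (g * n1 + κ * c.Y 1 (c.ar x.1 z) * n2),
        R * c.Y 1 (c.ar x.1 z) + c.rr x.1 z * -(κ * (1 - c.Y 1 (c.ar x.1 z) ^ 2))) := by
  have r0 := (h.rr_pos hp z).ne'
  have m := h.rr_mem hp z
  obtain ⟨-, o0, o1, -⟩ := h.fl.ode (c.ar x.1 z) hp ⟨(neg_neg_of_pos h.fl.pos).trans_le m.1,
    m.2.trans_lt (lt_add_of_pos_right _ h.fl.pos)⟩
    ((P354R.abs_ht _ _).trans_lt (lt_add_of_pos_right _ h.fl.pos))
  obtain ⟨-, c1, c2, -⟩ := h.fl.noc (c.ar x.1 z) hp m (ht_mem _ _)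
  have c0 := (cos_pos_of_mem_Ioo (abs_lt.1 c1)).ne'
  have N := h.nd_norm hp m z.2.2
  rw [← P354YW.rz_norm (omm x.1.1 x.1.2.1 * (c.lam x.1 * z.2.1)),
    ← sq_eq_sq₀ (norm_nonneg _) zero_le_one, P354YW.nsq, one_pow] at N
  refine ⟨_, _, _, N, by rw [Cx.Ps_eq]; rfl, ?_⟩
  rintro _ _ _ _ rfl rfl rfl rfl
  have D : HasDerivAt (fun t => c.Ps x (t, z.2)) (fderiv ℝ (c.Ps x) z e0) z.1 :=
    HasFDerivAt.comp_hasDerivAt z.1 (f := fun t : ℝ => ((t, z.2) : R4)) (h.Ps_df hp z).hasFDerivAt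
      ((hasDerivAt_id z.1).prodMk (hasDerivAt_const z.1 z.2))
  have D2 : HasDerivAt (fun t => c.rr x.1 (t, z.2)) _ z.1 :=
    P354YJ.gs_eq h.rd.smooth x.1 z.1 (ht c.σ z.2.2)
  have D3 := fun i => y_d (h.fl.smooth i) x.1 (D2.inv r0) (hasDerivAt_const z.1 (ht c.σ z.2.2))
  have Dα := (((D3 3).const_add (hP x.1.1 x.1.2.1 x.1.2.2)).add_const (c.tw x z.2.2)).const_add
    (omm x.1.1 x.1.2.1 * (c.lam x.1 * z.2.1))
  have D5 := (D3 0).cos.mul_const (2 * z.2.2.1 / (1 + z.2.2.1 ^ 2 + z.2.2.2 ^ 2))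
  have D6 := ((D3 0).cos.mul_const (2 * z.2.2.2 / (1 + z.2.2.1 ^ 2 + z.2.2.2 ^ 2))).const_mul
    (sgn c.b)
  have k := D.unique ((((((D3 2).const_add (x.1.2.2 + hT x.1.1 x.1.2.1 x.1.2.2)).sub D2).add_const
    (c.lam x.1 * z.2.1)).prodMk ((D2.mul ((Dα.cos.mul D5).sub (Dα.sin.mul D6))).prodMk
      ((D2.mul ((Dα.sin.mul D5).add (Dα.cos.mul D6))).prodMk
        (D2.mul (D3 1))))).congr_of_eventuallyEq (.of_forall fun t => by
          beta_reduce; rw [Cx.Ps_eq, Cx.nd, P354YW.rz_rz]; rfl))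
  rw [k, Cx.nd, P354YW.rz_rz]
  simp only [Pi.inv_apply, Pi.mul_apply, Pi.add_apply, Pi.sub_apply, mul_zero, add_zero]
  change _ = _ at o0 o1 c2
  simp only [Cx.ar] at o0 o1 c2 c0 ⊢
  rw [o0, o1]
  have v : ∀ θ a b d : ℝ, rz θ !₂[a, b, d] 0 = cos θ * a - sin θ * b ∧
    rz θ !₂[a, b, d] 1 = sin θ * a + cos θ * b := fun _ _ _ _ => ⟨rfl, rfl⟩
  simp only [v, Prod.mk.eta]
  clear k D5 D6 Dα D3 D2 D N o0 o1 c1
  generalize omm x.1.1 x.1.2.1 * _ + _ = θ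
  generalize ((x.1, (c.rr x.1 z)⁻¹, ht c.σ z.2.2) : Y3) = w at *
  generalize 2 * z.2.2.1 / _ = n1
  generalize 2 * z.2.2.2 / _ = n2
  refine Prod.ext rfl (Prod.ext ?_ (Prod.ext ?_ ?_)) <;> simp only
  · field_simp
    ring
  · field_simp
    ring
  · rw [← eq_sub_iff_add_eq'.2 c2]
    field_simp

end Cx.Ok

theorem rkey : RKEY := fun c h _ x hx z => by
  have hp := hx.1
  have r0 := h.rr_pos hp z
  have m := h.rr_mem hp z
  obtain ⟨q0, -, o1, o2, o3⟩ := h.fl.ode (c.ar x.1 z) hp ⟨(neg_neg_of_pos h.fl.pos).trans_le m.1,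
    m.2.trans_lt (lt_add_of_pos_right _ h.fl.pos)⟩
    ((P354R.abs_ht _ _).trans_lt (lt_add_of_pos_right _ h.fl.pos))
  obtain ⟨-, c1, c2, c3, -⟩ := h.fl.noc (c.ar x.1 z) hp m (ht_mem _ _)
  have c0 := cos_pos_of_mem_Ioo (abs_lt.1 c1)
  have R0 := (h.rd.mono (x.1, z.1, ht c.σ z.2.2) hp (ht_mem _ _)).2.1
  have q1 := sqrt_pos.2 q0
  obtain ⟨n1, n2, T, hN, hP, hV⟩ := h.d0 hp z
  rw [hV _ _ _ _ rfl rfl rfl rfl]
  refine ⟨?_, fun A => ?_⟩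
  · have z1 : 0 ≤ 1 - ht c.σ z.2.2 ^ 2 := by rw [P354R.one_sub_ht]; positivity
    have f1 : 0 < 1 + (c.rr x.1 z)⁻¹ ^ 2 * fq (c.ar x.1 z) := by
      have : 0 < √(q2 (c.ar x.1 z)) + (1 + x.1.2.1 ^ 2 * (c.rr x.1 z)⁻¹ ^ 2) := by positivity
      simp only [fq, Cx.ar] at q1 this ⊢
      rw [← mul_div_assoc, one_add_div this.ne']
      refine div_pos ?_ this
      have : 0 ≤ x.1.2.1 ^ 2 * (c.rr x.1 z)⁻¹ ^ 2 * ht c.σ z.2.2 ^ 2 := by positivity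
      linarith
    have f2 : 0 ≤ |x.1.2.1| * ww (c.ar x.1 z) *
      ((1 - ht c.σ z.2.2 ^ 2) * sin (c.Y 0 (c.ar x.1 z)) ^ 2) * (c.rr x.1 z)⁻¹ ^ 2 := by
      unfold ww
      positivity
    rw [o2]
    refine lt_of_eq_of_lt ?_ (neg_neg_of_pos (mul_pos R0 (add_pos_of_pos_of_nonneg f1 f2)))
    simp only [Cx.ar]
    field_simp
    ring
  obtain ⟨ζ', hA⟩ := h.dA hp z A
  obtain ⟨a1, a2⟩ := hA _ rfl _ rfl
  rw [key_alg _ r0 hN hP]
  refine (key_num (M := x.1.1) (u := |x.1.2.1|) (f := fq (c.ar x.1 z)) r0 q1 c0 (sq_abs _)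
    (sin_sq_add_cos_sq _) c2 (sq_sqrt q0.le) rfl (by rw [o2]; rfl) (by rw [o3]; rfl) rfl).trans ?_
  rw [mul_assoc _ (c.lam x.1), a1, a2, o1, o2]
  congr 1
  have e : gz (c.Y 2) (c.ar x.1 z) = |x.1.2.1| * (sin (c.Y 0 (c.ar x.1 z)) /
      cos (c.Y 0 (c.ar x.1 z))) * gz (c.Y 1) (c.ar x.1 z) := by
    change _ = |x.1.2.1| * _ * _ at c3
    field_simp
    linear_combination c3
  rw [e, show (c.ar x.1 z).1 = x.1 from rfl]
  field_simp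
  ring

end Vale.Agent.P354RF
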