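import Vale.Agent.P354RF.Bas
import Vale.Agent.P354XM.Jet
import Vale.Agent.P354JK.Main

/-!
RANG: the angles of the far chart along the rays.
-/

open scoped ContDiff
open Set Filter Topology Function Real

noncomputable section

namespace Vale.Agent.P354RF

open Vale.Agent.P354n (R4)
open Vale.Agent.P354I (X P3 rm rp)
open Vale.Agent.P354R (omm)
open Vale.Agent.P354E (sg)
open Vale.Agent.P354J (Phi Psi)
open Vale.Agent.P354JK (phi_psi psi_smooth phi_smooth)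
open Vale.Agent.P354XE (rd xs pt)
open Vale.Agent.P354YJ (rz)
open Vale.Agent.P354YW (rz_norm rz_rz rz_smul rz_zero rz_inj rm_pos)
open Vale.Agent.P354XM (lip_cpt immers)
open Vale.Agent.P354SA (e0 et ps)

/-- The inverse of an embedding of a compact set is Lipschitz. -/
theorem ra_low {E F : Type} [NormedAddCommGroup E] [NormedSpace ℝ E] [FiniteDimensional ℝ E]
    [NormedAddCommGroup F] [NormedSpace ℝ F] {Φ : E → F} {K : Set E} (hK : IsCompact K)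
    (s : ∀ e ∈ K, ContDiffAt ℝ ∞ Φ e) (j : InjOn Φ K)
    (i : ∀ e ∈ K, ∀ v, HasDerivAt (fun t : ℝ => Φ (e + t • v)) 0 0 → v = 0) :
    ∃ C, 0 ≤ C ∧ ∀ e ∈ K, ∀ e' ∈ K, ‖e - e'‖ ≤ C * ‖Φ e - Φ e'‖ := by
  have key : ∃ C, 0 ≤ C ∧ ∀ q ∈ K ×ˢ K, ‖q.1 - q.2‖ ≤ C * ‖Φ q.1 - Φ q.2‖ := by
    refine (hK.prod hK).induction_on
      (p := fun S => ∃ C, 0 ≤ C ∧ ∀ q ∈ S, ‖q.1 - q.2‖ ≤ C * ‖Φ q.1 - Φ q.2‖)
      ⟨0, le_rfl, fun _ m => m.elim⟩ (fun _ _ st ⟨C, a, b⟩ => ⟨C, a, fun q m => b q (st m)⟩)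
      (fun _ _ ⟨C, a, b⟩ ⟨C', a', b'⟩ => ⟨C + C', by positivity, fun q m => ?_⟩) ?_
    · have n := norm_nonneg (Φ q.1 - Φ q.2)
      rcases m with m | m
      · nlinarith [b q m, mul_nonneg a' n]
      · nlinarith [b' q m, mul_nonneg a n]
    rintro ⟨e, e'⟩ ⟨m, m'⟩
    by_cases k : e = e'
    · subst k
      obtain ⟨C, δ, c, d, h⟩ := immers (s e m) (i e m)
      refine ⟨Metric.closedBall e δ ×ˢ Metric.closedBall e δ, mem_nhdsWithin_of_mem_nhds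
        (prod_mem_nhds (Metric.closedBall_mem_nhds e d) (Metric.closedBall_mem_nhds e d)),
        C, c.le, fun q a => h _ _ (mem_closedBall_iff_norm.1 a.1) (mem_closedBall_iff_norm.1 a.2)⟩
    · have n : 0 < ‖Φ e - Φ e'‖ := norm_pos_iff.2 (sub_ne_zero.2 fun a => k (j m m' a))
      have c1 : ContinuousAt (fun q : E × E => Φ q.1) (e, e') :=
        (s e m).continuousAt.comp (f := Prod.fst) continuousAt_fst
      have c2 : ContinuousAt (fun q : E × E => Φ q.2) (e, e') :=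
        (s e' m').continuousAt.comp (f := Prod.snd) continuousAt_snd
      have v : ∀ᶠ q : E × E in 𝓝 (e, e'),
          ‖q.1 - q.2‖ < (‖e - e'‖ / ‖Φ e - Φ e'‖ + 1) * ‖Φ q.1 - Φ q.2‖ :=
        (continuousAt_fst.sub continuousAt_snd).norm.eventually_lt
          (continuousAt_const.mul (c1.sub c2).norm) (by
            show ‖e - e'‖ < _
            simp only [add_mul, div_mul_cancel₀ _ n.ne']
            linarith)
      exact ⟨_, mem_nhdsWithin_of_mem_nhds v, _, by positivity, fun q a => le_of_lt a⟩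
  obtain ⟨C, a, b⟩ := key
  exact ⟨C, a, fun e m e' m' => b (e, e') ⟨m, m'⟩⟩

theorem ra_fst {E F : Type} [NormedAddCommGroup E] [NormedSpace ℝ E] [NormedAddCommGroup F]
    [NormedSpace ℝ F] {f : ℝ → E × F} {f' : E × F} {t : ℝ} (h : HasDerivAt f f' t) :
    HasDerivAt (fun t => (f t).1) f'.1 t :=
  (ContinuousLinearMap.fst ℝ E F).hasFDerivAt.comp_hasDerivAt t h

theorem ra_snd {E F : Type} [NormedAddCommGroup E] [NormedSpace ℝ E] [NormedAddCommGroup F]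
    [NormedSpace ℝ F] {f : ℝ → E × F} {f' : E × F} {t : ℝ} (h : HasDerivAt f f' t) :
    HasDerivAt (fun t => (f t).2) f'.2 t :=
  (ContinuousLinearMap.snd ℝ E F).hasFDerivAt.comp_hasDerivAt t h

/-- The rotation of the plane. -/
def raR (φ : ℝ) (u : ℝ × ℝ) : ℝ × ℝ := (cos φ * u.1 - sin φ * u.2, sin φ * u.1 + cos φ * u.2)

theorem raR_sub (φ : ℝ) (u v : ℝ × ℝ) : raR φ u - raR φ v = raR φ (u - v) := by
  simp only [raR, Prod.mk_sub_mk, Prod.fst_sub, Prod.snd_sub, Prod.mk.injEq]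
  constructor <;> ring

theorem raR_le (φ : ℝ) (u : ℝ × ℝ) : ‖raR φ u‖ ≤ 2 * ‖u‖ := by
  have a : |u.1| ≤ ‖u‖ := norm_fst_le u
  have b : |u.2| ≤ ‖u‖ := norm_snd_le u
  have k : ∀ c t : ℝ, |c| ≤ 1 → |t| ≤ ‖u‖ → |c * t| ≤ ‖u‖ := fun c t h1 h2 => by
    rw [abs_mul]
    nlinarith [abs_nonneg c, abs_nonneg t]
  refine norm_prod_le_iff.2 ⟨(abs_sub _ _).trans ?_, (abs_add_le _ _).trans ?_⟩
  · linarith [k _ _ (abs_cos_le_one φ) a, k _ _ (abs_sin_le_one φ) b]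
  · linarith [k _ _ (abs_cos_le_one φ) b, k _ _ (abs_sin_le_one φ) a]

theorem raR_ge (φ : ℝ) (u : ℝ × ℝ) : ‖u‖ ≤ 2 * ‖raR φ u‖ := by
  have e : raR (-φ) (raR φ u) = u := by
    simp only [raR, cos_neg, sin_neg]
    refine Prod.ext ?_ ?_
    · linear_combination u.1 * sin_sq_add_cos_sq φ
    · linear_combination u.2 * sin_sq_add_cos_sq φ
  simpa only [e] using raR_le (-φ) (raR φ u)

theorem raR_der (φ : ℝ) {f : ℝ → ℝ × ℝ} {f' : ℝ × ℝ} {t : ℝ} (h : HasDerivAt f f' t) :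
    HasDerivAt (fun t => raR φ (f t)) (raR φ f') t :=
  (((ra_fst h).const_mul _).sub ((ra_snd h).const_mul _)).prodMk
    (((ra_fst h).const_mul _).add ((ra_snd h).const_mul _))

theorem ra_rz (σ : Bool) (φ : ℝ) (y : X) : (Psi σ (rz φ y)).2 = raR φ (Psi σ y).2 := by
  have e0 : rz φ y 0 = cos φ * y 0 - sin φ * y 1 := rfl
  have e1 : rz φ y 1 = sin φ * y 0 + cos φ * y 1 := rfl
  have e2 : rz φ y 2 = y 2 := rfl
  simp only [Psi, raR, rz_norm, e0, e1, e2, Prod.mk.injEq]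
  constructor <;> ring

theorem ra_smul (σ : Bool) {r : ℝ} (hr : 0 < r) (y : X) : (Psi σ (r • y)).2 = (Psi σ y).2 := by
  have k : r * ‖y‖ + sg σ * (r * y 2) = r * (‖y‖ + sg σ * y 2) := by ring
  simp only [Psi, norm_smul, Real.norm_of_nonneg hr.le, PiLp.smul_apply, smul_eq_mul, k,
    mul_div_mul_left _ _ hr.ne']

theorem ra_xs (t : ℝ) (y : X) : xs (pt t y) = y := by
  ext i
  fin_cases i <;> rfl

/-- The angle ps as a function of 1 / r. -/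
def raP (p : P3) (ρ : ℝ) : ℝ := 2 * p.2.1 / (rp p.1 p.2.1 - rm p.1 p.2.1) *
  (log (1 - rp p.1 p.2.1 * ρ) - log (1 - rm p.1 p.2.1 * ρ))

theorem raP_eq (p : P3) {r : ℝ} (h0 : 0 < r) (h1 : rm p.1 p.2.1 < r) (h2 : rp p.1 p.2.1 < r) :
    ps p.1 p.2.1 r = raP p r⁻¹ := by
  have k : ∀ a < r, log (1 - a * r⁻¹) = log (r - a) - log r := fun a ha => by
    rw [← log_div (sub_pos.2 ha).ne' h0.ne']
    congr 1
    field_simp
  rw [ps, raP, k _ h1, k _ h2]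
  ring

/-- The angles without the rotation in v. -/
def raF (c : Cx) (w : (P3 × ℝ) × ℝ × ℝ × ℝ) : ℝ × ℝ :=
  (Psi c.σ (rz (-raP w.1.1 w.2.1) (c.nd w.1 w.2.1 w.2.2))).2

theorem rang : RANG := by
  intro c h bas nim
  obtain ⟨r1, r2⟩ := h.r1
  have r0 : 0 < c.r1 := by linarith
  set Q : Set ((P3 × ℝ) × ℝ × ℝ × ℝ) := c.K ×ˢ (Icc 0 c.r1⁻¹ ×ˢ Metric.closedBall 0 9) with hQ
  have cQ : IsCompact Q := ((isCompact_closedBall _ _).prod isCompact_Icc).prod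
    (isCompact_Icc.prod (isCompact_closedBall _ _))
  have par : ∀ p ∈ c.B, 0 < rm p.1 p.2.1 ∧ rm p.1 p.2.1 < rp p.1 p.2.1 ∧ rp p.1 p.2.1 < c.r1 :=
    fun p hp => ⟨rm_pos (h.fl.par p hp).1 (h.fl.par p hp).2.1,
      (h.fl.par p hp).2.2.1.trans (h.fl.par p hp).2.2.2, by linarith [r2 p hp]⟩
  have sub : ∀ p ∈ c.B, Icc 0 c.r1⁻¹ ⊆ Icc 0 (rm p.1 p.2.1)⁻¹ := fun p hp =>
    Icc_subset_Icc_right (inv_anti₀ (par p hp).1 ((par p hp).2.1.trans (par p hp).2.2).le)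
  -- the direction
  have un : ∀ x ∈ c.K, ∀ ρ ∈ Icc 0 c.r1⁻¹, ∀ y φ, ‖rz φ (c.nd x ρ y)‖ = 1 ∧
      rz φ (c.nd x ρ y) ≠ 0 ∧ ‖rz φ (c.nd x ρ y)‖ + sg c.σ * rz φ (c.nd x ρ y) 2 ≠ 0 :=
    fun x hx ρ hρ y φ => by
      have e : ‖rz φ (c.nd x ρ y)‖ = 1 := by rw [rz_norm, h.nd_norm hx.1 (sub _ hx.1 hρ)]
      refine ⟨e, norm_pos_iff.1 (e ▸ one_pos), ?_⟩
      rw [e]
      exact ((nim x hx ρ (sub _ hx.1 hρ)).2 y).2.ne'
  have inv : ∀ x ∈ c.K, ∀ ρ ∈ Icc 0 c.r1⁻¹, ∀ y,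
      c.nd x ρ y = rz (raP x.1 ρ) (Phi c.σ (0, raF c (x, ρ, y))) := fun x hx ρ hρ y => by
    obtain ⟨e1, e2, e3⟩ := un x hx ρ hρ y (-raP x.1 ρ)
    have e := phi_psi c.σ e2 e3
    have k : Psi c.σ (rz (-raP x.1 ρ) (c.nd x ρ y)) = (0, raF c (x, ρ, y)) :=
      Prod.ext (by simp only [Psi, e1, log_one]) rfl
    rw [← k, e, rz_rz, add_neg_cancel, rz_zero]
  have sF : ∀ w ∈ Q, ContDiffAt ℝ ∞ (raF c) w := by
    rintro ⟨x, ρ, y⟩ ⟨hx, hρ, -⟩
    obtain ⟨a0, a1, u1, u2⟩ := h.fl.par _ hx.1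
    obtain ⟨p1, p2, p3⟩ := par _ hx.1
    obtain ⟨s1, s2, -⟩ := par_cd a0 a1 u1 u2
    have t1 : ContDiffAt ℝ ∞ (fun w : (P3 × ℝ) × ℝ × ℝ × ℝ => rm w.1.1.1 w.1.1.2.1) (x, ρ, y) :=
      s1.comp (x, ρ, y) (f := fun w => w.1.1) (by fun_prop)
    have t2 : ContDiffAt ℝ ∞ (fun w : (P3 × ℝ) × ℝ × ℝ × ℝ => rp w.1.1.1 w.1.1.2.1) (x, ρ, y) :=
      s2.comp (x, ρ, y) (f := fun w => w.1.1) (by fun_prop)
    have k : ∀ a, 0 < a → a < c.r1 → 1 - a * ρ ≠ 0 := fun a b1 b2 => by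
      have := mul_le_mul_of_nonneg_left hρ.2 b1.le
      have := (mul_inv_lt_iff₀ r0).2 (show a < 1 * c.r1 by linarith)
      exact ne_of_gt (by linarith)
    have sP : ContDiffAt ℝ ∞ (fun w : (P3 × ℝ) × ℝ × ℝ × ℝ => raP w.1.1 w.2.1) (x, ρ, y) :=
      (ContDiffAt.div (by fun_prop) (t2.sub t1) (sub_pos.2 p2).ne').mul
        (((contDiffAt_const.sub (t2.mul contDiffAt_snd.fst)).log (k _ (p1.trans p2) p3)).sub
          ((contDiffAt_const.sub (t1.mul contDiffAt_snd.fst)).log (k _ p1 (p2.trans p3))))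
    obtain ⟨-, e2, e3⟩ := un x hx ρ hρ y (-raP x.1 ρ)
    exact ((psi_smooth c.σ e2 e3).comp (x, ρ, y) (rz_cd sP.neg (h.nd_cd hx.1 ρ y))).snd
  obtain ⟨C1, c1, b1⟩ := lip_cpt cQ sF
  obtain ⟨C2, b2⟩ := cQ.exists_bound_of_continuousOn (f := fderiv ℝ (raF c)) fun w m =>
    ((sF w m).fderiv_right (m := 0) (by simp)).continuousAt.continuousWithinAt
  obtain ⟨C3, c3, b3⟩ := ra_low (Φ := fun w => (w.1, w.2.1, raF c w)) cQ
    (fun w m => contDiffAt_fst.prodMk (contDiffAt_snd.fst.prodMk (sF w m))) (by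
      rintro ⟨x, ρ, y⟩ m ⟨x', ρ', y'⟩ m' e
      obtain ⟨rfl, rfl, e⟩ : x = x' ∧ ρ = ρ' ∧ raF c (x, ρ, y) = raF c (x', ρ', y') := by
        simpa only [Prod.mk.injEq] using e
      obtain rfl : y = y' := (nim x m.1 ρ (sub _ m.1.1 m.2.1)).1 (by
        rw [inv x m.1 ρ m.2.1 y, inv x m.1 ρ m.2.1 y', e])
      rfl) (by
      rintro ⟨x, ρ, y⟩ m ⟨v1, v2, v3⟩ d
      obtain rfl : v1 = 0 := by
        have k : HasDerivAt (fun t : ℝ => x + t • v1) v1 0 := by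
          simpa using ((hasDerivAt_id (0 : ℝ)).smul_const v1).const_add x
        exact k.unique (ra_fst d)
      obtain rfl : v2 = 0 := by
        have k : HasDerivAt (fun t : ℝ => ρ + t • v2) v2 0 := by
          simpa using ((hasDerivAt_id (0 : ℝ)).smul_const v2).const_add ρ
        exact k.unique (ra_fst (ra_snd d))
      have d1 : HasDerivAt (fun t : ℝ => raF c (x, ρ, y + t • v3)) 0 0 := by
        simpa using ra_snd (ra_snd d)
      have sG : ContDiffAt ℝ ∞ (fun u : ℝ × ℝ => rz (raP x.1 ρ) (Phi c.σ (0, u)))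
          (raF c (x, ρ, y + (0 : ℝ) • v3)) :=
        rz_cd contDiffAt_const ((phi_smooth c.σ).contDiffAt.comp _
          (contDiffAt_const.prodMk contDiffAt_id))
      have d2 := HasFDerivAt.comp_hasDerivAt
        (l := fun u : ℝ × ℝ => rz (raP x.1 ρ) (Phi c.σ (0, u))) (0 : ℝ)
        (sG.differentiableAt (by simp)).hasFDerivAt d1
      have sn : ContDiffAt ℝ ∞ (c.nd x ρ) (y + (0 : ℝ) • v3) :=
        (h.nd_cd m.1.1 ρ _).comp _ (f := fun u : ℝ × ℝ => (x, ρ, u)) (by fun_prop)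
      have k : HasDerivAt (fun t : ℝ => y + t • v3) v3 0 := by
        simpa using ((hasDerivAt_id (0 : ℝ)).smul_const v3).const_add y
      have d3 := HasFDerivAt.comp_hasDerivAt (l := c.nd x ρ) (0 : ℝ)
        (sn.differentiableAt (by simp)).hasFDerivAt k
      have e := d3.unique (d2.congr_of_eventuallyEq
        (Eventually.of_forall fun t => inv x m.1 ρ m.2.1 _))
      rw [map_zero, ← map_zero (fderiv ℝ (c.nd x ρ) (y + (0 : ℝ) • v3))] at e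
      rw [((nim x m.1 ρ (sub _ m.1.1 m.2.1)).2 _).1 e]
      rfl)
  refine ⟨2 * (C1 + |C2| + C3), fun x hx z hz hs η hη => ?_⟩
  have rr : ∀ z' : R4, c.s1 ≤ z'.1 → c.rr x.1 z' = c.r1 + (z'.1 - c.s1) / 2 := fun z' k =>
    h.rd.out (x.1, z'.1, _) k
  have eq : ∀ z' : R4, c.s1 ≤ z'.1 → η z' = raR (omm x.1.1 x.1.2.1 * (c.lam x.1 * z'.2.1))
      (raF c (x, (c.r1 + (z'.1 - c.s1) / 2)⁻¹, z'.2.2)) := fun z' k => by
    obtain ⟨p1, p2, p3⟩ := par _ hx.1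
    have e := rr z' k
    have q0 := h.rr_pos hx.1 z'
    simp only [hη, et]
    rw [h.Ps_rd hx.1, c.Ps_eq, ra_xs, rz_smul, ra_smul _ q0, rz_rz, add_comm, ← rz_rz, ra_rz,
      raP_eq _ q0 (by linarith) (by linarith), e]
    rfl
  set r := c.r1 + (z.1 - c.s1) / 2 with hr
  have rp : c.r1 ≤ r := by linarith
  have rq : 0 < r := by linarith
  have mQ : ∀ y : ℝ × ℝ, ‖y‖ ≤ 9 → (x, r⁻¹, y) ∈ Q := fun y k =>
    ⟨hx, ⟨(inv_pos.2 rq).le, inv_anti₀ r0 rp⟩, mem_closedBall_zero_iff.2 k⟩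
  have n2 := abs_nonneg C2
  refine ⟨?_, ?_, fun y hy => ?_⟩
  · rw [eq z hs.le]
    linarith [raR_le (omm x.1.1 x.1.2.1 * (c.lam x.1 * z.2.1)) (raF c (x, r⁻¹, z.2.2)),
      (b1 _ (mQ _ hz)).1]
  · have ev : η =ᶠ[𝓝 z] fun z' => raR (omm x.1.1 x.1.2.1 * (c.lam x.1 * z'.2.1))
        (raF c (x, (c.r1 + (z'.1 - c.s1) / 2)⁻¹, z'.2.2)) :=
      (continuousAt_const.eventually_lt continuousAt_fst hs).mono fun z' k => eq z' k.le
    have dF := (sF _ (mQ _ hz)).differentiableAt (by simp)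
    have dI : DifferentiableAt ℝ
        (fun z' : R4 => raF c (x, (c.r1 + (z'.1 - c.s1) / 2)⁻¹, z'.2.2)) z :=
      dF.comp z (f := fun z' : R4 => (x, (c.r1 + (z'.1 - c.s1) / 2)⁻¹, z'.2.2))
        ((differentiableAt_const _).prodMk ((DifferentiableAt.inv
          (h := fun z' : R4 => c.r1 + (z'.1 - c.s1) / 2) (by fun_prop) rq.ne').prodMk
          differentiableAt_snd.snd))
    have dG : DifferentiableAt ℝ (fun z' : R4 => raR (omm x.1.1 x.1.2.1 * (c.lam x.1 * z'.2.1))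
        (raF c (x, (c.r1 + (z'.1 - c.s1) / 2)⁻¹, z'.2.2))) z := by
      have a1 := dI.fst
      have a2 := dI.snd
      unfold raR
      fun_prop
    have l : HasDerivAt (fun t : ℝ => ((t, z.2) : R4)) e0 z.1 :=
      (hasDerivAt_id z.1).prodMk (hasDerivAt_const z.1 z.2)
    have d1 := HasFDerivAt.comp_hasDerivAt (l := fun z' : R4 =>
      raR (omm x.1.1 x.1.2.1 * (c.lam x.1 * z'.2.1))
        (raF c (x, (c.r1 + (z'.1 - c.s1) / 2)⁻¹, z'.2.2))) z.1 dG.hasFDerivAt l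
    have l2 : HasDerivAt (fun t : ℝ => ((x, (c.r1 + (t - c.s1) / 2)⁻¹, z.2.2) :
        (P3 × ℝ) × ℝ × ℝ × ℝ)) (0, -(1 / 2) / r ^ 2, 0) z.1 :=
      (hasDerivAt_const _ x).prodMk (((((hasDerivAt_id z.1).sub_const _).div_const 2).const_add
        c.r1).inv rq.ne' |>.prodMk (hasDerivAt_const _ _))
    have d2 := raR_der (omm x.1.1 x.1.2.1 * (c.lam x.1 * z.2.1))
      (HasFDerivAt.comp_hasDerivAt (l := raF c) z.1 dF.hasFDerivAt l2)
    rw [ev.fderiv_eq, d1.unique d2, h.Ps_rd hx.1, rr z hs.le]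
    refine (raR_le _ _).trans ?_
    have n : ‖((0, -(1 / 2) / r ^ 2, 0) : (P3 × ℝ) × ℝ × ℝ × ℝ)‖ ≤ 1 / r ^ 2 := by
      have : 0 ≤ 1 / r ^ 2 := by positivity
      simp only [Prod.norm_mk, norm_zero, max_le_iff, this, true_and, and_true, neg_div, norm_neg]
      rw [Real.norm_of_nonneg (by positivity)]
      exact div_le_div_of_nonneg_right (by norm_num) (by positivity)
    have k := ContinuousLinearMap.le_of_opNorm_le_of_le _
      ((b2 _ (mQ _ hz)).trans (le_abs_self C2)) n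
    rw [mul_one_div] at k
    rw [mul_div_assoc]
    exact mul_le_mul_of_nonneg_left (k.trans (div_le_div_of_nonneg_right (by linarith)
      (by positivity))) zero_le_two
  · rw [eq z hs.le, eq (z.1, z.2.1, y) hs.le, raR_sub]
    have k1 := b3 _ (mQ _ hz) _ (mQ _ hy)
    have k2 := (b1 _ (mQ _ hz)).2 _ (mQ _ hy)
    simp only [Prod.mk_sub_mk, sub_self, Prod.norm_mk, norm_zero, norm_nonneg, max_eq_right]
      at k1 k2
    have g1 := raR_ge (omm x.1.1 x.1.2.1 * (c.lam x.1 * z.2.1))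
      (raF c (x, r⁻¹, z.2.2) - raF c (x, r⁻¹, y))
    have g2 := raR_le (omm x.1.1 x.1.2.1 * (c.lam x.1 * z.2.1))
      (raF c (x, r⁻¹, z.2.2) - raF c (x, r⁻¹, y))
    have n3 := norm_nonneg (z.2.2 - y)
    have n4 := norm_nonneg (raR (omm x.1.1 x.1.2.1 * (c.lam x.1 * z.2.1))
      (raF c (x, r⁻¹, z.2.2) - raF c (x, r⁻¹, y)))
    constructor
    · nlinarith [mul_le_mul_of_nonneg_left g1 c3, mul_nonneg (add_nonneg c1.le n2) n4]
    · nlinarith [mul_nonneg (add_nonneg n2 c3) n3]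

end Vale.Agent.P354RF
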