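import Vale.Agent.P354RF.RNIM
import Vale.Agent.P354YR.Met

/-!
RIMM: the rays form an embedded family, and the pull back of the metric is in null form.
-/

open scoped ContDiff
open Set Real

noncomputable section

namespace Vale.Agent.P354RF

open Vale.Agent.P354n (R4 mink cu cv c1 c2)
open Vale.Agent.P354I (X P3 rm rp)
open Vale.Agent.P354R (ht omm)
open Vale.Agent.P354RG (Y3 gs gz zh)
open Vale.Agent.P354XE (pb gin rd xs pt)
open Vale.Agent.P354XM (sh)
open Vale.Agent.P354SA (e0 e1 ey Om dg gm shr)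
open Vale.Agent.P354YR (hd_rd gin_sig)

namespace Ni

variable {c : Cx} {x : P3 × ℝ} {z : R4}

/-- The direction in terms of the point, the time v and the radius. -/
def un (o : ℝ) (w : R4 × ℝ × ℝ) : X := w.2.2⁻¹ • xs (sh 0 (-(o * w.2.1)) w.1)

theorem un_eq (h : c.rr x.1 z ≠ 0) :
    un (omm x.1.1 x.1.2.1 * c.lam x.1) (c.Ps x z, z.2.1, c.rr x.1 z) =
      c.nd x (c.rr x.1 z)⁻¹ z.2.2 := by
  have e := cos_sq_add_sin_sq (omm x.1.1 x.1.2.1 * (c.lam x.1 * z.2.1))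
  simp only [un, Cx.Ps, mul_assoc]
  generalize c.nd x (c.rr x.1 z)⁻¹ z.2.2 = n
  generalize omm x.1.1 x.1.2.1 * (c.lam x.1 * z.2.1) = φ at e ⊢
  ext i
  fin_cases i <;> simp [xs, sh, pt] <;> field_simp
  · linear_combination n 0 * e
  · linear_combination n 1 * e

theorem un_df {o : ℝ} {w : R4 × ℝ × ℝ} (h : w.2.2 ≠ 0) : DifferentiableAt ℝ (un o) w := by
  have : Differentiable ℝ xs := fun p => by
    unfold xs
    refine differentiableAt_euclidean.2 fun i => ?_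
    fin_cases i <;> simp <;> fun_prop
  unfold un sh
  fun_prop (disch := assumption)

theorem ps_inj (k : c.Ok) (b : c.Bas) (n : c.Nim) (hx : x ∈ c.K) : Function.Injective (c.Ps x) := by
  intro z z' e
  obtain ⟨l, -, b⟩ := b x hx
  obtain ⟨-, r0, m, r, h, -⟩ := b z
  obtain ⟨-, -, -, r', h', -⟩ := b z'
  have e1 : c.rr x.1 z = c.rr x.1 z' := by rw [← r, e, r']
  have e2 : ht c.σ z.2.2 = ht c.σ z'.2.2 := (mono k.fl hx.1 m).injOn (ht_mem _ _) (ht_mem _ _)
    (h.symm.trans (e ▸ h'.trans (by rw [Cx.ar, e1])))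
  have d := fun t => cz k.rd.smooth x.1 (hasDerivAt_id t) (hasDerivAt_const t (ht c.σ z.2.2))
  have e3 : z.1 = z'.1 := (strictMono_of_hasDerivAt_pos d fun t => by
    simpa using (k.rd.mono (x.1, t, ht c.σ z.2.2) hx.1 (ht_mem _ _)).2.1).injective
      (e1.trans (by rw [Cx.rr, e2]; rfl))
  have e4 : z.2.1 = z'.2.1 := by
    have := congrArg Prod.fst e
    simp only [Cx.Ps, sh, pt, Cx.ar, e1, e2, add_right_inj] at this
    exact mul_left_cancel₀ l.ne' this
  have e5 := un_eq r0.ne'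
  rw [e, e4, e1, un_eq (e1 ▸ r0.ne')] at e5
  exact Prod.ext e3 (Prod.ext e4 ((n x hx _ (e1 ▸ m)).1 e5).symm)

theorem kap_pos (k : c.Ok) (b : c.Bas) (hx : x ∈ c.K) (z : R4) :
    0 < gs c.R (x.1, z.1, ht c.σ z.2.2) * ((1 + x.1.2.1 ^ 2 * c.Y 1 (c.ar x.1 z) ^ 2 *
      (c.rr x.1 z)⁻¹ ^ 2) / √(q2 (c.ar x.1 z))) * c.lam x.1 := by
  have m := ((b x hx).2.2 z).2.2.1
  have := k.fl.pos
  have h := abs_le.2 (ht_mem c.σ z.2.2)
  have q := (k.fl.ode (c.ar x.1 z) hx.1 ⟨by linarith [show 0 ≤ (c.ar x.1 z).2.1 from m.1],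
    by linarith [show (c.ar x.1 z).2.1 ≤ (rm (c.ar x.1 z).1.1 (c.ar x.1 z).1.2.1)⁻¹ from m.2]⟩
      (h.trans_lt (by linarith))).1
  have := (k.rd.mono (x.1, z.1, _) hx.1 (ht_mem c.σ z.2.2)).2.1
  have := (b x hx).1
  positivity

theorem ps_df (b : c.Bas) (hx : x ∈ c.K) (z : R4) : DifferentiableAt ℝ (c.Ps x) z :=
  ((((b x hx).2.2 z).1.differentiableAt (by simp)).comp z (f := fun z : R4 => (x, z))
    (by fun_prop) :)

theorem xs_ne (b : c.Bas) (hx : x ∈ c.K) (z : R4) : xs (c.Ps x z) ≠ 0 :=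
  norm_pos_iff.1 (((b x hx).2.2 z).2.1.trans_eq ((b x hx).2.2 z).2.2.2.1.symm)

theorem fd_inj (k : c.Ok) (b : c.Bas) (y : c.Key) (hx : x ∈ c.K) (z : R4) :
    Function.Injective (fderiv ℝ (c.Ps x) z) := by
  refine (injective_iff_map_eq_zero _).2 fun A e => ?_
  have b' := (b x hx).2.2
  have P : HasDerivAt (fun t : ℝ => c.Ps x (z + t • A)) 0 0 := e ▸ ln (ps_df b hx z) A
  obtain ⟨L, dr, -⟩ := hd_rd (xs_ne b hx (z + (0 : ℝ) • A))
  have r0 := (b' (z + (0 : ℝ) • A)).2.1.ne'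
  have r : HasDerivAt (fun t : ℝ => c.rr x.1 (z + t • A)) 0 0 := by
    simpa only [(b' _).2.2.2.1] using zd P dr.differentiableAt
  have ρ := zd (Φ := fun s : ℝ => s⁻¹) r (differentiableAt_inv r0)
  have h := zd (Φ := fun p => zh (xs p)) P (DifferentiableAt.mul (a := fun p : R4 => p.2.2.2)
    (by fun_prop) (dr.differentiableAt.inv ((b' _).2.2.2.1 ▸ r0)))
  simp only [(b' _).2.2.2.2.1] at h
  have h1 := ht_zd k hx (b' _).2.2.1 A.2.2 ρ h
  have h2 := r.unique (cz k.rd.smooth x.1 (ln (Φ := id) (z := z.1) differentiableAt_id A.1) h1)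
  rw [zero_mul, add_zero, eq_comm, mul_eq_zero] at h2
  have a1 : A.1 = 0 := by
    simpa using h2.resolve_right (k.rd.mono (x.1, _, _) hx.1 (ht_mem _ _)).2.1.ne'
  have a2 : A.2.1 = 0 := by
    obtain ⟨L, l, -, g⟩ := gin_sig (M := x.1.1) (a := x.1.2.1) (xs_ne b hx z)
    have := (y x hx z).2 A
    rw [e, g, l.map_zero, eq_comm, show mink _ 0 = 0 by simp [mink, cu, cv, c1, c2]] at this
    exact (mul_eq_zero.1 this).resolve_left (kap_pos k b hx z).ne'
  have v : HasDerivAt (fun t : ℝ => (z + t • A).2.1) 0 0 := by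
    simpa [a2] using hasDerivAt_const (0 : ℝ) z.2.1
  have h3 := zd (P.prodMk (v.prodMk r)) (un_df (o := omm x.1.1 x.1.2.1 * c.lam x.1) r0)
  simp only [un_eq (b' _).2.1.ne'] at h3
  exact Prod.ext a1 (Prod.ext a2 (lab_zd k hx (fun _ => (b' _).2.2.1) A.2.2 ρ h3))

theorem mink_par {N W : R4} (n : N ≠ 0) (h : mink N N = 0) (h' : mink N W = 0)
    (w : mink W W ≤ 0) : ∃ t : ℝ, W = t • N := by
  obtain ⟨a, b, c, d⟩ := N
  obtain ⟨a', b', c', d'⟩ := W
  simp only [mink, cu, cv, c1, c2] at h h' w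
  have a0 : a ≠ 0 := fun e => n (by
    subst e
    rw [show b = 0 by nlinarith, show c = 0 by nlinarith, show d = 0 by nlinarith]; rfl)
  obtain ⟨t, rfl⟩ : ∃ t, a' = t * a := ⟨a' / a, by field_simp⟩
  have : (b' - t * b) ^ 2 + (c' - t * c) ^ 2 + (d' - t * d) ^ 2 ≤ 0 := by
    linarith [show (b' - t * b) ^ 2 + (c' - t * c) ^ 2 + (d' - t * d) ^ 2 = (-(t * a * (t * a)) +
      b' * b' + c' * c' + d' * d') - 2 * t * (-(a * (t * a)) + b * b' + c * c' + d * d') +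
        t ^ 2 * (-(a * a) + b * b + c * c + d * d) by ring, mul_eq_zero_of_right (2 * t) h',
          mul_eq_zero_of_right (t ^ 2) h]
  have h1 := sq_nonneg (b' - t * b)
  have h2 := sq_nonneg (c' - t * c)
  have h3 := sq_nonneg (d' - t * d)
  have k : ∀ u v : ℝ, (u - v) ^ 2 ≤ 0 → u = v := fun u v h => by nlinarith
  exact ⟨t, by rw [k b' (t * b) (by linarith), k c' (t * c) (by linarith),
    k d' (t * d) (by linarith)]; rfl⟩

theorem gg_eq (b : c.Bas) (hx : x ∈ c.K) (z u w : R4) : c.gg x z u w = gin x.1.1 x.1.2.1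
    (c.Ps x (shr z)) (fderiv ℝ (c.Ps x) (shr z) (shr u)) (fderiv ℝ (c.Ps x) (shr z) (shr w)) := by
  have s := ((hasFDerivAt_fst (𝕜 := ℝ) (p := z)).fun_sub hasFDerivAt_snd.fst).prodMk hasFDerivAt_snd
  rw [Cx.gg, pb, show fderiv ℝ (c.Ps x ∘ shr) z = _ from
    ((ps_df b hx (shr z)).hasFDerivAt.comp z s).fderiv]
  rfl

theorem ray (k : c.Ok) (b : c.Bas) (y : c.Key) : c.Ray := fun x hx z => by
  have s0 : shr e0 = e0 := by simp [shr, e0]
  have sa : ∀ a, shr (ey a) = ey a ∧ (ey a).2.1 = 0 := fun a => by fin_cases a <;> simp [shr, ey]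
  have y := (y x hx (shr z)).2
  obtain ⟨L, l, i, g⟩ := gin_sig (M := x.1.1) (a := x.1.2.1) (xs_ne b hx (shr z))
  have i' := i.comp (fd_inj k b ‹_› hx (shr z))
  have n0 := (y e0).trans (mul_zero _)
  have na := fun a => (y (ey a)).trans (by rw [(sa a).2, mul_zero])
  have q : ∀ α β : ℝ, α ≠ 0 ∨ β ≠ 0 → 0 < α ^ 2 * gm (c.gg x) 0 0 z +
      2 * α * β * gm (c.gg x) 0 1 z + β ^ 2 * gm (c.gg x) 1 1 z := fun α β h => by
    simp only [gm, gg_eq b hx, (sa _).1, g] at n0 na ⊢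
    by_contra hn
    obtain ⟨t, e⟩ := mink_par (W := L (fderiv ℝ (c.Ps x) (shr z) (α • ey 0 + β • ey 1)))
      (fun e => one_ne_zero (congrArg Prod.fst (i' (a₂ := 0) (by simpa [l.map_zero] using e)))) n0 (by
        have := na 0
        have := na 1
        simp only [map_add, map_smul, l.map_add, l.map_smul, mink, cu, cv, c1, c2, Prod.fst_add,
          Prod.snd_add, Prod.smul_fst, Prod.smul_snd, smul_eq_mul] at *
        linear_combination α * na 0 + β * na 1) (by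
        simp only [map_add, map_smul, l.map_add, l.map_smul, mink, cu, cv, c1, c2, Prod.fst_add,
          Prod.snd_add, Prod.smul_fst, Prod.smul_snd, smul_eq_mul] at *
        linarith)
    rw [← l.map_smul, ← map_smul] at e
    have := i' e
    simp [ey, e0] at this
    tauto
  have g0 : 0 < gm (c.gg x) 0 0 z := by simpa using q 1 0 (.inl one_ne_zero)
  refine ⟨by rw [gg_eq b hx, s0, n0], fun a => by rw [gg_eq b hx, s0, (sa a).1, na], ?_, ?_, g0⟩
  · rw [Om, gg_eq b hx, s0, y]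
    simpa [shr, e1] using kap_pos k b hx (shr z)
  · refine pos_of_mul_pos_right ((q (-gm (c.gg x) 0 1 z) _ (.inr g0.ne')).trans_eq ?_) g0.le
    rw [dg]; ring

end Ni

/-- RIMM. -/
theorem rimm : RIMM := fun _ k b y n =>
  ⟨fun _ hx => ⟨Ni.ps_inj k b n hx, Ni.fd_inj k b y hx⟩, Ni.ray k b y⟩

end Vale.Agent.P354RF
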