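import Vale.Agent.P354RF.Defs
import Vale.Agent.P354YW.Jk
import Vale.Agent.P354R.Bg

/-!
Smoothness, radius, height and symmetry of the rays.
-/

open scoped ContDiff
open Set Real

noncomputable section

namespace Vale.Agent.P354RF

open Vale.Agent.P354n (R4)
open Vale.Agent.P354I (X P3 rm rp)
open Vale.Agent.P354R (ht omm kap ht_smooth ht_mem one_sub_ht)
open Vale.Agent.P354RG (Y3 gs gz zh)
open Vale.Agent.P354XE (gin rd xs pt ka)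
open Vale.Agent.P354D (sgn)
open Vale.Agent.P354YJ (hT hP rz)
open Vale.Agent.P354YW (rz_norm rz_rz rz_smul nsq rd_pt rm_pos kap_pos sgn_sq)
open Vale.Agent.P354XM (sh)

/-- The constants depend smoothly on the parameters. -/
theorem par_cd {p : P3} (a0 : p.2.1 ≠ 0) (a1 : |p.2.1| < p.1) (u1 : rm p.1 p.2.1 < p.2.2)
    (u2 : p.2.2 < rp p.1 p.2.1) : ContDiffAt ℝ ∞ (fun p : P3 => rm p.1 p.2.1) p ∧
    ContDiffAt ℝ ∞ (fun p : P3 => rp p.1 p.2.1) p ∧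
    ContDiffAt ℝ ∞ (fun p : P3 => kap p.1 p.2.1) p ∧
    ContDiffAt ℝ ∞ (fun p : P3 => omm p.1 p.2.1) p ∧
    ContDiffAt ℝ ∞ (fun p : P3 => hT p.1 p.2.1 p.2.2) p ∧
    ContDiffAt ℝ ∞ (fun p : P3 => hP p.1 p.2.1 p.2.2) p := by
  obtain ⟨m0, m1, m2, -, m4, -⟩ := P354XA.hor a1
  have h1 : p.1 ^ 2 - p.2.1 ^ 2 ≠ 0 := by nlinarith [sq_abs p.2.1, abs_nonneg p.2.1]
  have cq : ContDiffAt ℝ ∞ (fun x : P3 => √(x.1 ^ 2 - x.2.1 ^ 2)) p :=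
    ContDiffAt.sqrt (by fun_prop) h1
  have cM : ContDiffAt ℝ ∞ (fun x : P3 => x.1) p := by fun_prop
  have ca : ContDiffAt ℝ ∞ (fun x : P3 => x.2.1) p := by fun_prop
  have cr : ContDiffAt ℝ ∞ (fun x : P3 => x.2.2) p := by fun_prop
  have cm : ContDiffAt ℝ ∞ (fun x : P3 => rm x.1 x.2.1) p := cM.sub cq
  have cp : ContDiffAt ℝ ∞ (fun x : P3 => rp x.1 x.2.1) p := cM.add cq
  have n0 : rm p.1 p.2.1 ^ 2 + p.2.1 ^ 2 ≠ 0 := by positivity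
  have n1 : rp p.1 p.2.1 ≠ 0 := by linarith
  have cg : ContDiffAt ℝ ∞ (fun x : P3 => ka x.1 x.2.1) p :=
    cq.div ((contDiffAt_const.mul cM).mul cp) (mul_ne_zero (mul_ne_zero two_ne_zero m0.ne') n1)
  have l1 := (cp.sub cr).log (sub_pos.2 u2).ne'
  have l2 := (cr.sub cm).log (sub_pos.2 u1).ne'
  exact ⟨cm, cp, (cp.sub cm).div ((cm.pow 2).add (ca.pow 2)) n0,
    ca.div ((cm.pow 2).add (ca.pow 2)) n0, (l1.sub ((cm.div cp n1).mul l2)).div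
      (contDiffAt_const.mul cg) (mul_ne_zero two_ne_zero m4.ne'),
    (ca.div (cp.sub cm) (sub_pos.2 m2).ne').mul (l1.sub l2)⟩

theorem sh_pt (c φ t : ℝ) (z : X) : sh c φ (pt t z) = pt (t + c) (rz φ z) := rfl

theorem sh_sh (c φ c' φ' : ℝ) (p : R4) : sh c φ (sh c' φ' p) = sh (c' + c) (φ' + φ) p := by
  simp only [sh, cos_add, sin_add]
  refine Prod.ext ?_ (Prod.ext ?_ (Prod.ext ?_ rfl)) <;> simp only <;> ring

theorem vec_cd {E : Type} [NormedAddCommGroup E] [NormedSpace ℝ E] {f g h : E → ℝ} {x : E}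
    (hf : ContDiffAt ℝ ∞ f x) (hg : ContDiffAt ℝ ∞ g x) (hh : ContDiffAt ℝ ∞ h x) :
    ContDiffAt ℝ ∞ (fun x => (!₂[f x, g x, h x] : X)) x :=
  contDiffAt_euclidean.2 fun i => by fin_cases i; exacts [hf, hg, hh]

theorem rz_cd {E : Type} [NormedAddCommGroup E] [NormedSpace ℝ E] {f : E → ℝ} {g : E → X} {x : E}
    (hf : ContDiffAt ℝ ∞ f x) (hg : ContDiffAt ℝ ∞ g x) :
    ContDiffAt ℝ ∞ (fun x => rz (f x) (g x)) x :=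
  have k := contDiffAt_euclidean.1 hg
  vec_cd ((hf.cos.mul (k 0)).sub (hf.sin.mul (k 1))) ((hf.sin.mul (k 0)).add (hf.cos.mul (k 1)))
    (k 2)

theorem pt_cd {E : Type} [NormedAddCommGroup E] [NormedSpace ℝ E] {f : E → ℝ} {g : E → X} {x : E}
    (hf : ContDiffAt ℝ ∞ f x) (hg : ContDiffAt ℝ ∞ g x) :
    ContDiffAt ℝ ∞ (fun x => pt (f x) (g x)) x :=
  have k := contDiffAt_euclidean.1 hg
  hf.prodMk ((k 0).prodMk ((k 1).prodMk (k 2)))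

namespace Cx.Ok

variable {c : Cx} (h : c.Ok) {p : P3} {x : P3 × ℝ}
include h

theorem ball (hp : p ∈ c.B) : p ∈ Metric.ball c.p0 c.ε0 := lt_of_le_of_lt hp h.lt

theorem lam_pos (hp : p ∈ c.B) : 0 < c.lam p :=
  div_pos h.hG.pos0.1 (kap_pos (h.fl.par p hp).1 (h.fl.par p hp).2.1)

theorem lam_cd (hp : p ∈ c.B) : ContDiffAt ℝ ∞ c.lam p := by
  obtain ⟨a0, a1, u1, u2⟩ := h.fl.par p hp
  exact contDiffAt_const.div (par_cd a0 a1 u1 u2).2.2.1 (kap_pos a0 a1).ne'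

theorem rr_gt (hp : p ∈ c.B) (z : R4) : rm p.1 p.2.1 < c.rr p z :=
  (h.rd.mono (p, z.1, ht c.σ z.2.2) hp (ht_mem _ _)).1

theorem rr_pos (hp : p ∈ c.B) (z : R4) : 0 < c.rr p z :=
  (rm_pos (h.fl.par p hp).1 (h.fl.par p hp).2.1).trans (h.rr_gt hp z)

theorem rr_mem (hp : p ∈ c.B) (z : R4) : (c.rr p z)⁻¹ ∈ Icc 0 (rm p.1 p.2.1)⁻¹ :=
  ⟨(inv_pos.2 (h.rr_pos hp z)).le,
    inv_anti₀ (rm_pos (h.fl.par p hp).1 (h.fl.par p hp).2.1) (h.rr_gt hp z).le⟩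

theorem nd_cd (hp : x.1 ∈ c.B) (ρ : ℝ) (y : ℝ × ℝ) :
    ContDiffAt ℝ ∞ (fun w : (P3 × ℝ) × ℝ × ℝ × ℝ => c.nd w.1 w.2.1 w.2.2) (x, ρ, y) := by
  obtain ⟨a0, a1, u1, u2⟩ := h.fl.par _ hp
  have s := ht_smooth c.σ
  have Y : ∀ i, ContDiff ℝ ∞ fun w : (P3 × ℝ) × ℝ × ℝ × ℝ => c.Y i (w.1.1, w.2.1, ht c.σ w.2.2) :=
    fun i => (h.fl.smooth i).comp (by fun_prop)
  have H : ContDiff ℝ ∞ fun w : (P3 × ℝ) × ℝ × ℝ × ℝ => c.H 3 (w.1.1, w.1.2, ht c.σ w.2.2) :=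
    (h.hH.smooth 3).comp (by fun_prop)
  have P : ContDiffAt ℝ ∞ (fun w : (P3 × ℝ) × ℝ × ℝ × ℝ => hP w.1.1.1 w.1.1.2.1 w.1.1.2.2)
      (x, ρ, y) := (par_cd a0 a1 u1 u2).2.2.2.2.2.comp (x, ρ, y) (f := fun w => w.1.1) (by fun_prop)
  have q : ∀ f : (P3 × ℝ) × ℝ × ℝ × ℝ → ℝ, ContDiff ℝ ∞ f → ContDiff ℝ ∞ fun w =>
      cos (c.Y 0 (w.1.1, w.2.1, ht c.σ w.2.2)) * (2 * f w / (1 + w.2.2.1 ^ 2 + w.2.2.2 ^ 2)) :=
    fun f hf => (Y 0).cos.mul (ContDiff.div (by fun_prop) (by fun_prop) fun w => by positivity)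
  exact rz_cd ((P.add (Y 3).contDiffAt).add (contDiff_const.mul H).contDiffAt)
    (vec_cd (q (fun w => w.2.2.1) (by fun_prop)).contDiffAt
      (contDiff_const.mul (q (fun w => w.2.2.2) (by fun_prop))).contDiffAt (Y 1).contDiffAt)

theorem nd_norm (hp : x.1 ∈ c.B) {ρ : ℝ} (hρ : ρ ∈ Icc 0 (rm x.1.1 x.1.2.1)⁻¹) (y : ℝ × ℝ) :
    ‖c.nd x ρ y‖ = 1 := by
  have e := (h.fl.noc (x.1, ρ, ht c.σ y) hp hρ (ht_mem _ _)).2.2.1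
  rw [Cx.nd, rz_norm, ← sq_eq_sq₀ (norm_nonneg _) zero_le_one, nsq]
  rw [show 1 - ((x.1, ρ, ht c.σ y) : Y3).2.2 ^ 2 = _ from one_sub_ht c.σ y] at e
  have : 0 < 1 + y.1 ^ 2 + y.2 ^ 2 := by positivity
  have v : ∀ a b d : ℝ, (!₂[a, b, d] : X) 0 ^ 2 + (!₂[a, b, d] : X) 1 ^ 2 + (!₂[a, b, d] : X) 2 ^ 2 =
    a ^ 2 + b ^ 2 + d ^ 2 := fun _ _ _ => rfl
  rw [v, mul_pow (sgn c.b), sgn_sq, one_pow]
  refine Eq.trans ?_ e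
  field_simp
  ring

theorem rr_cd : ContDiff ℝ ∞ fun w : P3 × R4 => c.rr w.1 w.2 := by
  have s := ht_smooth c.σ
  exact h.rd.smooth.comp (f := fun w : P3 × R4 => (w.1, w.2.1, ht c.σ w.2.2.2)) (by fun_prop)

theorem ar_cd (hp : p ∈ c.B) (z : R4) :
    ContDiffAt ℝ ∞ (fun w : P3 × R4 => c.ar w.1 w.2) (p, z) := by
  have s := ht_smooth c.σ
  exact contDiffAt_fst.prodMk ((h.rr_cd.contDiffAt.inv (h.rr_pos hp z).ne').prodMk (by fun_prop))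

omit h in
theorem _root_.Vale.Agent.P354RF.Cx.Ps_eq (c : Cx) (x : P3 × ℝ) (z : R4) : c.Ps x z =
    pt (x.1.2.2 + hT x.1.1 x.1.2.1 x.1.2.2 + c.Y 2 (c.ar x.1 z) - c.rr x.1 z + c.lam x.1 * z.2.1)
      (c.rr x.1 z • rz (omm x.1.1 x.1.2.1 * (c.lam x.1 * z.2.1))
        (c.nd x (c.rr x.1 z)⁻¹ z.2.2)) := by
  rw [Cx.Ps, sh_pt, rz_smul]

theorem Ps_cd (hp : x.1 ∈ c.B) (z : R4) :
    ContDiffAt ℝ ∞ (fun w : (P3 × ℝ) × R4 => c.Ps w.1 w.2) (x, z) := by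
  obtain ⟨a0, a1, u1, u2⟩ := h.fl.par _ hp
  obtain ⟨-, -, -, co, cT, -⟩ := par_cd a0 a1 u1 u2
  have f1 : ContDiffAt ℝ ∞ (fun w : (P3 × ℝ) × R4 => w.1.1) (x, z) := by fun_prop
  have f2 : ContDiffAt ℝ ∞ (fun w : (P3 × ℝ) × R4 => (w.1.1, w.2)) (x, z) := by fun_prop
  have r := h.rr_cd.contDiffAt.comp (x, z) f2
  have l : ContDiffAt ℝ ∞ (fun w : (P3 × ℝ) × R4 => c.lam w.1.1 * w.2.2.1) (x, z) :=
    ((h.lam_cd hp).comp (x, z) f1).mul (by fun_prop)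
  have W := (h.fl.smooth 2).contDiffAt.comp (x, z) ((h.ar_cd hp z).comp (x, z) f2)
  have N := (h.nd_cd hp (c.rr x.1 z)⁻¹ z.2.2).comp (x, z)
    (f := fun w : (P3 × ℝ) × R4 => (w.1, (c.rr w.1.1 w.2)⁻¹, w.2.2.2))
    (contDiffAt_fst.prodMk ((r.inv (h.rr_pos hp z).ne').prodMk (by fun_prop)))
  have t1 := cT.comp (x, z) (f := fun w : (P3 × ℝ) × R4 => w.1.1) f1
  have t2 := co.comp (x, z) (f := fun w : (P3 × ℝ) × R4 => w.1.1) f1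
  simp only [Cx.Ps_eq]
  exact pt_cd (((((by fun_prop : ContDiffAt ℝ ∞ (fun w : (P3 × ℝ) × R4 => w.1.1.2.2) (x, z)).add
    t1).add W).sub r).add l) (r.smul (rz_cd (t2.mul l) N))

theorem Ps_rd (hp : x.1 ∈ c.B) (z : R4) : P354XE.rd (c.Ps x z) = c.rr x.1 z := by
  rw [Cx.Ps_eq, rd_pt, norm_smul, rz_norm, h.nd_norm hp (h.rr_mem hp z), mul_one,
    norm_of_nonneg (h.rr_pos hp z).le]

theorem Ps_zh (hp : x.1 ∈ c.B) (z : R4) : zh (xs (c.Ps x z)) = c.Y 1 (c.ar x.1 z) := by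
  have e : ‖xs (c.Ps x z)‖ = c.rr x.1 z := h.Ps_rd hp z
  rw [zh, e, Cx.Ps_eq]
  exact mul_div_cancel_left₀ _ (h.rr_pos hp z).ne'

end Cx.Ok

theorem Cx.Ps_sym (c : Cx) (x : P3 × ℝ) (z : R4) (t : ℝ) : c.Ps x (z.1, z.2.1 + t, z.2.2) =
    sh (c.lam x.1 * t) (omm x.1.1 x.1.2.1 * c.lam x.1 * t) (c.Ps x z) := by
  simp only [Cx.Ps, sh_sh, mul_add, mul_assoc]
  rfl

theorem rbas : RBAS := fun c h x hx => ⟨h.lam_pos hx.1,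
  fun ρ y => ⟨h.nd_cd hx.1 ρ y, fun k => h.nd_norm hx.1 k y⟩, fun z => ⟨h.Ps_cd hx.1 z,
    h.rr_pos hx.1 z, h.rr_mem hx.1 z, h.Ps_rd hx.1 z, h.Ps_zh hx.1 z, c.Ps_sym x z⟩⟩

end Vale.Agent.P354RF
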