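import Vale.Agent.P354RF.RJMID
import Vale.Agent.P354RF.RIMM
import Vale.Agent.P354RF.Bas

/-!
RJFAR: the coefficients of the eikonal equation in the far zone are smooth functions of 1 / r.
-/

open scoped ContDiff
open Set Filter Topology Real

noncomputable section

namespace Vale.Agent.P354RF

open Vale.Agent.P354n (R4)
open Vale.Agent.P354I (X P3 rm rp Sg)
open Vale.Agent.P354R (ht omm ht_smooth ht_mem abs_ht)
open Vale.Agent.P354RG (gs)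
open Vale.Agent.P354D (sgn)
open Vale.Agent.P354XE (Tw gin eT pt xs rd dr dq kf)
open Vale.Agent.P354XA (ip dr_eq dq_eq rnd_eq Sg_eq rd_sq rd_nonneg inn xs_pt)
open Vale.Agent.P354XM (famK hin hin_ap hin_sh sh_fd sh rot rot_ap)
open Vale.Agent.P354YI (Oj)
open Vale.Agent.P354YJ (rz hT gin_symm)
open Vale.Agent.P354YW (rz_rz rz_smul rd_pt)
open Vale.Agent.P354YQ (SA JB)
open Vale.Agent.P354SA (Om a0 a1 a2 dg gi gm jb shr e0 e1 ey)
open Vale.Agent.P354CH (oj_comp oj_pr oj_id oj_z)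

namespace Jf

theorem alg {g G : Tw} {z z' : R4} {r l Ω : ℝ} {β : Fin 2 → ℝ} (hr : r ≠ 0) (hd : dg G z' ≠ 0)
    (sy : gm G 1 0 z' = gm G 0 1 z') (h1 : ∀ a b, gm g a b z = r ^ 2 * gm G a b z')
    (h2 : ∀ b, g z e1 (ey b) = l * r * G z' e1 (ey b) + r ^ 2 * ∑ a, β a * gm G a b z')
    (h3 : g z e1 e1 = l ^ 2 * G z' e1 e1 + 2 * l * r * ∑ a, β a * G z' e1 (ey a) +
      r ^ 2 * ∑ a, ∑ b, β a * β b * gm G a b z' - 2 * Ω) (h4 : Om g z = Ω) :
    a0 g z = (l ^ 2 * (∑ a, a1 G a z' * G z' e1 (ey a) - G z' e1 e1) + 2 * Ω) / (2 * Ω) ∧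
      (∀ a, a1 g a z = β a + l * r⁻¹ * a1 G a z') ∧
      ∀ a b, a2 g a b z = r⁻¹ ^ 2 * (Ω * gi G a b z' / 2) := by
  have e : dg g z = r ^ 4 * dg G z' := by simp only [dg, h1]; ring
  have i : ∀ a b, gi g a b z = r⁻¹ ^ 2 * gi G a b z' := fun a b => by
    fin_cases a <;> fin_cases b <;> simp [gi, e, h1] <;> field_simp
  have k : ∀ a, a1 g a z = β a + l * r⁻¹ * a1 G a z' := fun a => by
    simp only [a1, i, h2, Fin.sum_univ_two, sy]
    fin_cases a <;> simp [gi] <;> field_simp <;> rw [dg] <;> ring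
  refine ⟨?_, k, fun a b => by rw [a2, i, h4]; ring⟩
  rw [a0, h4]
  congr 1
  simp only [k, h2, h3, Fin.sum_univ_two, sy]
  simp [a1, gi]
  field_simp
  rw [dg]
  ring

theorem gin_sc {r : ℝ} (hr : 0 < r) (M a : ℝ) (p : R4) :
    gin M a (r • p) = gin (r⁻¹ * M) (r⁻¹ * a) p := by
  funext v w
  have e0 : rd (r • p) = r * rd p := P354YR.rd_eq (mul_nonneg hr.le (rd_nonneg p))
    (by rw [mul_pow, rd_sq]; simp [ip]; ring)
  have e : ∀ v, ip (r • p) v = r * ip p v := fun v => by simp [ip]; ring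
  have e1 : ∀ v, dr (r • p) v = dr p v := fun v => by
    rw [dr_eq, dr_eq, e, e0, mul_div_mul_left _ _ hr.ne']
  have e2 : ∀ v, dq (r • p) v = r⁻¹ * dq p v := fun v => by
    rw [dq_eq, dq_eq, e0]; simp; field_simp
  have e3 : Sg a (r * rd p) (xs (r • p)) = r ^ 2 * Sg (r⁻¹ * a) (rd p) (xs p) := by
    rw [← e0, Sg_eq, Sg_eq, e0]; simp; field_simp
  simp only [gin, kf, rnd_eq, e, e1, e2, e0, e3]
  field_simp

theorem gin_flat {p : R4} (h : rd p = 1) (u v : X) : gin 0 0 p (pt 0 u) (pt 0 v) = inner ℝ u v := by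
  rw [← xs_pt 0 u, ← xs_pt 0 v, inn, xs_pt, xs_pt]
  simp [gin, rnd_eq, Sg, dr_eq, h, pt]

theorem oj_inv {I : Type} {r : I → ℝ} (h : ∀ i, 1 ≤ r i) (m : ℕ) :
    Oj m r (fun _ y => y⁻¹) 1 := by
  have z : Oj 0 r (fun _ y => y⁻¹) 1 := .zero
    (fun i => contDiffAt_inv ℝ (zero_lt_one.trans_le (h i)).ne') (fun _ => zero_le_one)
    ⟨1, fun i => by
      rw [norm_of_nonneg (inv_pos.2 (zero_lt_one.trans_le (h i))).le, Pi.one_apply, mul_one]
      exact inv_le_one_of_one_le₀ (h i)⟩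
  induction m with
  | zero => exact z
  | succ m ih =>
    refine z.succ (((ih.smull ih).smull (.cst (-ContinuousLinearMap.id ℝ ℝ))).congr' fun _ y => ?_)
    rw [fderiv_inv]
    ext
    simp [sq]

/-- The rotation of the labels. -/
def ro (θ : ℝ) (y : ℝ × ℝ) : ℝ × ℝ := (cos θ * y.1 - sin θ * y.2, sin θ * y.1 + cos θ * y.2)

variable (c : Cx)

theorem Ps_ro (x : P3 × ℝ) (z : R4) (θ : ℝ) :
    c.Ps x (z.1, z.2.1, ro θ z.2.2) = sh 0 (sgn c.b * θ) (c.Ps x z) := by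
  have e : (ro θ z.2.2).1 ^ 2 + (ro θ z.2.2).2 ^ 2 = z.2.2.1 ^ 2 + z.2.2.2 ^ 2 := by
    simp only [ro]
    linear_combination (z.2.2.1 ^ 2 + z.2.2.2 ^ 2) * cos_sq_add_sin_sq θ
  have e1 : ht c.σ (ro θ z.2.2) = ht c.σ z.2.2 := by simp only [ht, sub_sub, add_assoc, e]
  have e2 : ∀ ρ, c.nd x ρ (ro θ z.2.2) = rz (sgn c.b * θ) (c.nd x ρ z.2.2) := fun ρ => by
    rw [Cx.nd, Cx.nd, rz_rz, add_comm (sgn c.b * θ), ← rz_rz _ (sgn c.b * θ), Cx.tw, Cx.tw, e1]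
    simp only [add_assoc, e]
    congr 1
    ext i
    cases c.b <;> fin_cases i <;> simp [rz, ro, sgn] <;> ring
  simp only [Cx.Ps_eq, Cx.ar, Cx.rr, e1, e2, sh_pt, rz_smul, rz_rz, add_zero, zero_add,
    add_comm]

abbrev W5 : Type := (P3 × ℝ) × ℝ × ℝ × ℝ

/-- The scaled point, the scaled frame, the scaled metric, and the coefficients. -/
def Q (w : W5) : R4 := pt (w.2.1 * c.Y 2 (w.1.1, w.2.1, ht c.σ w.2.2)) (c.nd w.1 w.2.1 w.2.2)
def D (w : W5) (A : R4) : R4 := A.2.1 • eT + fderiv ℝ (fun y => Q c (w.1, w.2.1, y)) w.2.2 A.2.2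
def G (w : W5) : Tw := fun _ A B =>
  hin (w.2.1 * w.1.1.1, w.2.1 * w.1.1.2.1) (Q c w) (D c w A) (D c w B)
def O (w : W5) : ℝ := 1 / 2 * ((1 + w.1.1.2.1 ^ 2 * c.Y 1 (w.1.1, w.2.1, ht c.σ w.2.2) ^ 2 *
  w.2.1 ^ 2) / √(q2 (w.1.1, w.2.1, ht c.σ w.2.2))) * c.lam w.1.1
def kp (p : P3) : ℝ := sgn c.b * (omm p.1 p.2.1 * c.lam p)
def be (w : W5) (a : Fin 2) : ℝ := kp c w.1.1 * ![-w.2.2.2, w.2.2.1] a
def ra (z : R4) : ℝ := c.r1 + (z.1 - z.2.1 - c.s1) / 2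
def S : Set W5 := {w | w.1 ∈ c.K ∧ w.2.1 ∈ Icc 0 (c.r1 + 1 / 2)⁻¹}

variable {c} (k : c.Ok) {x : P3 × ℝ} {z : R4} {w : W5}
include k

theorem fd_v (hx : x ∈ c.K) (z : R4) : fderiv ℝ (c.Ps x) z e1 = c.lam x.1 • eT +
    fderiv ℝ (c.Ps x) z (0, 0, kp c x.1 * -z.2.2.2, kp c x.1 * z.2.2.1) := by
  have l : HasDerivAt (fun t => -(kp c x.1 * t)) (-(kp c x.1 * 1)) 0 :=
    ((hasDerivAt_id (0 : ℝ)).const_mul _).neg
  have d : HasDerivAt (fun t => ((z.1, z.2.1 + t, ro (-(kp c x.1 * t)) z.2.2) : R4))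
      (e1 - (0, 0, kp c x.1 * -z.2.2.2, kp c x.1 * z.2.2.1)) 0 :=
    ((hasDerivAt_const _ _).prodMk (((hasDerivAt_id _).const_add _).prodMk
      (((l.cos.mul_const _).sub (l.sin.mul_const _)).prodMk
        ((l.sin.mul_const _).add (l.cos.mul_const _))))).congr_deriv (by simp [e1])
  have d1 := (Ni.ps_df (rbas c k) hx z).hasFDerivAt.comp_hasDerivAt_of_eq 0 d (by simp [ro])
  have d2 : HasDerivAt (fun t : ℝ => c.Ps x z + t • c.lam x.1 • eT) ((1 : ℝ) • c.lam x.1 • eT) 0 :=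
    ((hasDerivAt_id _).smul_const _).const_add _
  rw [one_smul] at d2
  rw [← sub_eq_iff_eq_add, ← map_sub]
  refine d1.unique (d2.congr_of_eventuallyEq (.of_forall fun t => ?_))
  refine (Ps_ro c x (z.1, z.2.1 + t, z.2.2) _).trans ?_
  rw [c.Ps_sym, sh_sh, kp, show omm x.1.1 x.1.2.1 * c.lam x.1 * t + sgn c.b * -(sgn c.b *
    (omm x.1.1 x.1.2.1 * c.lam x.1) * t) = 0 by cases c.b <;> simp [sgn]]
  ext <;> simp [sh, eT, mul_comm]

theorem S_mem (hw : w ∈ S c) : w.2.1 ∈ Icc 0 (rm w.1.1.1 w.1.1.2.1)⁻¹ := by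
  obtain ⟨a0, a1, u1, u2⟩ := k.fl.par _ hw.1.1
  exact ⟨hw.2.1, hw.2.2.trans (inv_anti₀ (P354YW.rm_pos a0 a1)
    (by linarith [k.r1.2 _ hw.1.1]))⟩

theorem Y_cd (i : ℕ) : ContDiff ℝ ∞ fun w : W5 => c.Y i (w.1.1, w.2.1, ht c.σ w.2.2) := by
  have s := ht_smooth c.σ
  exact (k.fl.smooth i).comp (by fun_prop)

theorem Q_cd (hw : w.1 ∈ c.K) : ContDiffAt ℝ ∞ (Q c) w :=
  pt_cd (contDiffAt_snd.fst.mul (Y_cd k 2).contDiffAt) (k.nd_cd hw.1 _ _)

theorem Q_rd (hw : w ∈ S c) : rd (Q c w) = 1 := (rd_pt ..).trans (k.nd_norm hw.1.1 (S_mem k hw) _)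

theorem G_cd (hw : w ∈ S c) (A B : R4) : ContDiffAt ℝ ∞ (fun w => G c w 0 A B) w := by
  have s := Q_cd k hw.1
  have d : ∀ A, ContDiffAt ℝ ∞ (fun w => D c w A) w := fun A => contDiffAt_const.add
    ((ContDiffAt.fderiv (f := fun (w : W5) y => Q c (w.1, w.2.1, y)) (g := fun w => w.2.2)
      (n := ∞) (s.comp (w, w.2.2) (f := fun u : W5 × ℝ × ℝ => (u.1.1, u.1.2.1, u.2))
        (by fun_prop)) contDiffAt_snd.snd (by simp)).clm_apply contDiffAt_const)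
  exact (((famK.sm ((w.2.1 * w.1.1.1, w.2.1 * w.1.1.2.1), Q c w)
    (zero_lt_one.trans_eq (Q_rd k hw).symm)).comp w (f := fun w : W5 => ((w.2.1 * w.1.1.1,
      w.2.1 * w.1.1.2.1), Q c w)) (ContDiffAt.prodMk (by fun_prop) s)).clm_apply (d A)).clm_apply
    (d B)

theorem lam_cd (hw : w ∈ S c) : ContDiffAt ℝ ∞ (fun w : W5 => c.lam w.1.1) w :=
  (k.lam_cd hw.1.1).comp w (f := fun w : W5 => w.1.1) contDiffAt_fst.fst

theorem O_cd (hw : w ∈ S c) : ContDiffAt ℝ ∞ (O c) w ∧ 0 < O c w := by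
  have m := S_mem k hw
  have := k.fl.pos
  have q := (k.fl.ode (w.1.1, w.2.1, ht c.σ w.2.2) hw.1.1 ⟨by linarith [m.1], by linarith [m.2]⟩
    ((abs_ht _ _).trans_lt (by linarith))).1
  have s := ht_smooth c.σ
  have y := Y_cd k 1
  have l := k.lam_pos hw.1.1
  have s2 : ContDiffAt ℝ ∞ (fun w : W5 => q2 (w.1.1, w.2.1, ht c.σ w.2.2)) w := by
    unfold q2
    fun_prop
  exact ⟨(contDiffAt_const.mul (ContDiffAt.div (by fun_prop) (s2.sqrt q.ne')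
    (sqrt_pos.2 q).ne')).mul (lam_cd k hw), by unfold O; positivity⟩

theorem be_cd (hw : w ∈ S c) (a : Fin 2) : ContDiffAt ℝ ∞ (fun w => be c w a) w := by
  obtain ⟨a0, a1, u1, u2⟩ := k.fl.par _ hw.1.1
  refine (contDiffAt_const.mul (((par_cd a0 a1 u1 u2).2.2.2.1.comp w contDiffAt_fst.fst).mul
    (lam_cd k hw))).mul ?_
  fin_cases a
  exacts [contDiffAt_snd.snd.snd.neg, contDiffAt_snd.snd.fst]

theorem ra_pos (hz : c.s1 < z.1 - z.2.1) : 1 ≤ ra c z := by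
  unfold ra
  linarith [k.r1.1]

theorem rel (y : c.Key) (hx : x ∈ c.K) (hz : c.s1 < z.1 - z.2.1) (hw : w = (x, (ra c z)⁻¹, z.2.2)) :
    (∀ a b, gm (c.gg x) a b z = ra c z ^ 2 * gm (G c w) a b 0) ∧
    (∀ b, c.gg x z e1 (ey b) = c.lam x.1 * ra c z * G c w 0 e1 (ey b) +
      ra c z ^ 2 * ∑ a, be c w a * gm (G c w) a b 0) ∧
    c.gg x z e1 e1 = c.lam x.1 ^ 2 * G c w 0 e1 e1 +
      2 * c.lam x.1 * ra c z * ∑ a, be c w a * G c w 0 e1 (ey a) +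
      ra c z ^ 2 * ∑ a, ∑ b, be c w a * be c w b * gm (G c w) a b 0 - 2 * O c w ∧
    Om (c.gg x) z = O c w := by
  have b := rbas c k
  have r0 := zero_lt_one.trans_le (ra_pos k hz)
  have R : ∀ ζ, c.R (x.1, (shr z).1, ζ) = ra c z := fun ζ => k.rd.out _ hz.le
  obtain ⟨c0, φ, I⟩ : ∃ c0 φ, ∀ η, c.Ps x ((shr z).1, (shr z).2.1, η) =
      sh c0 φ (ra c z • Q c (x, (ra c z)⁻¹, η)) := ⟨c.lam x.1 * (shr z).2.1 + (x.1.2.2 +
        hT x.1.1 x.1.2.1 x.1.2.2 - ra c z), _, fun η => by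
    simp only [Cx.Ps, Cx.ar, Cx.rr, R, Q, sh_pt]
    refine Prod.ext ?_ rfl
    simp only [sh, pt, Prod.smul_fst, smul_eq_mul, mul_inv_cancel_left₀ r0.ne']
    ring⟩
  generalize hP : fderiv ℝ (c.Ps x) (shr z) = P
  have dq : DifferentiableAt ℝ (fun η => Q c (x, (ra c z)⁻¹, η)) z.2.2 :=
    ((Q_cd k (w := (x, (ra c z)⁻¹, z.2.2)) hx).comp z.2.2 (f := fun η => (x, (ra c z)⁻¹, η))
      (by fun_prop)).differentiableAt (by simp)
  have I2 : ∀ a, P (ey a) = rot φ (ra c z • D c w (ey a)) := fun a => by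
    have e : (ey a).1 = 0 ∧ (ey a).2.1 = 0 := by fin_cases a <;> simp [ey]
    rw [← hP, hw, D, e.2, zero_smul, zero_add]
    refine (Ni.ln (Ni.ps_df b hx _) _).unique (((sh_fd c0 φ _).comp_hasDerivAt 0
      ((Ni.ln dq _).const_smul (ra c z))).congr_of_eventuallyEq (.of_forall fun t => ?_))
    exact (congrArg (c.Ps x) (by ext <;> simp [e, shr])).trans (I _)
  have I3 : P e1 = rot φ (c.lam x.1 • D c w e1 + ∑ a, be c w a • ra c z • D c w (ey a)) := by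
    rw [map_add, map_sum, ← hP, fd_v k hx, hP]
    simp only [map_smul _ (be c w _), ← I2]
    simp only [← map_smul, ← map_sum]
    congr 1
    · simp [D, e1, rot_ap, sh, eT, Prod.mk_zero_zero]
    · simp [be, ey, hw, shr]
  have g : ∀ A B, hin (x.1.1, x.1.2.1) (c.Ps x (shr z)) (rot φ A) (rot φ B) =
      hin (w.2.1 * w.1.1.1, w.2.1 * w.1.1.2.1) (Q c w) A B := fun A B => by
    rw [show c.Ps x (shr z) = _ from I z.2.2, hin_sh, hin_ap, hin_ap, gin_sc r0, hw]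
  have s : gs c.R (x.1, (shr z).1, ht c.σ (shr z).2.2) = 1 / 2 := by
    simpa using (Ni.cz k.rd.smooth x.1 (hasDerivAt_id (shr z).1) (hasDerivAt_const _ _)).unique
      (((((hasDerivAt_id _).sub_const c.s1).div_const 2).const_add c.r1).congr_of_eventuallyEq
        ((lt_mem_nhds hz).mono fun t ht => k.rd.out _ ht.le))
  have K : ∀ A, hin (x.1.1, x.1.2.1) (c.Ps x (shr z)) (P e0) (P A) = O c w * A.2.1 := fun A => by
    rw [hin_ap, ← hP, (y x hx _).2, s, Cx.ar, Cx.rr, R, hw]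
    rfl
  have sy : ∀ p q (A B : R4), hin p q A B = hin p q B A := fun p q A B => by
    rw [hin_ap, hin_ap, gin_symm]
  have E : ∀ A B, c.gg x z A B = hin (x.1.1, x.1.2.1) (c.Ps x (shr z)) (P (shr A)) (P (shr B)) :=
    fun A B => by rw [Ni.gg_eq b hx, hin_ap, hP]
  have s0 : shr e0 = e0 := by simp [shr, e0]
  have s1 : shr e1 = e1 - e0 := by simp [shr, e0, e1]
  have sa : ∀ a, shr (ey a) = ey a ∧ (ey a).2.1 = 0 := fun a => by fin_cases a <;> simp [shr, ey]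
  refine ⟨fun a b => ?_, fun b => ?_, ?_, ?_⟩
  · simp only [gm, E, (sa _).1, I2, g, G, map_smul, smul_apply, smul_eq_mul]
    ring
  · rw [E, s1, (sa _).1, map_sub, map_sub, sub_apply, K, (sa _).2, I3, I2, g]
    simp only [gm, G, map_add, map_smul, add_apply, smul_apply, smul_eq_mul, Fin.sum_univ_two]
    ring
  · rw [E, s1, map_sub, map_sub, map_sub, sub_apply, sub_apply, sy _ _ (P e1) (P e0), K, K, I3, g]
    simp only [gm, G, map_add, map_smul, add_apply, smul_apply, smul_eq_mul, Fin.sum_univ_two,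
      sy _ _ (D c w (ey _)) (D c w e1), e0, show e1.2.1 = 1 from rfl]
    ring
  · rw [Om, E, s0, s1, K]
    simp [e0, e1]

theorem G_sy (w : W5) : gm (G c w) 1 0 0 = gm (G c w) 0 1 0 := by
  rw [gm, gm, G, G, hin_ap, hin_ap, gin_symm]

theorem dg_far (y : c.Key) (hx : x ∈ c.K) (hz : c.s1 < z.1 - z.2.1)
    (hw : w = (x, (ra c z)⁻¹, z.2.2)) : dg (G c w) 0 ≠ 0 := fun h => by
  have := (Ni.ray k (rbas c k) y _ hx z).2.2.2.1
  simp only [dg, (rel k y hx hz hw).1] at this h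
  exact this.ne' (by linear_combination ra c z ^ 4 * h)

theorem dg_ne (y : c.Key) (n : c.Nim) (hw : w ∈ S c) : dg (G c w) 0 ≠ 0 := by
  rcases hw.2.1.eq_or_lt with h | h
  · obtain ⟨x, ρ, η⟩ := w
    obtain rfl : 0 = ρ := h
    let L : X →L[ℝ] R4 := (0 : X →L[ℝ] ℝ).prod ((EuclideanSpace.proj 0).prod
      ((EuclideanSpace.proj 1).prod (EuclideanSpace.proj 2)))
    have d : DifferentiableAt ℝ (c.nd x 0) η := ((k.nd_cd hw.1.1 0 η).comp η
      (f := fun y => (x, (0 : ℝ), y)) (by fun_prop)).differentiableAt (by simp)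
    have i := ((n x hw.1 0 (S_mem k hw)).2 η).1
    have e : ∀ a, D c (x, 0, η) (ey a) = pt 0 (fderiv ℝ (c.nd x 0) η (ey a).2.2) := fun a => by
      rw [D, show (ey a).2.1 = 0 by fin_cases a <;> rfl, zero_smul, zero_add,
        show (fun y => Q c (x, 0, y)) = L ∘ c.nd x 0 from funext fun y => by rw [Q, zero_mul]; rfl,
        (L.hasFDerivAt.comp η d.hasFDerivAt).fderiv]
      rfl
    simp only [dg, gm, G, hin_ap, zero_mul, e, gin_flat (Q_rd k hw)]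
    generalize fderiv ℝ (c.nd x 0) η = N at i
    intro h
    have h1 := i (a₁ := -inner ℝ (N (ey 0).2.2) (N (ey 1).2.2) • (ey 0).2.2 +
      inner ℝ (N (ey 0).2.2) (N (ey 0).2.2) • (ey 1).2.2) (a₂ := 0) (by
        rw [map_zero, ← inner_self_eq_zero (𝕜 := ℝ)]
        simp only [map_add, map_smul, inner_add_left, inner_add_right, real_inner_smul_left,
          real_inner_smul_right, real_inner_comm (N (ey 0).2.2) (N (ey 1).2.2)]
        linear_combination inner ℝ (N (ey 0).2.2) (N (ey 0).2.2) * h)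
    have h2 := i (a₁ := (ey 0).2.2) (a₂ := 0) (by
      simpa [ey] using congrArg Prod.snd h1)
    simp [ey] at h2
  · have h1 : c.r1 + 1 / 2 ≤ w.2.1⁻¹ := (le_inv_comm₀ h (by linarith [k.r1.1])).1 hw.2.2
    have e : ra c (c.s1 + 2 * (w.2.1⁻¹ - c.r1), 0, w.2.2) = w.2.1⁻¹ := by simp [ra]
    exact dg_far k (z := (c.s1 + 2 * (w.2.1⁻¹ - c.r1), 0, w.2.2)) y hw.1
      (by simp only; linarith) (by rw [e, inv_inv])

theorem w_mem (hx : x ∈ c.K) (hz : c.s1 + 1 ≤ z.1 - z.2.1) : (x, (ra c z)⁻¹, z.2.2) ∈ S c :=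
  ⟨hx, (inv_pos.2 (zero_lt_one.trans_le (ra_pos k (by linarith)))).le,
    inv_anti₀ (by linarith [k.r1.1]) (by unfold ra; linarith)⟩

omit k in
theorem S_cpt : IsCompact (c.K ×ˢ Icc 0 (c.r1 + 1 / 2)⁻¹ ×ˢ Metric.closedBall (0 : ℝ × ℝ) 9) :=
  (jm_K c).prod (isCompact_Icc.prod (isCompact_closedBall _ _))

theorem bd {F : W5 → ℝ} (hF : ∀ w ∈ S c, ContDiffAt ℝ ∞ F w) {f : Tw → R4 → ℝ}
    (sa : ∀ x ∈ c.K, ∀ z, ContDiffAt ℝ ∞ (fun w : (P3 × ℝ) × R4 => f (c.gg w.1) w.2) (x, z))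
    (e : ∀ x ∈ c.K, ∀ z : R4, c.s1 < z.1 - z.2.1 → f (c.gg x) z = F (x, (ra c z)⁻¹, z.2.2)) :
    ∃ C, ∀ i : {w : (P3 × ℝ) × R4 // w.1 ∈ c.K ∧ ‖w.2.2.2‖ ≤ 9 ∧ c.s1 + 1 ≤ w.2.1 - w.2.2.1},
      JB 4 (f (c.gg i.1.1)) i.1.2 C := by
  let I := {w : (P3 × ℝ) × R4 // w.1 ∈ c.K ∧ ‖w.2.2.2‖ ≤ 9 ∧ c.s1 + 1 ≤ w.2.1 - w.2.2.1}
  have a : Oj 4 (fun i : I => i.1.2) (fun i z => ra c z - ra c i.1.2) 1 :=
    (oj_id.clm ((1 / 2 : ℝ) • (ContinuousLinearMap.fst ℝ _ _ - (ContinuousLinearMap.fst ℝ _ _).comp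
      (.snd ℝ ℝ _)))).congr' fun i z => by simp [ra]; ring
  have b := oj_comp a (oj_inv (fun i => ra_pos k (by linarith [i.2.2.2])) 4)
  have d : Oj 4 (fun i : I => i.1.2) (fun i z => ((ra c z)⁻¹, z.2.2) - (0, i.1.2.2.2)) 1 :=
    (b.pair (oj_id.clm ((ContinuousLinearMap.snd ℝ _ _).comp (.snd ℝ ℝ _)))).congr' (by simp)
  exact P354YQ.oj_jb ((oj_comp (G := fun _ => F) (oj_pr d fun i => i.1.1) (.fix S_cpt
    (fun w hw => hF w ⟨hw.1, hw.2.1⟩) fun i => ⟨i.2.1, (w_mem k i.2.1 i.2.2.2).2,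
      mem_closedBall_zero_iff.2 i.2.2.1⟩)).congr fun i => (continuousAt_const.eventually_lt
        (g := fun z : R4 => z.1 - z.2.1) (by fun_prop) (by linarith [i.2.2.2])).mono (e _ i.2.1))
    fun i => .of_forall fun z => (sa _ i.2.1 z).comp z (f := fun y => (i.1.1, y)) (by fun_prop)

end Jf

open Jf in
/-- **RJFAR.** -/
theorem rjfar : RJFAR := fun c k b y n => by
  have hR := Ni.ray k b y
  have d := fun w hw => dg_ne k y n (w := w) hw
  have s := fun w hw => G_cd k (w := w) hw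
  have A := fun x (hx : x ∈ c.K) (z : R4) (hz : c.s1 < z.1 - z.2.1) =>
    let r := rel k y hx hz rfl
    alg (zero_lt_one.trans_le (ra_pos k hz)).ne' (dg_far k y hx hz rfl) (G_sy k _) r.1 r.2.1
      r.2.2.1 r.2.2.2
  have f2 := fun a b w hw => ((O_cd k (w := w) hw).1.mul (jm_gi (s w hw) (d w hw) a b)).div_const 2
  obtain ⟨C, hC⟩ := jm_jt (bd k (f := a0) (fun w hw => ((((lam_cd k hw).pow 2).mul
      ((ContDiffAt.sum fun a _ => (jm_a1 (s w hw) (d w hw) a).mul (s w hw _ _)).sub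
        (s w hw _ _))).add (contDiffAt_const.mul (O_cd k hw).1)).div
        (contDiffAt_const.mul (O_cd k hw).1) (mul_pos two_pos (O_cd k hw).2).ne')
      (fun x hx z => jm_a0 (jm_gg b hx z) (hR x hx z).2.2.2.1.ne' (hR x hx z).2.2.1.ne')
      fun x hx z hz => (A x hx z hz).1)
    (fun a => bd k (f := fun g => a1 g a) (fun w hw => (be_cd k hw a).add
      (((lam_cd k hw).mul contDiffAt_snd.fst).mul (jm_a1 (s w hw) (d w hw) a)))
      (fun x hx z => jm_a1 (jm_gg b hx z) (hR x hx z).2.2.2.1.ne' a)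
      fun x hx z hz => (A x hx z hz).2.1 a)
    (fun a a' => bd k (f := fun g => a2 g a a') (fun w hw => (contDiffAt_snd.fst.pow 2).mul
      (f2 a a' w hw)) (fun x hx z => jm_a2 (jm_gg b hx z) (hR x hx z).2.2.2.1.ne' a a')
      fun x hx z hz => (A x hx z hz).2.2 a a') fun a a' => by
    obtain ⟨B, hB⟩ := (S_cpt (c := c)).exists_bound_of_continuousOn fun w hw =>
      (f2 a a' w ⟨hw.1, hw.2.1⟩).continuousAt.continuousWithinAt
    refine ⟨B * (1 + (c.s1 + 2) ^ 2), fun ⟨⟨x, z⟩, hx, h1, h2⟩ => ?_⟩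
    have h3 : c.s1 < z.1 - z.2.1 := by linarith
    have r1 := ra_pos k h3
    have s1 := k.rd.pos.1.trans_le k.rd.pos.2
    have h4 : z.1 - z.2.1 ≤ (c.s1 + 2) * ra c z := by
      have := k.r1.1
      unfold ra at r1 ⊢
      nlinarith
    rw [(A x hx z h3).2.2, abs_mul, mul_right_comm, mul_comm, jb, sq_sqrt (by positivity),
      abs_of_nonneg (sq_nonneg (ra c z)⁻¹), inv_pow, inv_mul_eq_div]
    refine mul_le_mul (hB _ ⟨hx, (w_mem k hx h2).2, mem_closedBall_zero_iff.2 h1⟩)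
      ((div_le_iff₀ (by positivity)).2 ?_) (by positivity) ((norm_nonneg _).trans (hB _ ⟨hx,
        (w_mem k hx h2).2, mem_closedBall_zero_iff.2 h1⟩))
    nlinarith [pow_le_pow_left₀ (by linarith) h4 2]
  exact ⟨C, fun x hx z h1 h2 => hC ⟨(x, z), hx, h1, h2⟩⟩

end Vale.Agent.P354RF
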