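import Vale.Agent.P354RF.Defs
import Vale.Agent.P354XM.Kin
import Vale.Agent.P354CH.Lj

/-!
RJMID: the coefficients of the eikonal equation in the middle zone.
-/

open scoped ContDiff
open Set Filter Topology

noncomputable section

namespace Vale.Agent.P354RF

open Vale.Agent.P354n (R4)
open Vale.Agent.P354I (P3)
open Vale.Agent.P354XE (Tw)
open Vale.Agent.P354XM (famK hin_ap hin_sh sh_fd)
open Vale.Agent.P354YI (Oj)
open Vale.Agent.P354YQ (SA JB oj_jb)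
open Vale.Agent.P354SA (Om a0 a1 a2 dg gi gm jb shr)
open Vale.Agent.P354CH (oj_comp oj_pr oj_id)

section
variable {Q : Type} [NormedAddCommGroup Q] [NormedSpace ℝ Q] {g : Q → Tw} {π : Q → R4} {q : Q}
  (s : ∀ A B, ContDiffAt ℝ ∞ (fun w => g w (π w) A B) q) (hd : dg (g q) (π q) ≠ 0)
include s hd

theorem jm_gi (a b : Fin 2) : ContDiffAt ℝ ∞ (fun w => gi (g w) a b (π w)) q := by
  refine ContDiffAt.div ?_ (((s _ _).mul (s _ _)).sub ((s _ _).pow 2)) hd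
  fin_cases a <;> fin_cases b
  exacts [s _ _, (s _ _).neg, (s _ _).neg, s _ _]

theorem jm_a1 (a : Fin 2) : ContDiffAt ℝ ∞ (fun w => a1 (g w) a (π w)) q :=
  ContDiffAt.sum fun b _ => (jm_gi s hd a b).mul (s _ _)

theorem jm_a0 (hO : Om (g q) (π q) ≠ 0) : ContDiffAt ℝ ∞ (fun w => a0 (g w) (π w)) q :=
  ((ContDiffAt.sum fun a _ => (jm_a1 s hd a).mul (s _ _)).sub (s _ _)).div
    (contDiffAt_const.mul (s _ _)) (mul_ne_zero two_ne_zero hO)

theorem jm_a2 (a b : Fin 2) : ContDiffAt ℝ ∞ (fun w => a2 (g w) a b (π w)) q :=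
  ((s _ _).mul (jm_gi s hd a b)).div_const 2

end

theorem jm_jt {I : Type} {g : I → Tw} {z : I → R4} (h0 : ∃ C, ∀ i, JB 4 (a0 (g i)) (z i) C)
    (h1 : ∀ a, ∃ C, ∀ i, JB 4 (a1 (g i) a) (z i) C)
    (h2 : ∀ a b, ∃ C, ∀ i, JB 4 (a2 (g i) a b) (z i) C)
    (h3 : ∀ a b, ∃ C, ∀ i, |a2 (g i) a b (z i)| * jb ((z i).1 - (z i).2.1) ^ 2 ≤ C) :
    ∃ C, ∀ i, Jt (g i) (z i) C := by
  have e : ∀ {f : I → R4 → ℝ}, (∃ C, ∀ i, JB 4 (f i) (z i) C) →
      ∀ᶠ C in atTop, ∀ i, JB 4 (f i) (z i) C := fun ⟨C, h⟩ =>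
    (eventually_ge_atTop C).mono fun _ k i => (h i).mono k
  have e3 : ∀ a b, ∀ᶠ C in atTop, ∀ i, |a2 (g i) a b (z i)| ≤ C / jb ((z i).1 - (z i).2.1) ^ 2 :=
    fun a b => let ⟨C, h⟩ := h3 a b
      (eventually_ge_atTop C).mono fun _ k i => (le_div_iff₀ (pow_pos (Real.sqrt_pos.2
        (by positivity)) 2)).2 ((h i).trans k)
  exact (((e h0).and ((eventually_all.2 fun a => e (h1 a)).and (eventually_all.2 fun a =>
    eventually_all.2 fun b => (e (h2 a b)).and (e3 a b)))).mono fun _ k i =>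
      ⟨k.1 i, fun a => k.2.1 a i, fun a b => ⟨(k.2.2 a b).1 i, (k.2.2 a b).2 i⟩⟩).exists

theorem jm_K (c : Cx) : IsCompact c.K := (isCompact_closedBall _ _).prod isCompact_Icc

theorem jm_shr : ContDiff ℝ ∞ shr := by
  unfold shr
  fun_prop

variable {c : Cx} (h : c.Bas) {x : P3 × ℝ} (hx : x ∈ c.K)
include h

section
include hx

theorem jm_ps (z : R4) :
    ContDiffAt ℝ ∞ (fun w : (P3 × ℝ) × R4 => c.Ps w.1 (shr w.2)) (x, z) :=
  ((h x hx).2.2 (shr z)).1.comp (x, z) (f := fun w : (P3 × ℝ) × R4 => (w.1, shr w.2))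
    (contDiffAt_fst.prodMk (jm_shr.contDiffAt.comp _ contDiffAt_snd))

theorem jm_gg (z A B : R4) :
    ContDiffAt ℝ ∞ (fun w : (P3 × ℝ) × R4 => c.gg w.1 w.2 A B) (x, z) := by
  have s := jm_ps h hx z
  have d : ContDiffAt ℝ ∞ (fun w : (P3 × ℝ) × R4 => fderiv ℝ (c.Ps w.1 ∘ shr) w.2) (x, z) :=
    ContDiffAt.fderiv (f := fun (w : (P3 × ℝ) × R4) y => c.Ps w.1 (shr y)) (g := fun w => w.2)
      (n := ∞) (s.comp ((x, z), z) (f := fun u : ((P3 × ℝ) × R4) × R4 => (u.1.1, u.2))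
        (by fun_prop)) contDiffAt_snd (by simp)
  obtain ⟨-, r0, -, r1, -⟩ := (h x hx).2.2 (shr z)
  have k := (famK.sm ((x.1.1, x.1.2.1), c.Ps x (shr z)) (r0.trans_eq r1.symm)).comp (x, z)
    (f := fun w : (P3 × ℝ) × R4 => ((w.1.1.1, w.1.1.2.1), c.Ps w.1 (shr w.2)))
    (ContDiffAt.prodMk (by fun_prop) s)
  exact ((k.clm_apply (d.clm_apply (contDiffAt_const (c := A)))).clm_apply (d.clm_apply
    (contDiffAt_const (c := B)))).congr_of_eventuallyEq (.of_forall fun w => (hin_ap (_, _) ..).symm)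

/-- The metric does not depend on v for fixed s - v. -/
theorem jm_inv (z : R4) (t : ℝ) : c.gg x (z + (t, t, 0)) = c.gg x z := by
  have e : ∀ y, (c.Ps x ∘ shr) (y + (t, t, 0)) = P354XM.sh _ _ ((c.Ps x ∘ shr) y) := fun y =>
    (congrArg (c.Ps x) (by ext <;> simp [shr])).trans (((h x hx).2.2 (shr y)).2.2.2.2.2 t)
  have d : DifferentiableAt ℝ (c.Ps x ∘ shr) z :=
    ((jm_ps h hx z).comp z (f := fun y => (x, y)) (by fun_prop)).differentiableAt (by simp)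
  funext A B
  rw [Cx.gg, P354XE.pb, P354XE.pb, ← fderiv_comp_add_right, e, funext e,
    fderiv_fun_comp z (sh_fd _ _ _).differentiableAt d, (sh_fd _ _ _).fderiv]
  exact (hin_ap (_, _) ..).symm.trans ((hin_sh ..).trans (hin_ap ..))

end

theorem jm_bd (F : Tw → R4 → ℝ) (hF : ∀ g z z', g z = g z' → F g z = F g z')
    (hs : ∀ x ∈ c.K, ∀ z, ContDiffAt ℝ ∞ (fun w : (P3 × ℝ) × R4 => F (c.gg w.1) w.2) (x, z))
    (L : ℝ) : ∃ C, ∀ i : {w : (P3 × ℝ) × R4 // w.1 ∈ c.K ∧ ‖w.2.2.2‖ ≤ 9 ∧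
      w.2.1 - w.2.2.1 ∈ Icc 0 L}, JB 4 (F (c.gg i.1.1)) i.1.2 C := by
  obtain ⟨C, -, hC⟩ := (oj_comp (m := 4) (G := fun _ w => F (c.gg w.1) w.2) (oj_pr oj_id _)
    (Oj.fix (J := {w : (P3 × ℝ) × R4 // w.1 ∈ c.K ∧ ‖w.2.2.2‖ ≤ 9 ∧ w.2.1 - w.2.2.1 ∈ Icc 0 L})
      (x := fun i => (i.1.1, i.1.2 + ((-i.1.2.2.1, -i.1.2.2.1, 0) : R4))) ((jm_K c).prod
        ((isCompact_Icc (a := (0 : ℝ)) (b := L)).prod ((isCompact_singleton (x := (0 : ℝ))).prod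
          (isCompact_closedBall (0 : ℝ × ℝ) 9)))) (fun w hw => hs w.1 hw.1 w.2) fun i =>
        mk_mem_prod i.2.1 (mk_mem_prod i.2.2.2 (mk_mem_prod (add_neg_cancel _)
          (mem_closedBall_zero_iff.2 (by simpa using i.2.2.1)))))).bd
  refine ⟨C * 1, fun i => ⟨.of_forall fun z => (hs _ i.2.1 z).comp z (f := fun y => (i.1.1, y))
    (by fun_prop), fun k hk => ?_⟩⟩
  rw [funext fun y => (hF _ _ _ (jm_inv h i.2.1 y (-i.1.2.2.1))).symm,
    iteratedFDeriv_comp_add_right]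
  exact hC i k hk

omit h in
/-- **RJMID.** -/
theorem rjmid : RJMID := fun c _ h hR L => by
  have k2 := fun a b => jm_bd h (fun g => a2 g a b) (fun g z z' e => by simp only [a2, Om, gi, gm, dg, e])
    (fun x hx z => jm_a2 (jm_gg h hx z) (hR x hx z).2.2.2.1.ne' a b) L
  obtain ⟨C, hC⟩ := jm_jt (jm_bd h a0 (fun g z z' e => by simp only [a0, a1, Om, gi, gm, dg, e])
    (fun x hx z => jm_a0 (jm_gg h hx z) (hR x hx z).2.2.2.1.ne' (hR x hx z).2.2.1.ne') L)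
    (fun a => jm_bd h (fun g => a1 g a) (fun g z z' e => by simp only [a1, gi, gm, dg, e])
      (fun x hx z => jm_a1 (jm_gg h hx z) (hR x hx z).2.2.2.1.ne' a) L) k2 fun a b =>
    let ⟨C, hC⟩ := k2 a b
    ⟨C * (1 + L ^ 2), fun i => mul_le_mul (hC i).zero (by
      rw [jb, Real.sq_sqrt (by positivity)]
      nlinarith [i.2.2.2.1, i.2.2.2.2]) (sq_nonneg _) (hC i).nonneg⟩
  exact ⟨C, fun x hx z h1 h2 => hC ⟨(x, z), hx, h1, h2⟩⟩

end Vale.Agent.P354RF
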