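import Vale.Agent.P354RF.RTOP
import Vale.Agent.P354RF.RJMID
import Vale.Agent.P354XM.Jet

/-!
RJIN: the coefficients of the eikonal equation in the interior.
-/

open scoped ContDiff
open Set Filter Topology Real

noncomputable section

namespace Vale.Agent.P354RF

open Vale.Agent.P354n (R4)
open Vale.Agent.P354I (P3)
open Vale.Agent.P354R (ht dht alp rnd rot bg gam hor rho arg ht_smooth)
open Vale.Agent.P354RG (Y3 Fx gz)
open Vale.Agent.P354D (sgn)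
open Vale.Agent.P354XE (Tw)
open Vale.Agent.P354YQ (SA JB)
open Vale.Agent.P354SA (e0 e1 ey Om a0 a1 a2 dg gi gm jb shr)

/-- The arguments (x, s, y). -/
abbrev Q4 : Type := (P3 × ℝ) × ℝ × ℝ × ℝ

namespace Cx

variable (c : Cx)

/-- The twist of a vector, the derivative of mi, and the metric as a function of (x, s, y). -/
def tl (x : P3 × ℝ) (y A : ℝ × ℝ) : ℝ × ℝ :=
  (cos (c.tw x y) * A.1 - sin (c.tw x y) * (sgn c.b * A.2),
    sin (c.tw x y) * A.1 + cos (c.tw x y) * (sgn c.b * A.2))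
def kw (x : P3 × ℝ) (y : ℝ × ℝ) : ℝ := (1 - sgn c.b) * gz (c.H 3) (x.1, x.2, ht c.σ y)
def dm (x : P3 × ℝ) (y : ℝ × ℝ) (A : R4) : R4 :=
  ((A.2.1 - A.1) / 2, (A.2.1 + A.1) / 2,
    c.tl x y A.2.2 + (c.kw x y * dht c.σ y A.2.2) • rot (c.tl x y y))
def mg (q : Q4) : Tw := fun _ A B => bg c.k q.2.1 (Fx c.G q.1.1) c.σ (0, 0, c.tl q.1 q.2.2 q.2.2)
  (c.dm q.1 q.2.2 A) (c.dm q.1 q.2.2 B)
def qz (x : P3 × ℝ) (z : R4) : Q4 := (x, exp (c.k * (z.1 - z.2.1) / 2), z.2.2)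

end Cx

theorem ji_bg (k d : ℝ) (G : ℕ → Y3 → ℝ) (p : P3) (σ : Bool) (w : R4) :
    bg k d (Fx G p) σ w = bg k (d * exp (-k * w.1)) (Fx G p) σ (0, 0, w.2.2) := by
  funext A B
  simp only [bg, gam, hor, rho, arg, Fx, mul_zero, exp_zero, mul_one]

theorem ji_gam (k d : ℝ) (F : ℕ → ℝ × ℝ × ℝ → ℝ) (σ : Bool) (w : R4) : ∃ p q r : ℝ, ∀ A B,
    gam k d F σ w A B = p * (A.1 * B.1) + q * (A.1 * B.2 + A.2 * B.1) + r * (A.2 * B.2) :=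
  ⟨gam k d F σ w (1, 0) (1, 0), gam k d F σ w (1, 0) (0, 1), gam k d F σ w (0, 1) (0, 1),
    fun A B => by simp only [gam, rnd, dht, alp]; ring⟩

theorem ji_a0 {g : Tw} {z : R4} {p q r : ℝ} {γ : ℝ × ℝ → ℝ × ℝ → ℝ}
    (hγ : ∀ A B, γ A B = p * (A.1 * B.1) + q * (A.1 * B.2 + A.2 * B.1) + r * (A.2 * B.2))
    {u : ℝ × ℝ} {f : Fin 2 → ℝ × ℝ} (h1 : g z e1 e1 = γ u u) (h2 : ∀ a, g z e1 (ey a) = γ u (f a))
    (h3 : ∀ a b, gm g a b z = γ (f a) (f b)) (hd : dg g z ≠ 0) : a0 g z = 0 := by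
  rw [a0, div_eq_zero_iff]
  left
  simp only [a1, gi, Fin.sum_univ_two, Matrix.cons_val_zero, Matrix.cons_val_one]
  field_simp
  simp only [dg, h1, h2, h3, hγ]
  ring

variable {c : Cx} (h : c.Ok)

section
include h

theorem ji_tw : ContDiff ℝ ∞ fun w : (P3 × ℝ) × ℝ × ℝ => c.tw w.1 w.2 := by
  have := ht_smooth c.σ
  have := h.hH.smooth 3
  unfold Cx.tw
  fun_prop

theorem ji_fd (x : P3 × ℝ) (z : R4) :
    DifferentiableAt ℝ (c.mi x) z ∧ ∀ A, fderiv ℝ (c.mi x) z A = c.dm x z.2.2 A := by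
  have a := hasFDerivAt_id (𝕜 := ℝ) z
  have d0 := (hasFDerivAt_const x.1 z).prodMk ((hasFDerivAt_const x.2 z).prodMk
    (((ht_smooth c.σ).differentiable (by simp) z.2.2).hasFDerivAt.comp z a.snd.snd))
  have d := (((h.hH.smooth 3).differentiable (by simp) _).hasFDerivAt.comp z d0).const_mul
    (1 - sgn c.b)
  obtain ⟨L, d1, hL⟩ : ∃ L : R4 →L[ℝ] ℝ, HasFDerivAt (fun w : R4 => c.tw x w.2.2) L z ∧
      ∀ A, L A = c.kw x z.2.2 * dht c.σ z.2.2 A.2.2 := by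
    refine ⟨_, d, fun A => ?_⟩
    have e : ((0, 0, fderiv ℝ (ht c.σ) z.2.2 A.2.2) : Y3) =
        dht c.σ z.2.2 A.2.2 • ((0, 0, 1) : Y3) := by simp [P354R.fderiv_ht]
    change (1 - sgn c.b) * fderiv ℝ (c.H 3) (x.1, x.2, ht c.σ z.2.2)
      (0, 0, fderiv ℝ (ht c.σ) z.2.2 A.2.2) = _
    rw [e, map_smul, Cx.kw, gz, smul_eq_mul]
    ring
  have y1 := a.snd.snd.fst
  have y2 := a.snd.snd.snd.const_mul (sgn c.b)
  have D := ((a.snd.fst.sub a.fst).mul_const (2⁻¹ : ℝ)).prodMk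
    (((a.snd.fst.add a.fst).mul_const (2⁻¹ : ℝ)).prodMk
      (((d1.cos.mul y1).sub (d1.sin.mul y2)).prodMk ((d1.sin.mul y1).add (d1.cos.mul y2))))
  have D' : HasFDerivAt (c.mi x) _ z := D.congr_of_eventuallyEq (.of_forall fun w => by
    simp [Cx.mi, div_eq_mul_inv])
  refine ⟨D'.differentiableAt, fun A => ?_⟩
  rw [D'.fderiv]
  refine Prod.ext ?_ (Prod.ext ?_ (Prod.ext ?_ ?_)) <;> simp [Cx.dm, Cx.tl, rot, hL] <;> ring

theorem ji_gg (T : c.Top) {x : P3 × ℝ} (hx : x ∈ c.K) {z : R4} (hz : z.1 - z.2.1 < c.s2) :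
    c.gg x z = c.mg (c.qz x z) 0 := by
  have k0 := h.hG.pos0.1
  have P := h.hH.iso x.1 (Metric.closedBall_subset_ball h.lt hx.1) true c.σ 0
  have e : exp (-c.k * 0) * exp (-c.k * (c.mi x z).1) = exp (c.k * (z.1 - z.2.1) / 2) := by
    rw [← exp_add]
    congr 1
    simp only [Cx.mi]
    ring
  have m : c.mi x z ∈ {w : R4 | exp (-c.k * 0) * exp (-c.k * w.1) < 1 + c.δ0} := by
    rw [mem_ofPred_eq, e]
    exact (exp_le_exp.2 (by gcongr)).trans_lt h.s2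
  have ev : c.Ps x ∘ shr =ᶠ[𝓝 z]
      (fun w => P354YJ.JJ c.k c.H true x.1 (P354YJ.cy c.σ 0 w)) ∘ c.mi x := by
    have o : ∀ᶠ w : R4 in 𝓝 z, w.1 - w.2.1 < c.s2 :=
      ContinuousAt.eventually_lt (by fun_prop) continuousAt_const hz
    filter_upwards [o] with w hw using (T x hx).2 w hw.le
  funext A B
  rw [Cx.gg, P354XE.pb, ev.fderiv_eq, ev.self_of_nhds, fderiv_comp z ((P.smooth.contDiffAt
    (P.open'.mem_nhds m)).differentiableAt (by simp)) (ji_fd h x z).1]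
  simp only [ContinuousLinearMap.comp_apply, Function.comp, (ji_fd h x z).2]
  rw [← P.eq _ m, ji_bg, e]
  rfl

theorem ji_cd (A B : R4) : ContDiff ℝ ∞ fun q : Q4 => c.mg q 0 A B := by
  have t : ContDiff ℝ ∞ fun q : Q4 => c.tw q.1 q.2.2 :=
    (ji_tw h).comp (f := fun q : Q4 => (q.1, q.2.2)) (by fun_prop)
  have tl : ∀ v : Q4 → ℝ × ℝ, ContDiff ℝ ∞ v → ContDiff ℝ ∞ fun q : Q4 => c.tl q.1 q.2.2 (v q) :=
    fun v hv => by
      unfold Cx.tl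
      fun_prop
  have s := ht_smooth c.σ
  have i : ∀ v : Q4 → ℝ × ℝ, ContDiff ℝ ∞ v →
      ContDiff ℝ ∞ fun q => ((1 + (v q).1 ^ 2 + (v q).2 ^ 2) ^ 2)⁻¹ := fun v hv =>
    ContDiff.inv (by fun_prop) fun p => pow_ne_zero 2 (P354R.sd_pos _).ne'
  have kw : ContDiff ℝ ∞ fun q : Q4 => c.kw q.1 q.2.2 :=
    contDiff_const.mul ((((h.hH.smooth 3).fderiv_right (m := ∞) (by simp)).clm_apply
      contDiff_const).comp (f := fun q : Q4 => ((q.1.1, q.1.2, ht c.σ q.2.2) : Y3)) (by fun_prop))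
  have w := tl (fun q => q.2.2) (by fun_prop)
  have dm : ∀ v : R4, ContDiff ℝ ∞ fun q : Q4 => (c.dm q.1 q.2.2 v).2.2 := fun v => by
    have := tl (fun _ => v.2.2) contDiff_const
    have := i (fun q => q.2.2) (by fun_prop)
    simp only [Cx.dm, dht, rot, div_eq_mul_inv]
    fun_prop
  have G : ∀ n, ContDiff ℝ ∞ fun q : Q4 => Fx c.G q.1.1 n
      (arg c.k q.2.1 c.σ (0, 0, c.tl q.1 q.2.2 q.2.2)) := fun n =>
    (h.hG.smooth n).comp (f := fun q : Q4 => ((q.1.1, q.2.1 * exp (-c.k * 0),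
      ht c.σ (c.tl q.1 q.2.2 q.2.2)) : Y3)) (by fun_prop)
  have G0 := G 0
  have G1 := G 1
  have G2 := G 2
  have G3 := G 3
  have G4 := G 4
  have iw := i _ w
  have hr : ∀ v : R4, ContDiff ℝ ∞ fun q : Q4 => hor c.k q.2.1 (Fx c.G q.1.1) c.σ
      (0, 0, c.tl q.1 q.2.2 q.2.2) (c.dm q.1 q.2.2 v) := fun v => by
    have := dm v
    change ContDiff ℝ ∞ fun q : Q4 => (c.dm q.1 q.2.2 v).2.2 - (q.2.1 * exp (-c.k * 0) * _ *
      ((v.2.1 - v.1) / 2 + (v.2.1 + v.1) / 2)) • rot (c.tl q.1 q.2.2 q.2.2)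
    unfold rot
    fun_prop
  have hA := hr A
  have hB := hr B
  change ContDiff ℝ ∞ fun q : Q4 => q.2.1 * exp (-c.k * 0) * _ * (-((A.2.1 - A.1) / 2 *
    ((B.2.1 - B.1) / 2)) + (A.2.1 + A.1) / 2 * ((B.2.1 + B.1) / 2)) + _
  refine ContDiff.add (by fun_prop) ?_
  have d : ∀ v : Q4 → ℝ × ℝ, ContDiff ℝ ∞ v →
      (ContDiff ℝ ∞ fun q : Q4 => dht c.σ (c.tl q.1 q.2.2 q.2.2) (v q)) ∧
      ContDiff ℝ ∞ fun q : Q4 => alp (c.tl q.1 q.2.2 q.2.2) (v q) := fun v hv =>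
    ⟨contDiff_const.mul ((contDiff_const.mul ((w.fst.mul hv.fst).add (w.snd.mul hv.snd))).mul iw),
      (contDiff_const.mul ((w.fst.mul hv.snd).sub (w.snd.mul hv.fst))).mul iw⟩
  exact ((G1.mul ((contDiff_const.mul ((hA.fst.mul hB.fst).add (hA.snd.mul hB.snd))).mul iw)).add
    (G2.mul ((d _ hA).1.mul (d _ hB).1))).add
    (G3.mul (((d _ hA).2.mul (d _ hB).1).add ((d _ hA).1.mul (d _ hB).2)))

omit h in
theorem ji_hor (q : Q4) (v : ℝ × ℝ) : hor c.k q.2.1 (Fx c.G q.1.1) c.σ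
    (0, 0, c.tl q.1 q.2.2 q.2.2) (c.dm q.1 q.2.2 (0, 0, v)) = (c.dm q.1 q.2.2 (0, 0, v)).2.2 := by
  simp [hor, Cx.dm]

omit h in
theorem ji_inj (x : P3 × ℝ) (y : ℝ × ℝ) {v : ℝ × ℝ} (hv : v ≠ 0) :
    (c.dm x y (0, 0, v)).2.2 ≠ 0 := fun e => by
  have e1 := congrArg Prod.fst e
  have e2 := congrArg Prod.snd e
  have t := cos_sq_add_sin_sq (c.tw x y)
  have s := sgn_sq c.b
  simp only [Cx.dm, Cx.tl, rot, Prod.fst_add, Prod.snd_add, Prod.smul_mk, smul_eq_mul,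
    Prod.fst_zero, Prod.snd_zero] at e1 e2
  have d : y.1 * v.1 + y.2 * v.2 = 0 := by
    linear_combination (cos (c.tw x y) * y.1 - sin (c.tw x y) * (sgn c.b * y.2)) * e1 +
      (sin (c.tw x y) * y.1 + cos (c.tw x y) * (sgn c.b * y.2)) * e2 -
      (y.1 * v.1 + sgn c.b ^ 2 * (y.2 * v.2)) * t - y.2 * v.2 * s
  rw [dht, d, mul_zero, zero_div, mul_zero, mul_zero, zero_mul, add_zero] at e1 e2
  refine hv (Prod.ext ?_ ?_)
  · change v.1 = 0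
    linear_combination cos (c.tw x y) * e1 + sin (c.tw x y) * e2 - v.1 * t
  · change v.2 = 0
    linear_combination sgn c.b * (cos (c.tw x y) * e2 - sin (c.tw x y) * e1) -
      sgn c.b ^ 2 * v.2 * t - v.2 * s

omit h in
theorem ji_gm (q : Q4) (u v : ℝ × ℝ) : c.mg q 0 (0, 0, u) (0, 0, v) =
    gam c.k q.2.1 (Fx c.G q.1.1) c.σ (0, 0, c.tl q.1 q.2.2 q.2.2) (c.dm q.1 q.2.2 (0, 0, u)).2.2
      (c.dm q.1 q.2.2 (0, 0, v)).2.2 := by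
  rw [Cx.mg, bg, ji_hor, ji_hor]
  simp [Cx.dm]

theorem ji_dg (q : Q4) : 0 < dg (c.mg q) 0 := by
  obtain ⟨-, p1, p2⟩ := h.hG.pos q.1.1 (q.2.1 * exp (-c.k * 0)) _
    (P354R.ht_mem c.σ (c.tl q.1 q.2.2 q.2.2))
  have k : ∀ v : ℝ × ℝ, v ≠ 0 → 0 < c.mg q 0 (0, 0, v) (0, 0, v) := fun v hv => by
    rw [ji_gm]
    exact P354R.gam_pos c.σ p1 p2 (ji_inj q.1 q.2.2 hv)
  have b : ∀ v : ℝ × ℝ, c.mg q 0 (0, 0, v) (0, 0, v) = v.1 ^ 2 * gm (c.mg q) 0 0 0 +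
      2 * v.1 * v.2 * gm (c.mg q) 0 1 0 + v.2 ^ 2 * gm (c.mg q) 1 1 0 := fun v => by
    obtain ⟨α, β, γ, e⟩ := ji_gam c.k q.2.1 (Fx c.G q.1.1) c.σ (0, 0, c.tl q.1 q.2.2 q.2.2)
    change _ = _ * c.mg q 0 (0, 0, 1, 0) (0, 0, 1, 0) + _ * c.mg q 0 (0, 0, 1, 0) (0, 0, 0, 1) +
      _ * c.mg q 0 (0, 0, 0, 1) (0, 0, 0, 1)
    simp only [ji_gm, e]
    simp only [Cx.dm, Cx.tl, dht, Prod.fst_add, Prod.snd_add, Prod.smul_fst, Prod.smul_snd,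
      smul_eq_mul]
    ring
  have k0 : 0 < gm (c.mg q) 0 0 0 := k (1, 0) (by simp)
  have k1 := k (gm (c.mg q) 0 1 0, -gm (c.mg q) 0 0 0) (by simp [k0.ne'])
  rw [b] at k1
  refine (mul_pos_iff_of_pos_left k0).1 (k1.trans_eq ?_)
  rw [dg]
  ring

theorem ji_zero (q : Q4) : a0 (c.mg q) 0 = 0 := by
  obtain ⟨α, β, γ, e⟩ := ji_gam c.k q.2.1 (Fx c.G q.1.1) c.σ (0, 0, c.tl q.1 q.2.2 q.2.2)
  refine ji_a0 e (u := hor c.k q.2.1 (Fx c.G q.1.1) c.σ (0, 0, c.tl q.1 q.2.2 q.2.2)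
    (c.dm q.1 q.2.2 e1)) (f := fun a => hor c.k q.2.1 (Fx c.G q.1.1) c.σ
      (0, 0, c.tl q.1 q.2.2 q.2.2) (c.dm q.1 q.2.2 (ey a))) ?_ (fun a => ?_) (fun a b => ?_)
    (ji_dg h q).ne'
  · simp [Cx.mg, bg, Cx.dm, e1]
  · fin_cases a <;> simp [Cx.mg, bg, Cx.dm, e1, ey]
  · fin_cases a <;> fin_cases b <;> simp [gm, Cx.mg, bg, Cx.dm, ey]

omit h in
theorem ji_Om (q : Q4) : Om (c.mg q) 0 = q.2.1 * (c.G 0 (q.1.1, q.2.1,
    ht c.σ (c.tl q.1 q.2.2 q.2.2)) / 2) := by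
  simp [Om, Cx.mg, bg, Cx.dm, Cx.tl, e0, e1, hor, gam, rnd, dht, alp, rho, arg, Fx]
  ring

/-- The jets of a smooth function of (x, s, y). -/
theorem ji_jet {Φ : Q4 → ℝ} (hΦ : ContDiff ℝ ∞ Φ) : ∃ C, ∀ x ∈ c.K, ∀ z : R4, ‖z.2.2‖ ≤ 9 →
    z.1 - z.2.1 ≤ 0 → JB 4 (fun w => Φ (c.qz x w)) z C := by
  have k0 := h.hG.pos0.1
  obtain ⟨C, -, hC⟩ := P354XM.bd_cpt 4 (Φ := fun e : Q4 × R4 =>
    Φ (e.1.1, e.1.2.1 * exp (c.k * (e.2.1 - e.2.2.1) / 2), e.1.2.2 + e.2.2.2))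
    (((jm_K c).prod ((isCompact_Icc (a := (0 : ℝ)) (b := 1)).prod
      (isCompact_closedBall (0 : ℝ × ℝ) 9))).prod (isCompact_singleton (x := (0 : R4))))
    fun e _ => (hΦ.comp (by fun_prop)).contDiffAt
  refine ⟨C, fun x hx z hy hz => ⟨.of (hΦ.comp (by unfold Cx.qz; fun_prop)), ?_⟩⟩
  have m : (c.qz x z, z + -z) ∈ (c.K ×ˢ Icc (0 : ℝ) 1 ×ˢ Metric.closedBall (0 : ℝ × ℝ) 9) ×ˢ
      ({0} : Set R4) := ⟨⟨hx, ⟨(exp_pos _).le, exp_le_one_iff.2 (by nlinarith)⟩,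
        mem_closedBall_zero_iff.2 hy⟩, add_neg_cancel z⟩
  refine ((hC _ _ _ m m).bu.shift).congr (.of_forall fun w => ?_)
  simp only [Cx.qz, ← exp_add, Prod.fst_add, Prod.snd_add, Prod.fst_neg, Prod.snd_neg]
  congr 4
  · ring
  · abel

end

theorem ji_dec {k ς : ℝ} (hk : 0 < k) (hς : ς ≤ 0) : exp (k * ς / 2) * jb ς ^ 2 ≤ 1 + 8 / k ^ 2 := by
  have a := quadratic_le_exp_of_nonneg (x := -(k * ς / 2)) (by nlinarith)
  have b : exp (k * ς / 2) ≤ 1 := exp_le_one_iff.2 (by nlinarith)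
  have p := exp_pos (k * ς / 2)
  have e : exp (k * ς / 2) * exp (-(k * ς / 2)) = 1 := by rw [← exp_add, add_neg_cancel, exp_zero]
  have d : exp (k * ς / 2) * ς ^ 2 ≤ 8 / k ^ 2 := by
    rw [le_div_iff₀ (by positivity)]
    have : (k * ς / 2) ^ 2 / 2 ≤ exp (-(k * ς / 2)) := by nlinarith
    nlinarith [mul_le_mul_of_nonneg_left this p.le]
  rw [jb, sq_sqrt (by positivity)]
  linarith

/-- **RJIN.** -/
theorem rjin : RJIN := fun c h T => by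
  have s0 := h.rd.pos.1
  have ev : ∀ x ∈ c.K, ∀ z : R4, z.1 - z.2.1 ≤ 0 → ∀ᶠ w in 𝓝 z, c.gg x w = c.mg (c.qz x w) 0 :=
    fun x hx z hz => (ContinuousAt.eventually_lt (f := fun w : R4 => w.1 - w.2.1) (by fun_prop)
      continuousAt_const (hz.trans_lt s0)).mono fun w hw => ji_gg h T hx hw
  have s := fun q : Q4 => fun A B => (ji_cd h A B).contDiffAt (x := q)
  have jet : ∀ F : Tw → R4 → ℝ, (∀ g g' z z', g z = g' z' → F g z = F g' z') →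
      (∀ q, ContDiffAt ℝ ∞ (fun q => F (c.mg q) 0) q) → ∃ C, ∀ i : {w : (P3 × ℝ) × R4 //
        w.1 ∈ c.K ∧ ‖w.2.2.2‖ ≤ 9 ∧ w.2.1 - w.2.2.1 ≤ 0}, JB 4 (F (c.gg i.1.1)) i.1.2 C :=
    fun F hF hs =>
      let ⟨C, hC⟩ := ji_jet h (contDiff_iff_contDiffAt.2 hs)
      ⟨C, fun i => (hC _ i.2.1 _ i.2.2.1 i.2.2.2).congr
        ((ev _ i.2.1 _ i.2.2.2).mono fun w e => hF _ _ _ _ e)⟩
  have f0 : ∀ g g' z z', g z = g' z' → a0 g z = a0 g' z' := fun g g' z z' e => by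
    simp only [a0, a1, Om, gi, gm, dg, e]
  have f2 : ∀ a b g g' z z', g z = g' z' → a2 g a b z = a2 g' a b z' := fun a b g g' z z' e => by
    simp only [a2, Om, gi, gm, dg, e]
  obtain ⟨C, hC⟩ := jm_jt (jet a0 f0 fun q => by simp only [ji_zero h]; exact contDiffAt_const)
    (fun a => jet (fun g => a1 g a) (fun g g' z z' e => by simp only [a1, gi, gm, dg, e])
      fun q => jm_a1 (g := c.mg) (s q) (ji_dg h q).ne' a)
    (fun a b => jet (fun g => a2 g a b) (f2 a b)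
      fun q => jm_a2 (g := c.mg) (s q) (ji_dg h q).ne' a b) fun a b => by
    have t : ContDiff ℝ ∞ fun q : Q4 => c.tw q.1 q.2.2 :=
      (ji_tw h).comp (f := fun q : Q4 => (q.1, q.2.2)) (by fun_prop)
    have u := ht_smooth c.σ
    have g0 : ContDiff ℝ ∞ fun q : Q4 => c.G 0 (q.1.1, q.2.1, ht c.σ (c.tl q.1 q.2.2 q.2.2)) := by
      have := h.hG.smooth 0
      unfold Cx.tl
      fun_prop
    obtain ⟨C, hC⟩ := ji_jet h (((g0.div_const 2).mul (contDiff_iff_contDiffAt.2 fun q =>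
      jm_gi (g := c.mg) (s q) (ji_dg h q).ne' a b)).div_const 2)
    refine ⟨(1 + 8 / c.k ^ 2) * C, fun i => ?_⟩
    have b0 := hC _ i.2.1 _ i.2.2.1 i.2.2.2
    rw [f2 a b _ _ _ _ (ev _ i.2.1 _ i.2.2.2).self_of_nhds, a2, ji_Om, mul_assoc, mul_div_assoc,
      abs_mul, mul_right_comm, abs_of_pos (a := (c.qz _ _).2.1) (exp_pos _)]
    exact mul_le_mul (ji_dec h.hG.pos0.1 i.2.2.2) b0.zero (abs_nonneg _) (by positivity)
  exact ⟨C, fun x hx z h1 h2 => ⟨(f0 _ _ _ _ (ev x hx z h2).self_of_nhds).trans (ji_zero h _),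
    hC ⟨(x, z), hx, h1, h2⟩⟩⟩

end Vale.Agent.P354RF
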