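import Vale.Agent.P354RF.RRD

/-!
The height along the rays is uniformly monotone in the height of the label.
-/

open scoped ContDiff
open Set Real Filter Topology

noncomputable section

namespace Vale.Agent.P354RF

open Vale.Agent.P354I (P3 rm rp)
open Vale.Agent.P354RG (Y3 IsG gs gz)
open Vale.Agent.P354YW (rm_pos)

namespace Rr

theorem mvt {f : ℝ → ℝ} {m : ℝ} (h : ∀ t ∈ Icc (-1 : ℝ) 1, ∃ d, HasDerivAt f d t ∧ m ≤ d)
    {a b : ℝ} (ha : -1 ≤ a) (hab : a ≤ b) (hb : b ≤ 1) : m * (b - a) ≤ f b - f a :=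
  (convex_Icc (-1 : ℝ) 1).mul_sub_le_image_sub_of_le_deriv
    (fun t ht => (h t ht).elim fun _ k => k.1.continuousAt.continuousWithinAt)
    (fun t ht => (h t (interior_subset ht)).elim fun _ k =>
      k.1.differentiableAt.differentiableWithinAt)
    (fun t ht => (h t (interior_subset ht)).elim fun _ k => k.1.deriv.symm ▸ k.2)
    a ⟨ha, hab.trans hb⟩ b ⟨ha.trans hab, hb⟩ hab

/-- Uniform bounds for the flow. -/
theorem fl_bd {B δ Y} (hB : IsCompact B) (h : Fl B δ Y) : ∃ m > 0, ∃ A > 0, ∃ μ > 0, ∀ p ∈ B,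
    μ ≤ rm p.1 p.2.1 ∧ ∀ ρ ∈ Icc 0 (rm p.1 p.2.1)⁻¹, ∀ ζ ∈ Icc (-1 : ℝ) 1,
      m ≤ gz (Y 1) (p, ρ, ζ) ∧ |gs (Y 1) (p, ρ, ζ)| ≤ A := by
  have r0 : ∀ p ∈ B, 0 < rm p.1 p.2.1 := fun p hp => rm_pos (h.par p hp).1 (h.par p hp).2.1
  have rc : ∀ p ∈ B, ContinuousAt (fun p : P3 => rm p.1 p.2.1) p := fun p hp =>
    (par_cd (h.par p hp).1 (h.par p hp).2.1 (h.par p hp).2.2.1 (h.par p hp).2.2.2).1.continuousAt
  obtain ⟨μ, μ0, hμ⟩ := hB.exists_forall_le' (fun p hp => (rc p hp).continuousWithinAt) r0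
  have K : IsCompact (B ×ˢ (Icc (0 : ℝ) 1 ×ˢ Icc (-1 : ℝ) 1)) :=
    hB.prod (isCompact_Icc.prod isCompact_Icc)
  have c : ContinuousOn (fun x : Y3 => ((x.1, x.2.1 * (rm x.1.1 x.1.2.1)⁻¹, x.2.2) : Y3))
      (B ×ˢ (Icc (0 : ℝ) 1 ×ˢ Icc (-1 : ℝ) 1)) := fun x hx =>
    (continuousAt_fst.prodMk ((continuousAt_snd.fst.mul
      (((rc x.1 hx.1).comp (f := fun x : Y3 => x.1) continuousAt_fst).inv₀ (r0 x.1 hx.1).ne')).prodMk
        continuousAt_snd.snd)).continuousWithinAt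
  obtain ⟨m, m0, hm⟩ := K.exists_forall_le' (a := 0)
    ((gz_cont (h.smooth 1)).comp_continuousOn c) fun x hx =>
      (h.noc (x.1, x.2.1 * (rm x.1.1 x.1.2.1)⁻¹, x.2.2) hx.1
        ⟨mul_nonneg hx.2.1.1 (inv_pos.2 (r0 _ hx.1)).le,
          mul_le_of_le_one_left (inv_pos.2 (r0 _ hx.1)).le hx.2.1.2⟩ hx.2.2).1
  obtain ⟨A, hA⟩ := K.exists_bound_of_continuousOn ((gs_cont (h.smooth 1)).comp_continuousOn c)
  refine ⟨m, m0, max A 1, by positivity, μ, μ0, fun p hp => ⟨hμ p hp, fun ρ hρ ζ hζ => ?_⟩⟩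
  have k : ((p, ρ * rm p.1 p.2.1, ζ) : Y3) ∈ B ×ˢ (Icc (0 : ℝ) 1 ×ˢ Icc (-1 : ℝ) 1) :=
    ⟨hp, ⟨mul_nonneg hρ.1 (r0 p hp).le, by
      have := mul_le_mul_of_nonneg_right hρ.2 (r0 p hp).le
      rwa [inv_mul_cancel₀ (r0 p hp).ne'] at this⟩, hζ⟩
  have a := hm _ k
  have b := hA _ k
  simp only [Function.comp, mul_inv_cancel_right₀ (r0 p hp).ne'] at a b
  exact ⟨a, b.trans (le_max_left _ _)⟩

theorem d_lat {f R : Y3 → ℝ} (hf : ContDiff ℝ ∞ f) (hR : ContDiff ℝ ∞ R) {p : P3} {s ζ : ℝ}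
    (h0 : R (p, s, ζ) ≠ 0) : HasDerivAt (fun t => f (p, (R (p, s, t))⁻¹, t))
      (gz f (p, (R (p, s, ζ))⁻¹, ζ) -
        gz R (p, s, ζ) / R (p, s, ζ) ^ 2 * gs f (p, (R (p, s, ζ))⁻¹, ζ)) ζ := by
  have a := HasFDerivAt.comp_hasDerivAt ζ (f := fun t : ℝ => ((p, (R (p, s, t))⁻¹, t) : Y3))
    (hf.differentiable (by simp) _).hasFDerivAt
    ((hasDerivAt_const _ _).prodMk (((d_z hR p s ζ).inv h0).prodMk (hasDerivAt_id _)))
  refine HasDerivAt.congr_deriv a ?_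
  generalize gz R (p, s, ζ) = d
  rw [gz, gs, ← smul_eq_mul, ← map_smul, ← map_sub]
  exact congrArg _ (by simp [neg_div])

end Rr

open Rr

theorem rlat : RLAT := by
  intro B δ Y hB hF
  obtain ⟨m, m0, A, A0, μ, μ0, hb⟩ := fl_bd hB hF
  refine ⟨m * μ ^ 2 / (2 * A), by positivity, fun c h e1 e2 hη hM => ?_⟩
  subst e1 e2
  have δp := h.hG.pos0.2.2
  have k0 := h.hG.pos0.1
  obtain ⟨n, n0, hn⟩ := (hB.prod ((isCompact_Icc (a := (0 : ℝ)) (b := 1)).prod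
    (isCompact_Icc (a := (-1 : ℝ)) (b := 1)))).exists_forall_le' (a := 0)
    (gz_cont (h.hH.smooth 1)).continuousOn fun x hx =>
      (h.hH.pos x.1 (h.ball hx.1) x.2.1 ⟨hx.2.1.1, hx.2.1.2.trans (by linarith)⟩ x.2.2
        ((abs_le.2 hx.2.2).trans (by linarith))).2.2.2.2.2.2
  refine ⟨(min (m / 2) n)⁻¹, by positivity, fun p hp s ζ ζ' h1 h2 h3 => ?_⟩
  rw [div_inv_eq_mul, mul_comm]
  rcases le_total s 0 with hs | hs
  · have e : exp (-c.k * (-s / 2)) = exp (c.k * s / 2) := congrArg _ (by ring)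
    have o : exp (c.k * s / 2) ≤ 1 := exp_le_one_iff.2 (by nlinarith)
    have v : ∀ t ∈ Icc (-1 : ℝ) 1,
        c.Y 1 (p, (c.R (p, s, t))⁻¹, t) = c.H 1 (p, exp (c.k * s / 2), t) := fun t ht => by
      rw [h.rd.inn (p, s, t) (hs.trans h.rd.pos.1.le)]
      exact (hM p hp (-s / 2) (by rw [e]; linarith) t ht _ _ (by rw [e]) rfl).1
    rw [v ζ ⟨h1, h2.trans h3⟩, v ζ' ⟨h1.trans h2, h3⟩]
    exact mvt (fun t ht => ⟨_, d_z (h.hH.smooth 1) p _ t,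
      (min_le_right _ _).trans (hn (p, _, t) ⟨hp, ⟨(exp_pos _).le, o⟩, ht⟩)⟩) h1 h2 h3
  · refine mvt (f := fun t => c.Y 1 (p, (c.R (p, s, t))⁻¹, t)) (fun t ht => ?_) h1 h2 h3
    obtain ⟨r1, -, r2⟩ := h.rd.mono (p, s, t) hp ht
    obtain ⟨u, w⟩ := hb p hp
    have r0 : μ < c.R (p, s, t) := u.trans_lt r1
    refine ⟨_, d_lat (hF.smooth 1) h.rd.smooth (μ0.trans r0).ne', (min_le_left _ _).trans ?_⟩
    obtain ⟨w1, w2⟩ := w (c.R (p, s, t))⁻¹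
      ⟨(inv_pos.2 (μ0.trans r0)).le, inv_anti₀ (μ0.trans_le u) r1.le⟩ t ht
    have z : |gz c.R (p, s, t) / c.R (p, s, t) ^ 2 * gs (c.Y 1) (p, (c.R (p, s, t))⁻¹, t)| ≤
        m * μ ^ 2 / (2 * A) / μ ^ 2 * A := by
      rw [abs_mul, abs_div, abs_of_nonneg (sq_nonneg (c.R _))]
      have := (r2 hs).2.trans hη
      gcongr
    have z' : m * μ ^ 2 / (2 * A) / μ ^ 2 * A = m / 2 := by field_simp
    linarith [le_abs_self (gz c.R (p, s, t) / c.R (p, s, t) ^ 2 *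
      gs (c.Y 1) (p, (c.R (p, s, t))⁻¹, t))]

end Vale.Agent.P354RF
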