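import Vale.Agent.P354RF.Bas
import Vale.Agent.P354YJ.Iso2

/-!
RMAT: the flow agrees with the characteristics.
-/

open scoped ContDiff
open Set Real

noncomputable section

namespace Vale.Agent.P354RF

open Vale.Agent.P354I (P3 rm rp)
open Vale.Agent.P354R (omm kap Del)
open Vale.Agent.P354RG (Y3 gs)
open Vale.Agent.P354YJ (hT hP QQ gs_eq hT_d hP_d del_eq)
open Vale.Agent.P354YW (rm_pos kap_pos)

theorem q2_eq (p : P3) {r : ℝ} (h : 0 < r) (ζ : ℝ) :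
    √(q2 (p, r⁻¹, ζ)) = √(QQ p.1 p.2.1 r ζ) / r ^ 2 := by
  rw [show q2 (p, r⁻¹, ζ) = QQ p.1 p.2.1 r ζ / (r ^ 2) ^ 2 by
    simp only [q2, QQ, Del]; field_simp, sqrt_div' _ (by positivity), sqrt_sq (by positivity)]

theorem lip_mat {A B : ℝ} {K : NNReal} (hA : |A| ≤ K) (hB : |B| ≤ 1) :
    LipschitzWith K fun w : ℝ × ℝ => (A * w.2, A * (B * (sin w.1 * cos w.1))) := by
  refine LipschitzWith.of_dist_le_mul fun w w' => max_le ?_ ?_
  · rw [Real.dist_eq, ← mul_sub, abs_mul]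
    exact mul_le_mul hA (le_max_right _ _) (abs_nonneg _) K.2
  · have k := abs_sin_sub_sin_le (2 * w.1) (2 * w'.1)
    rw [sin_two_mul, sin_two_mul, ← mul_sub 2, abs_mul, mul_assoc, mul_assoc, ← mul_sub, abs_mul,
      abs_two] at k
    rw [Real.dist_eq, ← mul_sub, ← mul_sub, abs_mul, abs_mul]
    refine mul_le_mul hA ((mul_le_of_le_one_left (abs_nonneg _) hB).trans
      (le_trans ?_ (le_max_left _ _))) (by positivity) K.2
    rw [Real.dist_eq]; linarith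

theorem const_of {F : ℝ → ℝ} {a b x y : ℝ} (h : ∀ s ∈ Ioo a b, HasDerivAt F 0 s) (hx : x ∈ Ioo a b)
    (hy : y ∈ Ioo a b) : F x = F y :=
  isOpen_Ioo.is_const_of_deriv_eq_zero isPreconnected_Ioo
    (fun s hs => (h s hs).differentiableAt.differentiableWithinAt) (fun s hs => (h s hs).deriv) hx hy

theorem rmat : RMAT := fun c h p hp τ hτ ζ hζ _ _ e1 e2 => by
  subst e1 e2
  obtain ⟨a0, a1, -⟩ := h.fl.par p hp
  have d0 := h.hG.pos0.2.2
  have k0 := kap_pos a0 a1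
  have A0 := abs_pos.2 a0
  have z1 : |ζ| ≤ 1 := abs_le.2 hζ
  have P := fun s hs => h.hH.pos p (h.ball hp) s hs ζ (z1.trans (by linarith))
  have O := fun s hs => h.hH.ode p (h.ball hp) s hs ζ (z1.trans (by linarith))
  obtain ⟨i0, i1, -, i3⟩ := h.hH.init p (h.ball hp) ζ
  obtain ⟨j0, j1, j2, j3⟩ := h.fl.init p hp ζ
  have m1 : (1 : ℝ) ∈ Ioo 0 (1 + c.δ0) := ⟨one_pos, by linarith⟩
  have m2 : exp (-c.k * τ) ∈ Ioo 0 (1 + c.δ0) := ⟨exp_pos _, hτ⟩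
  have r1 : ∀ s ∈ Ioo 0 (1 + c.δ0), rm p.1 p.2.1 < c.H 0 (p, s, ζ) := fun s hs => by
    obtain ⟨u1, u2, -⟩ := P s (Ioo_subset_Icc_self hs)
    rw [u1]; exact lt_add_of_pos_right _ (mul_pos hs.1 u2)
  have r0 := fun s hs => (rm_pos a0 a1).trans (r1 s hs)
  have F := fun s hs => h.fl.ode (p, (c.H 0 (p, s, ζ))⁻¹, ζ) hp
    ⟨(neg_lt_zero.2 h.fl.pos).trans (inv_pos.2 (r0 s hs)), (inv_anti₀ (rm_pos a0 a1)
      (r1 s hs).le).trans_lt (lt_add_of_pos_right _ h.fl.pos)⟩ (z1.trans_lt (by linarith [h.fl.pos]))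
  have dH := fun i s => gs_eq (h.hH.smooth i) p s ζ
  have dY := fun i s hs => (gs_eq (h.fl.smooth i) p (c.H 0 (p, s, ζ))⁻¹ ζ).comp s
    ((dH 0 s).fun_inv (r0 s hs).ne')
  let cf : ℝ → ℝ := fun s => gs (c.H 0) (p, s, ζ) / √(QQ p.1 p.2.1 (c.H 0 (p, s, ζ)) ζ)
  have W0 := fun s hs => sqrt_pos.2 (O s hs).1
  have O' : ∀ s ∈ Icc 0 (1 + c.δ0), kap p.1 p.2.1 * s * cf s = -(Del p.1 p.2.1 (c.H 0 (p, s, ζ)) /
      QQ p.1 p.2.1 (c.H 0 (p, s, ζ)) (c.H 1 (p, s, ζ))) ∧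
      gs (c.H 0) (p, s, ζ) = cf s * √(QQ p.1 p.2.1 (c.H 0 (p, s, ζ)) ζ) ∧
      gs (c.H 1) (p, s, ζ) = cf s * (1 - c.H 1 (p, s, ζ) ^ 2) * c.H 5 (p, s, ζ) ∧
      gs (c.H 5) (p, s, ζ) = cf s * c.H 1 (p, s, ζ) * (c.H 5 (p, s, ζ) ^ 2 + p.2.1 ^ 2) :=
    fun s hs => by
      obtain ⟨x, k⟩ := (O s hs).2.2.2.2.2
      obtain rfl : cf s = x := (div_eq_iff (W0 s hs).ne').2 k.2.1
      exact k
  obtain ⟨K, hK⟩ := (isCompact_Icc (a := 0) (b := 1 + c.δ0)).exists_bound_of_continuousOn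
    (f := fun s => -(cf s * |p.2.1|)) fun s hs => by
      have c0 : Continuous fun s : ℝ => c.H 0 (p, s, ζ) := (h.hH.smooth 0).continuous.comp (by fun_prop)
      have c1 : Continuous fun s : ℝ => gs (c.H 0) (p, s, ζ) :=
        (((h.hH.smooth 0).continuous_fderiv (by simp)).comp (by fun_prop)).clm_apply continuous_const
      have c2 : Continuous fun s : ℝ => √(QQ p.1 p.2.1 (c.H 0 (p, s, ζ)) ζ) := by
        unfold QQ Del; fun_prop
      exact ((c1.continuousAt.div c2.continuousAt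
        (W0 s hs).ne').mul continuousAt_const).neg.continuousWithinAt
  have C2 : ∀ s ∈ Icc 0 (1 + c.δ0), cos (-arctan (c.H 5 (p, s, ζ) / |p.2.1|)) = c.H 2 (p, s, ζ) :=
    fun s hs => by
      have k := (O s hs).2.2.1
      have k2 := (P s hs).2.2.2.1
      rw [cos_neg, cos_arctan, show 1 + (c.H 5 (p, s, ζ) / |p.2.1|) ^ 2 = (c.H 2 (p, s, ζ))⁻¹ ^ 2 by
        rw [div_pow, sq_abs]; field_simp; linear_combination k, sqrt_sq (inv_pos.2 k2).le,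
        one_div, inv_inv]
  have U := ODE_solution_unique_of_mem_Ioo (K := ⟨|K|, abs_nonneg K⟩) (s := fun _ => univ)
    (v := fun s (w : ℝ × ℝ) => (-(cf s * |p.2.1|) * w.2,
      -(cf s * |p.2.1|) * ((1 - ζ ^ 2) * (sin w.1 * cos w.1))))
    (f := fun s => (c.Y 0 (p, (c.H 0 (p, s, ζ))⁻¹, ζ), c.Y 1 (p, (c.H 0 (p, s, ζ))⁻¹, ζ)))
    (g := fun s => (-arctan (c.H 5 (p, s, ζ) / |p.2.1|), c.H 1 (p, s, ζ)))
    (fun s hs => (lip_mat (K := ⟨|K|, abs_nonneg K⟩) ((hK s (Ioo_subset_Icc_self hs)).trans (le_abs_self K)) (abs_le.2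
      ⟨by nlinarith [hζ.1, hζ.2], by nlinarith⟩)).lipschitzOnWith) m1
    (fun s hs => ⟨((dY 0 s hs).prodMk (dY 1 s hs)).congr_deriv (by
      have := W0 s (Ioo_subset_Icc_self hs)
      have := r0 s hs
      rw [(F s hs).2.1, (F s hs).2.2.1, ww, q2_eq p this, (O' s (Ioo_subset_Icc_self hs)).2.1]
      refine Prod.ext ?_ ?_ <;> simp only <;> field_simp), trivial⟩)
    (fun s hs => ⟨((((dH 5 s).div_const _).arctan.neg).prodMk (dH 1 s)).congr_deriv (by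
      have i := Ioo_subset_Icc_self hs
      have t := tan_eq_sin_div_cos (-arctan (c.H 5 (p, s, ζ) / |p.2.1|))
      have k2 := (P s i).2.2.2.1
      rw [tan_neg, tan_arctan, C2 s i, eq_div_iff k2.ne'] at t
      rw [(O' s i).2.2.1, (O' s i).2.2.2, C2 s i, ← t, (P s i).2.2.2.2.1, ← sq_abs p.2.1]
      refine Prod.ext ?_ ?_ <;> simp only <;> field_simp
      ring), trivial⟩)
    (by simp only [i0, i1, j0, j1, (O 1 (Ioo_subset_Icc_self m1)).2.2.2.1]; simp)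
  have U0 := fun s hs => congrArg Prod.fst (U (x := s) hs)
  have U1 := fun s hs => congrArg Prod.snd (U (x := s) hs)
  have alg : ∀ s ∈ Ioo 0 (1 + c.δ0), ∃ r W D x : ℝ, c.H 0 (p, s, ζ) = r ∧ 0 < r ∧ 0 < W ∧ D ≠ 0 ∧
      Del p.1 p.2.1 r = D ∧ gs (c.H 0) (p, s, ζ) = x * W ∧ √(q2 (p, r⁻¹, ζ)) = W / r ^ 2 ∧
      fq (p, r⁻¹, ζ) = -(r ^ 2 * (r ^ 2 + p.2.1 ^ 2 - W) / D) ∧ QQ p.1 p.2.1 r ζ = W ^ 2 ∧
      s⁻¹ / kap p.1 p.2.1 = -(x * QQ p.1 p.2.1 r (c.H 1 (p, s, ζ)) / D) := fun s hs => by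
    have i := Ioo_subset_Icc_self hs
    have w0 := W0 s i
    have u0 := r0 s hs
    have D0 : Del p.1 p.2.1 (c.H 0 (p, s, ζ)) ≠ 0 := by
      rw [del_eq a0 a1]
      exact mul_ne_zero (sub_neg.2 (P s i).2.2.1).ne (sub_pos.2 (r1 s hs)).ne'
    have w2 := sq_sqrt (O s i).1.le
    refine ⟨_, _, _, cf s, rfl, u0, w0, D0, rfl, (O' s i).2.1, q2_eq p u0 ζ, ?_, w2.symm, ?_⟩
    · rw [fq, q2_eq p u0]
      generalize √(QQ p.1 p.2.1 (c.H 0 (p, s, ζ)) ζ) = W at *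
      rw [QQ] at w2
      field_simp
      linear_combination -w2
    · have k := (O' s i).1
      have := (O s i).2.1.ne'
      have := hs.1.ne'
      simp only at *
      field_simp at k ⊢
      linear_combination k
  have l : log (exp (-c.k * τ)) / kap p.1 p.2.1 = -(c.lam p * τ) := by
    rw [log_exp, Cx.lam]; ring
  have Q1 := const_of (F := fun s => c.Y 2 (p, (c.H 0 (p, s, ζ))⁻¹, ζ) - c.H 0 (p, s, ζ) -
    hT p.1 p.2.1 (c.H 0 (p, s, ζ)) - log s / kap p.1 p.2.1) (fun s hs => by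
      have i := Ioo_subset_Icc_self hs
      refine ((((dY 2 s hs).sub (dH 0 s)).sub ((hT_d a0 a1 (r1 s hs) (P s i).2.2.1).2.comp s
        (dH 0 s))).sub ((hasDerivAt_log hs.1.ne').div_const _)).congr_deriv ?_
      have t := (P s i).2.2.2.2.1
      rw [(F s hs).2.2.2.1, ww, sin_sq, show c.Y 0 _ = _ from U0 s hs, C2 s i]
      obtain ⟨r, W, D, x, e0, e1, e2, e3, e4, e5, e6, e7, e8, e9⟩ := alg s hs
      rw [e0, e4, e5, e6, e7, e9]
      simp only [QQ, e4] at e8 ⊢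
      rw [Del] at e4
      have := sq_abs p.2.1
      field_simp
      linear_combination (exp := 1) x * e8 + x * W * e4 - x * D * p.2.1 ^ 2 * t -
        x * D * (1 - ζ ^ 2) * (1 - c.H 2 (p, s, ζ) ^ 2) * this) m2 m1
  have Q2 := const_of (F := fun s => c.Y 3 (p, (c.H 0 (p, s, ζ))⁻¹, ζ) -
    hP p.1 p.2.1 (c.H 0 (p, s, ζ)) - omm p.1 p.2.1 * (log s / kap p.1 p.2.1) + c.H 3 (p, s, ζ))
    (fun s hs => by
      have i := Ioo_subset_Icc_self hs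
      refine ((((dY 3 s hs).sub ((hP_d a0 a1 (r1 s hs) (P s i).2.2.1).2.comp s (dH 0 s))).sub
        (((hasDerivAt_log hs.1.ne').div_const _).const_mul _)).add (dH 3 s)).congr_deriv ?_
      have t : gs (c.H 3) (p, s, ζ) = (omm p.1 p.2.1 - 2 * p.1 * p.2.1 * c.H 0 (p, s, ζ) /
          QQ p.1 p.2.1 (c.H 0 (p, s, ζ)) (c.H 1 (p, s, ζ))) * (s⁻¹ / kap p.1 p.2.1) := by
        have := hs.1.ne'
        rw [← (O s i).2.2.2.2.1]; field_simp
      have q := (O s i).2.1.ne'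
      rw [(F s hs).2.2.2.2, t]
      obtain ⟨r, W, D, x, e0, e1, e2, e3, e4, e5, e6, e7, e8, e9⟩ := alg s hs
      simp only [e0] at q
      rw [e0, e4, e5, e6, e7, e9]
      rw [Del] at e4
      field_simp
      linear_combination (exp := 1) -x * p.2.1 * e4) m2 m1
  simp only [l, i0, i3, j2, j3, log_one, zero_div] at Q1 Q2
  exact ⟨U1 _ m2, (congrArg cos (U0 _ m2)).trans (C2 _ (Ioo_subset_Icc_self m2)),
    by linarith, by linarith⟩

end Vale.Agent.P354RF
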