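import Vale.Agent.P354RF.Bas

/-!
The radius as a function of the parameter along the rays.
-/

open scoped ContDiff
open Set Real Filter Topology

noncomputable section

namespace Vale.Agent.P354RF

open Vale.Agent.P354I (P3 rm rp)
open Vale.Agent.P354RG (Y3 IsG gs gz)
open Vale.Agent.P354YJ (IsH)

namespace Rr

theorem d_s {f : Y3 → ℝ} (hf : ContDiff ℝ ∞ f) (p : P3) (s ζ : ℝ) :
    HasDerivAt (fun t => f (p, t, ζ)) (gs f (p, s, ζ)) s :=
  HasFDerivAt.comp_hasDerivAt s (f := fun t : ℝ => ((p, t, ζ) : Y3))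
    (hf.differentiable (by simp) _).hasFDerivAt
    ((hasDerivAt_const _ _).prodMk ((hasDerivAt_id _).prodMk (hasDerivAt_const _ _)))

theorem d_z {f : Y3 → ℝ} (hf : ContDiff ℝ ∞ f) (p : P3) (s ζ : ℝ) :
    HasDerivAt (fun t => f (p, s, t)) (gz f (p, s, ζ)) ζ :=
  HasFDerivAt.comp_hasDerivAt ζ (f := fun t : ℝ => ((p, s, t) : Y3))
    (hf.differentiable (by simp) _).hasFDerivAt
    ((hasDerivAt_const _ _).prodMk ((hasDerivAt_const _ _).prodMk (hasDerivAt_id _)))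

theorem gz_cont {f : Y3 → ℝ} (hf : ContDiff ℝ ∞ f) : Continuous (gz f) :=
  (hf.continuous_fderiv (by simp)).clm_apply continuous_const

theorem gs_cont {f : Y3 → ℝ} (hf : ContDiff ℝ ∞ f) : Continuous (gs f) :=
  (hf.continuous_fderiv (by simp)).clm_apply continuous_const

/-- The cut-off. -/
def cut (s1 s : ℝ) : ℝ := smoothTransition (2 * s / s1 - 1)

theorem cut_cd (s1 : ℝ) : ContDiff ℝ ∞ (cut s1) :=
  smoothTransition.contDiff.comp (by fun_prop)

theorem cut_zero {s1 s : ℝ} (h : 0 < s1) (hs : s ≤ s1 / 2) : cut s1 s = 0 :=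
  smoothTransition.zero_of_nonpos (by rw [sub_nonpos, div_le_one h]; linarith)

theorem cut_one {s1 s : ℝ} (h : 0 < s1) (hs : s1 ≤ s) : cut s1 s = 1 :=
  smoothTransition.one_of_one_le (by rw [le_sub_iff_add_le, le_div_iff₀ h]; linarith)

theorem cut_mono {s1 : ℝ} (h : 0 < s1) : Monotone (cut s1) := fun _ _ k =>
  smoothTransition.monotone (by gcongr)

/-- The blend. -/
def bl (k s1 r1 : ℝ) (f : Y3 → ℝ) (x : Y3) : ℝ :=
  f (x.1, exp (k * x.2.1 / 2), x.2.2) +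
    cut s1 x.2.1 * (r1 + (x.2.1 - s1) / 2 - f (x.1, exp (k * x.2.1 / 2), x.2.2))

theorem bl_cd (k s1 r1 : ℝ) {f : Y3 → ℝ} (hf : ContDiff ℝ ∞ f) : ContDiff ℝ ∞ (bl k s1 r1 f) := by
  have a : ContDiff ℝ ∞ fun x : Y3 => f (x.1, exp (k * x.2.1 / 2), x.2.2) :=
    hf.comp (by fun_prop)
  have b : ContDiff ℝ ∞ fun x : Y3 => cut s1 x.2.1 := (cut_cd s1).comp (by fun_prop)
  exact a.add (b.mul (ContDiff.sub (by fun_prop) a))

theorem bl_gz (k s1 r1 : ℝ) {f : Y3 → ℝ} (hf : ContDiff ℝ ∞ f) (p : P3) (s ζ : ℝ) :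
    gz (bl k s1 r1 f) (p, s, ζ) = (1 - cut s1 s) * gz f (p, exp (k * s / 2), ζ) := by
  have a := d_z hf p (exp (k * s / 2)) ζ
  refine ((d_z (bl_cd k s1 r1 hf) p s ζ).unique
    (a.add ((a.const_sub (r1 + (s - s1) / 2)).const_mul (cut s1 s)))).trans ?_
  ring

theorem bl_gs (k s1 r1 : ℝ) {f : Y3 → ℝ} (hf : ContDiff ℝ ∞ f) (p : P3) (s ζ : ℝ) :
    gs (bl k s1 r1 f) (p, s, ζ) =
      (1 - cut s1 s) * (gs f (p, exp (k * s / 2), ζ) * (exp (k * s / 2) * (k / 2))) +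
        cut s1 s / 2 + deriv (cut s1) s * (r1 + (s - s1) / 2 - f (p, exp (k * s / 2), ζ)) := by
  have e : HasDerivAt (fun t => exp (k * t / 2)) (exp (k * s / 2) * (k * 1 / 2)) s :=
    (((hasDerivAt_id s).const_mul k).div_const 2).exp
  have a := (d_s hf p (exp (k * s / 2)) ζ).comp s e
  have c := ((cut_cd s1).differentiable (by simp) s).hasDerivAt
  have l : HasDerivAt (fun t => r1 + (t - s1) / 2) (1 / 2) s :=
    (((hasDerivAt_id s).sub_const s1).div_const 2).const_add r1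
  refine ((d_s (bl_cd k s1 r1 hf) p s ζ).unique (a.add (c.mul (l.sub a)))).trans ?_
  simp only [Pi.sub_apply]
  ring

/-- The choice of s1. -/
theorem ex_s1 {p0 k ε0 δ0 G H} (hG : IsG p0 k ε0 δ0 G) (hH : IsH p0 k ε0 δ0 G H) {ε1 η : ℝ}
    (h1 : ε1 < ε0) (hη : 0 < η) : ∃ s1 > 0, s1 ≤ 1 ∧ exp (k * s1 / 2) < 1 + δ0 ∧
      ∀ s ∈ Icc 0 s1, ∀ p ∈ Metric.closedBall p0 ε1, ∀ ζ ∈ Icc (-1 : ℝ) 1,
        |gz (H 0) (p, exp (k * s / 2), ζ)| ≤ η := by
  have K : IsCompact (Metric.closedBall p0 ε1 ×ˢ Icc (-1 : ℝ) 1) :=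
    (isCompact_closedBall _ _).prod isCompact_Icc
  have c : Continuous fun z : ℝ × P3 × ℝ => |gz (H 0) (z.2.1, exp (k * z.1 / 2), z.2.2)| :=
    ((gz_cont (hH.smooth 0)).comp (by fun_prop)).abs
  have e1 := K.eventually_forall_of_forall_eventually (x₀ := (0 : ℝ))
    (P := fun s y => |gz (H 0) (y.1, exp (k * s / 2), y.2)| < η) fun y hy => by
      refine c.continuousAt.eventually_lt continuousAt_const ?_
      have z : gz (H 0) (y.1, 1, y.2) = 0 := (d_z (hH.smooth 0) y.1 1 y.2).unique (by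
        rw [show (fun t => H 0 (y.1, 1, t)) = fun _ => y.1.2.2 from
          funext fun t => (hH.init y.1 (lt_of_le_of_lt hy.1 h1) t).1]
        exact hasDerivAt_const _ _)
      simpa [z] using hη
  have e2 : ∀ᶠ s in 𝓝 (0 : ℝ), exp (k * s / 2) < 1 + δ0 :=
    (by fun_prop : Continuous fun s : ℝ => exp (k * s / 2)).continuousAt.eventually_lt
      continuousAt_const (by simpa using hG.pos0.2.2)
  obtain ⟨ε, e0, hε⟩ := Metric.eventually_nhds_iff.1 (e1.and (e2.and (gt_mem_nhds one_pos)))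
  have m : ∀ s ∈ Icc 0 (ε / 2), dist s 0 < ε := fun s hs => by
    rw [dist_zero_right, norm_of_nonneg hs.1]; linarith [hs.2]
  have m1 := hε (m (ε / 2) ⟨by positivity, le_rfl⟩)
  exact ⟨ε / 2, by positivity, m1.2.2.le, m1.2.1, fun s hs p hp ζ hζ =>
    ((hε (m s hs)).1 (p, ζ) ⟨hp, hζ⟩).le⟩

end Rr

open Rr

theorem rrd : RRD := by
  intro p0 k ε0 δ0 G H hG hH ε1 h1 η hη r1 hr
  obtain ⟨s1, s0, s11, se, sz⟩ := ex_s1 hG hH h1 hη
  have k0 := hG.pos0.1
  have δp := hG.pos0.2.2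
  have ex : ∀ s ≤ s1, exp (k * s / 2) ∈ Icc 0 (1 + δ0) := fun s hs =>
    ⟨(exp_pos _).le, le_trans (by gcongr) se.le⟩
  refine ⟨s1 / 2, s1, bl k s1 r1 (H 0), ⟨⟨by positivity, by linarith⟩, bl_cd _ _ _ (hH.smooth 0),
    ?_, fun x hx => by rw [bl, cut_zero s0 hx]; ring, fun x hx => by rw [bl, cut_one s0 hx]; ring⟩,
    lt_of_le_of_lt (by gcongr; linarith) se⟩
  rintro ⟨p, s, ζ⟩ hp hζ
  have pb : p ∈ Metric.ball p0 ε0 := lt_of_le_of_lt hp h1
  have az : |ζ| ≤ 1 + δ0 := (abs_le.2 hζ).trans (by linarith)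
  obtain ⟨-, -, u1, u2⟩ := hG.par p pb
  have r := hr p hp
  have c0 : 0 ≤ cut s1 s := smoothTransition.nonneg _
  have c1 : cut s1 s ≤ 1 := smoothTransition.le_one _
  rw [bl_gz _ _ _ (hH.smooth 0), bl_gs _ _ _ (hH.smooth 0)]
  rcases lt_or_ge s1 s with hs | hs
  · have d : deriv (cut s1) s = 0 := by
      rw [EventuallyEq.deriv_eq (f := fun _ => (1 : ℝ))
        ((lt_mem_nhds hs).mono fun t ht => cut_one s0 ht.le), deriv_const]
    have v : bl k s1 r1 (H 0) (p, s, ζ) = r1 + (s - s1) / 2 := by rw [bl, cut_one s0 hs.le]; ring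
    rw [d, v, cut_one s0 hs.le]
    exact ⟨by linarith, by norm_num, fun _ => ⟨by linarith, by simpa using hη.le⟩⟩
  obtain ⟨a1, a2, a3, -, -, a6, -⟩ := hH.pos p pb _ (ex s hs) ζ az
  have w : 0 ≤ cut s1 s * (r1 + (s - s1) / 2 - H 0 (p, exp (k * s / 2), ζ)) ∧
      0 ≤ deriv (cut s1) s * (r1 + (s - s1) / 2 - H 0 (p, exp (k * s / 2), ζ)) := by
    rcases lt_or_ge s (s1 / 2) with h | h
    · rw [cut_zero s0 h.le, EventuallyEq.deriv_eq (f := fun _ => (0 : ℝ))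
        ((gt_mem_nhds h).mono fun t ht => cut_zero s0 ht.le), deriv_const]
      simp
    · exact ⟨mul_nonneg c0 (by linarith), mul_nonneg (cut_mono s0).deriv_nonneg (by linarith)⟩
  have b : H 0 (p, exp (k * s / 2), ζ) ≤ bl k s1 r1 (H 0) (p, s, ζ) := le_add_of_nonneg_right w.1
  have g : 0 < gs (H 0) (p, exp (k * s / 2), ζ) * (exp (k * s / 2) * (k / 2)) := by positivity
  refine ⟨lt_of_lt_of_le ?_ b, ?_, fun h0 => ⟨le_trans ?_ b, ?_⟩⟩
  · rw [a1]; exact lt_add_of_pos_right _ (mul_pos (exp_pos _) a2)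
  · rcases c0.eq_or_lt with h | h
    · rw [← h]; linarith [w.2]
    · nlinarith [w.2, mul_nonneg (sub_nonneg.2 c1) g.le]
  · have o : (1 : ℝ) ≤ exp (k * s / 2) := one_le_exp (by have : 0 ≤ s := h0; positivity)
    have M : MonotoneOn (fun t => H 0 (p, t, ζ)) (Icc 0 (1 + δ0)) :=
      monotoneOn_of_deriv_nonneg (convex_Icc _ _)
        (fun t _ => (d_s (hH.smooth 0) p t ζ).continuousAt.continuousWithinAt)
        (fun t _ => (d_s (hH.smooth 0) p t ζ).differentiableAt.differentiableWithinAt)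
        fun t ht => by
          rw [(d_s (hH.smooth 0) p t ζ).deriv]
          exact (hH.pos p pb t (interior_subset ht) ζ az).2.2.2.2.2.1.le
    have := M ⟨zero_le_one, by linarith⟩ (ex s hs) o
    simp only [(hH.init p pb ζ).1] at this
    exact this
  · rw [abs_mul, abs_of_nonneg (sub_nonneg.2 c1)]
    have := sz s ⟨h0, hs⟩ p hp ζ hζ
    nlinarith [abs_nonneg (gz (H 0) (p, exp (k * s / 2), ζ))]

end Vale.Agent.P354RF
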