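import Vale.Agent.P354RF.Rfl
import Vale.Agent.P354RF.Key
import Vale.Agent.P354RF.RANG
import Vale.Agent.P354RF.RIMM
import Vale.Agent.P354RF.RINV
import Vale.Agent.P354RF.RJFAR
import Vale.Agent.P354RF.RJIN
import Vale.Agent.P354RF.RLAT
import Vale.Agent.P354RF.RMAT
import Vale.Agent.P354RF.RRD

/-!
REF: the ingoing rays of Kerr.
-/

open scoped ContDiff
open Set Filter Topology Real

noncomputable section

namespace Vale.Agent.P354RF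

open Vale.Agent.P354n (R4)
open Vale.Agent.P354I (P3 rm rp)
open Vale.Agent.P354R (ht omm kap)
open Vale.Agent.P354RG (Y3 IsG gs zh)
open Vale.Agent.P354XE (Tw pb gin rd xs)
open Vale.Agent.P354YJ (IsH)
open Vale.Agent.P354SA (Ref REF e0 shr jb)

theorem Fl.mono {B B' : Set P3} {δ : ℝ} {Y : ℕ → Y3 → ℝ} (h : Fl B δ Y) (s : B' ⊆ B) :
    Fl B' δ Y :=
  ⟨h.pos, h.smooth, fun p hp => h.par p (s hp), fun p hp => h.init p (s hp),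
    fun x hx => h.ode x (s hx), fun x hx => h.noc x (s hx)⟩

theorem Jt.mono {g : Tw} {z : R4} {C D : ℝ} (h : Jt g z C) (e : C ≤ D) : Jt g z D :=
  ⟨h.1.mono e, fun a => (h.2.1 a).mono e, fun a b => ⟨(h.2.2 a b).1.mono e,
    (h.2.2 a b).2.trans (div_le_div_of_nonneg_right e (sq_nonneg _))⟩⟩

/-- Further properties: the bounds for the coefficients hold everywhere, and the height is a
uniformly monotone function of the height of the label. -/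
def Xtra (C0 : ℝ) (σ : Bool) (Ψ : P3 × ℝ → R4 → R4) (x : P3 × ℝ) : Prop :=
  (∀ z : R4, ‖z.2.2‖ ≤ 9 → Jt (pb (Ψ x ∘ shr) (gin x.1.1 x.1.2.1)) z C0) ∧
  ∃ Z : ℝ → ℝ → ℝ, (∀ z : R4, zh (xs (Ψ x z)) = Z z.1 (ht σ z.2.2)) ∧ (∀ s, Z s 0 = 0) ∧
    ∀ s ζ ζ' : ℝ, -1 ≤ ζ → ζ ≤ ζ' → ζ' ≤ 1 → (ζ' - ζ) / C0 ≤ Z s ζ' - Z s ζ

def REF2 : Prop :=
  ∀ (M a r0 k ε0 δ : ℝ) G H, IsG (M, a, r0) k ε0 δ G → IsH (M, a, r0) k ε0 δ G H →
    k = kap M a → r0 = M → ∀ b σ, ∃ ε1 ∈ Ioo 0 ε0, ∃ C0 s1 r1 Ψ S, 1 ≤ C0 ∧ 0 ≤ s1 ∧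
      3 * M + 1 ≤ r1 ∧ ∀ p ∈ Metric.closedBall ((M, a, r0) : P3) ε1, ∀ s ∈ Icc (0 : ℝ) 1,
        Ref (M, a, r0) k ε1 C0 s1 r1 H b σ Ψ S (p, s) ∧ Xtra C0 σ Ψ (p, s)

theorem pole {C : ℝ} (hC : 0 < C) {Z : ℝ → ℝ} (h0 : Z 0 = 0)
    (h : ∀ ζ ζ' : ℝ, -1 ≤ ζ → ζ ≤ ζ' → ζ' ≤ 1 → (ζ' - ζ) / C ≤ Z ζ' - Z ζ) (σ : Bool) {y : ℝ × ℝ}
    (hy : ‖y‖ ≤ 3 / 5) : (7 * C)⁻¹ ≤ P354E.sg σ * Z (ht σ y) := by
  have k1 := abs_le.1 ((norm_fst_le y).trans hy)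
  have k2 := abs_le.1 ((norm_snd_le y).trans hy)
  have k3 : 1 / 7 ≤ (1 - y.1 ^ 2 - y.2 ^ 2) / (1 + y.1 ^ 2 + y.2 ^ 2) := by
    rw [div_le_div_iff₀ (by norm_num) (by positivity)]
    nlinarith
  have k4 := P354R.ht_mem true y
  simp only [ht, cond_true, one_mul] at k4
  generalize hu : (1 - y.1 ^ 2 - y.2 ^ 2) / (1 + y.1 ^ 2 + y.2 ^ 2) = u at k3 k4
  have k5 : (7 * C)⁻¹ ≤ u / C := by
    rw [mul_inv, ← one_div, ← div_eq_mul_inv]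
    gcongr
  cases σ
  · have := h (-u) 0 (by linarith [k4.2]) (by linarith) zero_le_one
    simp only [ht, P354E.sg, cond_false, hu, neg_mul, one_mul]
    rw [h0, zero_sub, zero_sub, neg_neg] at this
    linarith
  · have := h 0 u (by norm_num) (by linarith) k4.2
    simp only [ht, P354E.sg, cond_true, hu, one_mul]
    rw [h0, sub_zero, sub_zero] at this
    linarith

theorem ref2 : REF2 := by
  rintro _ a M _ ε0 δ0 G H hG hH rfl rfl b σ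
  obtain ⟨a0, a1, u1, u2⟩ : a ≠ 0 ∧ |a| < M ∧ rm M a < M ∧ M < rp M a :=
    hG.par _ (Metric.mem_ball_self hG.pos0.2.1)
  obtain ⟨M0, -, -, m3, -⟩ := P354XA.hor a1
  obtain ⟨ε, ε', δ, Y, hY⟩ := rflo _ a a0 a1
  obtain ⟨-, cp, ck, co, -⟩ := par_cd (p := (M, a, M)) a0 a1 u1 u2
  have k0 := (P354YW.kap_pos a0 a1).ne'
  have cl : ContinuousAt (fun p : P3 => kap M a / kap p.1 p.2.1) (M, a, M) :=
    continuousAt_const.div ck.continuousAt k0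
  have ev : ∀ᶠ p : P3 in 𝓝 (M, a, M), kap M a / kap p.1 p.2.1 ∈ Icc (1 / 2 : ℝ) 2 ∧
      |omm p.1 p.2.1| < |omm M a| + 1 ∧ rp p.1 p.2.1 < 2 * M + 1 :=
    (cl.eventually (Icc_mem_nhds (by simp only [div_self k0]; norm_num)
      (by simp only [div_self k0]; norm_num))).and
      ((co.continuousAt.abs.eventually_lt continuousAt_const (lt_add_one _)).and
        (cp.continuousAt.eventually_lt continuousAt_const (m3.trans_lt (lt_add_one _))))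
  obtain ⟨ε2, p2, ev⟩ := Metric.eventually_nhds_iff.1 ev
  obtain ⟨ε1, p1, l1, l2, l3⟩ : ∃ ε1 > 0, ε1 ≤ ε ∧ ε1 < ε0 ∧ ε1 < ε2 :=
    ⟨min ε (min ε0 ε2 / 2), lt_min ε' (half_pos (lt_min hG.pos0.2.1 p2)), min_le_left _ _,
      (min_le_right _ _).trans_lt ((half_lt_self (lt_min hG.pos0.2.1 p2)).trans_le
        (min_le_left _ _)), (min_le_right _ _).trans_lt
        ((half_lt_self (lt_min hG.pos0.2.1 p2)).trans_le (min_le_right _ _))⟩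
  replace hY := hY.mono (Metric.closedBall_subset_closedBall l1)
  replace ev := fun p (hp : p ∈ Metric.closedBall ((M, a, M) : P3) ε1) =>
    ev (lt_of_le_of_lt hp l3)
  obtain ⟨S, CS, r2, hS⟩ := rinv _ _ _ (isCompact_closedBall _ _) hY
  obtain ⟨η, η0, hL⟩ := rlat _ _ _ (isCompact_closedBall _ _) hY
  obtain ⟨r1, b1, b2⟩ : ∃ r1, r2 ≤ r1 ∧ 3 * M + 2 ≤ r1 := ⟨_, le_max_left _ _, le_max_right _ _⟩
  have b3 : ∀ p ∈ Metric.closedBall ((M, a, M) : P3) ε1, rp p.1 p.2.1 + 1 ≤ r1 := fun p hp => by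
    linarith [(ev p hp).2.2]
  obtain ⟨s2, s1, R, hR, hs⟩ := rrd _ _ _ _ _ _ hG hH ε1 l2 η η0 r1 b3
  let c : Cx := ⟨(M, a, M), kap M a, ε0, δ0, ε1, δ, s2, s1, r1, η, G, H, Y, R, b, σ⟩
  have h : c.Ok := ⟨hG, hH, l2, hY, hR, hs, by simp only [c]; linarith, b3⟩
  have bas := rbas c h
  have key := rkey c h bas
  have nim := rnim c h bas
  obtain ⟨imm, ray⟩ := rimm c h bas key nim
  have top := rtop c h (rmat c h)
  obtain ⟨C1, h1⟩ := rjin c h top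
  obtain ⟨C2, h2⟩ := rjmid c h bas ray (s1 + 1)
  obtain ⟨C3, h3⟩ := rjfar c h bas key nim
  obtain ⟨C4, h4⟩ := rang c h bas nim
  obtain ⟨C5, c5, h5⟩ := hL c h rfl rfl le_rfl (rmat c h)
  obtain ⟨C, d0, d1, d2, d3, d4, d5, d6, d7⟩ : ∃ C, 1 ≤ C ∧ C1 ≤ C ∧ C2 ≤ C ∧ C3 ≤ C ∧ C4 ≤ C ∧
      7 * C5 ≤ C ∧ CS ≤ C ∧ (|omm M a| + 1) * 2 ≤ C :=
    ((eventually_ge_atTop _).and ((eventually_ge_atTop _).and ((eventually_ge_atTop _).and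
      ((eventually_ge_atTop _).and ((eventually_ge_atTop _).and ((eventually_ge_atTop _).and
        ((eventually_ge_atTop _).and (eventually_ge_atTop _)))))))).exists
  refine ⟨ε1, ⟨p1, l2⟩, C, s1 + 1, r1 + 1 / 2, c.Ps, S, d0, by linarith [hR.pos.1, hR.pos.2],
    by linarith, fun p hp s hs => ?_⟩
  have hx : (p, s) ∈ c.K := ⟨hp, hs⟩
  obtain ⟨e1, e2, -⟩ := ev p hp
  have rad : ∀ z : R4, s1 + 1 ≤ z.1 → c.rr p z = r1 + 1 / 2 + (z.1 - (s1 + 1)) / 2 := fun z hz =>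
    (hR.out (p, z.1, ht σ z.2.2) (by simp only; linarith)).trans (by ring)
  have z0 : ∀ t, Y 1 (p, (R (p, t, 0))⁻¹, 0) = 0 := fun t => by
    have k := (hR.mono (p, t, 0) hp (by norm_num)).1
    have k' := P354YW.rm_pos (hY.par p hp).1 (hY.par p hp).2.1
    exact (hY.noc (p, (R (p, t, 0))⁻¹, 0) hp ⟨(inv_pos.2 (k'.trans k)).le, inv_anti₀ k' k.le⟩
      (by norm_num)).2.2.2.2
  refine ⟨⟨fun z _ => h.Ps_cd hx.1 z, fun z _ => ⟨(imm _ hx).2 z,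
    (h.rr_gt hp z).trans_eq (h.Ps_rd (x := (p, s)) hp z).symm, (key _ hx z).1, ?_⟩,
    (imm _ hx).1.injOn, (top _ hx).1, ⟨c.lam p, omm p.1 p.2.1 * c.lam p, e1, ?_, c.Ps_sym _⟩,
    fun z hz => ?_, fun z _ hz => (h.Ps_rd hx.1 z).trans (rad z hz),
    ⟨c.lam p, p.2.2 + P354YJ.hT p.1 p.2.1 p.2.2, e1, fun z _ hz => ?_⟩, fun r hr ζ hζ => ?_,
    fun z hz hz' => ?_, fun z hz => ?_⟩, fun z hz => ?_,
    fun t ζ => Y 1 (p, (R (p, t, ζ))⁻¹, ζ), fun z => h.Ps_zh hx.1 z, z0, fun t ζ ζ' k1 k2 k3 =>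
      le_trans (by gcongr; linarith) (h5 p hp t ζ ζ' k1 k2 k3)⟩
  · rw [funext (h.Ps_rd (x := (p, s)) hp)]
    have D := HasFDerivAt.comp_hasDerivAt z.1 (f := fun t : ℝ => ((t, z.2) : R4))
      ((h.rr_cd.comp (f := fun z : R4 => (p, z)) (by fun_prop)).differentiable (by simp)
        z).hasFDerivAt ((hasDerivAt_id z.1).prodMk (hasDerivAt_const z.1 z.2))
    exact (hR.mono (p, z.1, ht σ z.2.2) hp (P354R.ht_mem _ _)).2.1.trans_eq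
      ((P354YJ.gs_eq hR.smooth p z.1 (ht σ z.2.2)).unique D)
  · rw [abs_mul, abs_of_pos (h.lam_pos hp)]
    exact (mul_le_mul e2.le e1.2 (h.lam_pos hp).le (by positivity)).trans d7
  · obtain ⟨k1, k2, k3, k4, k5⟩ := ray _ hx z
    exact ⟨k1, k2, k3, k4, k5, fun k => ⟨(h1 _ hx z hz k).1, ((h1 _ hx z hz k).2.mono d1).2⟩⟩
  · have k := (hS p hp (c.rr p z) (by rw [rad z hz]; linarith) _ (P354R.ht_mem σ z.2.2)).2.2.2
    rw [h.Ps_rd hx.1, h.Ps_zh hx.1, Cx.Ps_eq]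
    change _ + _ + S (p, _, Y 1 (p, _, ht σ z.2.2)) = _
    rw [k]
    simp only [P354XE.pt, Cx.ar, c]
    ring
  · obtain ⟨k1, k2, k3, -⟩ := hS p hp r (by linarith) ζ hζ
    exact ⟨k1, k2.mono d6, k3⟩
  · obtain ⟨k1, k2, k3⟩ := h4 _ hx z hz (lt_of_lt_of_le (lt_add_one _) hz') _ rfl
    exact ⟨k1.trans d4, k2.trans (by gcongr), fun y hy => ⟨(k3 y hy).1.trans (by gcongr),
      (k3 y hy).2.trans (by gcongr)⟩⟩
  · rw [h.Ps_zh hx.1]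
    exact (inv_anti₀ (by positivity) d5).trans (pole c5 (Z := fun ζ => Y 1 (p, (R (p, z.1, ζ))⁻¹, ζ))
      (z0 _) (h5 p hp z.1) σ hz)
  · rcases le_total (z.1 - z.2.1) 0 with k | k
    · exact (h1 _ hx z hz k).2.mono d1
    rcases le_total (z.1 - z.2.1) (s1 + 1) with k' | k'
    · exact (h2 _ hx z hz ⟨k, k'⟩).mono d2
    · exact (h3 _ hx z hz k').mono d3

theorem ref : REF := fun M a r0 k ε0 δ G H hG hH e1 e2 b σ => by
  obtain ⟨ε1, h1, C0, s1, r1, Ψ, S, h2, h3, h4, h5⟩ := ref2 M a r0 k ε0 δ G H hG hH e1 e2 b σ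
  exact ⟨ε1, h1, C0, s1, r1, Ψ, S, h2, h3, h4, fun p hp s hs => (h5 p hp s hs).1⟩

end Vale.Agent.P354RF
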