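import Vale.Agent.P354RF.RINV
import Vale.Agent.P354SG.Inv

/-!
Reparametrisation of the lines in the first variable.
-/

open scoped ContDiff
open Set Filter Topology Function

noncomputable section

namespace Vale.Agent.P354RF

open Vale.Agent.P354n (R4)
open Vale.Agent.P354H (X3)
open Vale.Agent.P354YQ (JB JD SA oj_jd)
open Vale.Agent.P354YI (Oj)
open Vale.Agent.P354SA (e0)

section

variable {g : R4 → ℝ} {A : Set X3}

theorem rp_d {w : R4} (h : DifferentiableAt ℝ g w) :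
    HasDerivAt (fun s => g (s, w.2)) (fderiv ℝ g w e0) w.1 :=
  HasFDerivAt.comp_hasDerivAt w.1 (f := fun t : ℝ => ((t, w.2) : R4)) h.hasFDerivAt
    ((hasDerivAt_id w.1).prodMk (hasDerivAt_const w.1 w.2))

variable (hs : ∀ w : R4, w.2 ∈ A → ContDiffAt ℝ ∞ g w)
  (hd : ∀ w : R4, w.2 ∈ A → 1 / 2 ≤ fderiv ℝ g w e0)
include hs hd

theorem rp_le {y : X3} (hy : y ∈ A) {s t : ℝ} (h : s ≤ t) : 1 / 2 * (t - s) ≤ g (t, y) - g (s, y) :=
  have D := fun s => rp_d (w := (s, y)) ((hs _ hy).differentiableAt (by simp))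
  convex_univ.mul_sub_le_image_sub_of_le_deriv (f := fun s => g (s, y))
    (fun s _ => (D s).continuousAt.continuousWithinAt)
    (fun s _ => (D s).differentiableAt.differentiableWithinAt)
    (fun s _ => (D s).deriv ▸ hd (s, y) hy) s trivial t trivial h

theorem rp_abs {y : X3} (hy : y ∈ A) (s t : ℝ) : |t - s| ≤ 2 * |g (t, y) - g (s, y)| := by
  rcases le_total s t with h | h
  · have := rp_le hs hd hy h
    rw [abs_of_nonneg (by linarith), abs_of_nonneg (by linarith)]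
    linarith
  · have := rp_le hs hd hy h
    rw [abs_of_nonpos (by linarith), abs_of_nonpos (by linarith)]
    linarith

theorem rp_inj : InjOn (fun w : R4 => (g w, w.2)) {w | w.2 ∈ A} := by
  rintro ⟨s, y⟩ hy ⟨t, y'⟩ - e
  obtain ⟨e1, rfl⟩ := Prod.ext_iff.1 e
  have := rp_abs hs hd hy s t
  rw [show g (t, y) = g (s, y) from e1.symm, sub_self, abs_zero, mul_zero, abs_nonpos_iff,
    sub_eq_zero] at this
  rw [this]

theorem rp_surj {z : R4} (hz : z.2 ∈ A) : ∃ w ∈ {w : R4 | w.2 ∈ A}, (g w, w.2) = z := by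
  have c : ContinuousOn (fun s => g (s, z.2)) (Icc (-(2 * |z.1 - g (0, z.2)|))
      (2 * |z.1 - g (0, z.2)|)) := fun s _ =>
    (rp_d (w := (s, z.2)) ((hs (s, z.2) hz).differentiableAt (by simp))).continuousAt.continuousWithinAt
  have p : 0 ≤ 2 * |z.1 - g (0, z.2)| := by positivity
  have k1 := rp_le hs hd hz p
  have k2 := rp_le hs hd hz (neg_nonpos.2 p)
  obtain ⟨s, -, e⟩ := intermediate_value_Icc (by linarith) c (show z.1 ∈ _ from
    ⟨by linarith [neg_abs_le (z.1 - g (0, z.2))], by linarith [le_abs_self (z.1 - g (0, z.2))]⟩)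
  exact ⟨(s, z.2), hz, Prod.ext e rfl⟩

theorem rp_low {w : R4} (hw : w.2 ∈ A) {C : ℝ} (hC : ‖fderiv ℝ g w‖ ≤ C) (v : R4) :
    ‖v‖ ≤ (2 * C + 2) * ‖fderiv ℝ (fun w : R4 => (g w, w.2)) w v‖ := by
  rw [(((hs w hw).differentiableAt (by simp)).hasFDerivAt.prodMk hasFDerivAt_snd).fderiv]
  change _ ≤ _ * ‖(fderiv ℝ g w v, v.2)‖
  have c0 := (norm_nonneg _).trans hC
  have e : fderiv ℝ g w v = v.1 * fderiv ℝ g w e0 + fderiv ℝ g w (0, v.2) := by
    rw [← smul_eq_mul, ← map_smul, ← map_add]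
    exact congrArg _ (Prod.ext (by simp [e0]) (Prod.ext (by simp [e0]) (by simp [e0])))
  have k1 : |fderiv ℝ g w v| ≤ ‖(fderiv ℝ g w v, v.2)‖ := norm_fst_le (fderiv ℝ g w v, v.2)
  have k2 : ‖v.2‖ ≤ ‖(fderiv ℝ g w v, v.2)‖ := norm_snd_le (fderiv ℝ g w v, v.2)
  have k3 : |fderiv ℝ g w (0, v.2)| ≤ C * ‖v.2‖ :=
    ((fderiv ℝ g w).le_of_opNorm_le hC (0, v.2)).trans_eq (by simp)
  have k4 : |v.1| * (1 / 2) ≤ |v.1 * fderiv ℝ g w e0| := by
    rw [abs_mul]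
    exact mul_le_mul_of_nonneg_left ((hd w hw).trans (le_abs_self _)) (abs_nonneg _)
  have k5 : |v.1 * fderiv ℝ g w e0| ≤ |fderiv ℝ g w v| + |fderiv ℝ g w (0, v.2)| := by
    rw [eq_sub_of_add_eq e.symm]
    exact abs_sub _ _
  have k6 := mul_le_mul_of_nonneg_left k2 c0
  generalize ‖(fderiv ℝ g w v, v.2)‖ = N at *
  rw [Prod.norm_def, Real.norm_eq_abs]
  exact max_le (by linarith) (by nlinarith [norm_nonneg v.2])

/-- The inverse of (g, w.2). -/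
theorem rp_one : ∃ Λ : R4 → R4, ∀ z : R4, z.2 ∈ A → ((Λ z).2 = z.2 ∧ g (Λ z) = z.1 ∧
    ∀ w : R4, w.2 = z.2 → g w = z.1 → Λ z = w) ∧ (z.2 ∈ interior A → SA Λ z) := by
  have j := rp_inj hs hd
  have k : ∀ z : R4, z.2 ∈ A → (g (invFunOn (fun w : R4 => (g w, w.2)) {w | w.2 ∈ A} z),
    (invFunOn (fun w : R4 => (g w, w.2)) {w | w.2 ∈ A} z).2) = z := fun z hz =>
    invFunOn_eq (f := fun w : R4 => (g w, w.2)) (rp_surj hs hd hz)
  refine ⟨invFunOn (fun w : R4 => (g w, w.2)) {w | w.2 ∈ A}, fun z hz => ⟨⟨(Prod.ext_iff.1 (k z hz)).2,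
    (Prod.ext_iff.1 (k z hz)).1, fun w e1 e2 => j (invFunOn_mem (rp_surj hs hd hz))
      (show w.2 ∈ A from e1 ▸ hz) ((k z hz).trans (Prod.ext e2.symm e1.symm))⟩, fun hz' => ?_⟩⟩
  have o : IsOpen {w : R4 | w.2 ∈ interior A} := isOpen_interior.preimage continuous_snd
  have s : {w : R4 | w.2 ∈ interior A} ⊆ {w | w.2 ∈ A} := fun w hw =>
    interior_subset (s := A) hw
  obtain ⟨-, c⟩ := ri_inv (f := fun w : R4 => (g w, w.2)) o
    (fun w hw => ((hs w (s hw)).prodMk contDiffAt_snd).contDiffWithinAt)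
    (fun w hw => (injective_iff_map_eq_zero _).2 fun v e => by
      simpa [e] using rp_low hs hd (s hw) le_rfl v) (j.mono s)
  have m : ∀ z : R4, z.2 ∈ interior A →
      ∃ w ∈ {w : R4 | w.2 ∈ interior A}, (g w, w.2) = z := fun z hz => by
    obtain ⟨w, -, e⟩ := rp_surj hs hd (interior_subset hz)
    exact ⟨w, show w.2 ∈ _ from (congrArg Prod.snd e).symm ▸ hz, e⟩
  refine SA.of_on ((c.mono fun z hz => m z hz).congr fun z hz => ?_) o hz'
  exact j (invFunOn_mem (rp_surj hs hd (s hz))) (s (invFunOn_mem (m z hz)))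
    ((k z (s hz)).trans (invFunOn_eq (f := fun w : R4 => (g w, w.2)) (m z hz)).symm)

end

/-- REP: the inverse of (G x, w.2), with bounds which are uniform in the parameter. -/
theorem rep {P : Type} [NormedAddCommGroup P] [NormedSpace ℝ P] [FiniteDimensional ℝ P]
    {K : Set P} (hK : IsCompact K) {A : Set X3} (hA : IsCompact A) {G : P × R4 → ℝ}
    (hs : ∀ x ∈ K, ∀ w : R4, w.2 ∈ A → ContDiffAt ℝ ∞ G (x, w))
    (hd : ∀ x ∈ K, ∀ w : R4, w.2 ∈ A → 1 / 2 ≤ fderiv ℝ (fun w => G (x, w)) w e0) :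
    ∃ Λ : P → R4 → R4, (∀ x ∈ K, ∀ z : R4, z.2 ∈ A → ((Λ x z).2 = z.2 ∧ G (x, Λ x z) = z.1 ∧
      ∀ w : R4, w.2 = z.2 → G (x, w) = z.1 → Λ x z = w) ∧ (z.2 ∈ interior A → SA (Λ x) z)) ∧
      ∀ (k : ℕ) (L : ℝ), ∃ B ≥ 1, ∀ x ∈ K, ∀ z : R4, z.2 ∈ interior A → |z.1| ≤ L →
        JD k (Λ x) z B ∧ |(Λ x z).1| ≤ B ∧ ∀ v, ‖v‖ ≤ B * ‖fderiv ℝ (Λ x) z v‖ := by
  have s1 : ∀ x ∈ K, ∀ w : R4, w.2 ∈ A → ContDiffAt ℝ ∞ (fun w => G (x, w)) w := fun x hx w hw =>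
    (hs x hx w hw).comp w (f := fun w => (x, w)) (by fun_prop)
  have : ∀ x, ∃ Λ : R4 → R4, x ∈ K → _ := fun x => by
    by_cases hx : x ∈ K
    · exact (rp_one (s1 x hx) (hd x hx)).imp fun _ h _ => h
    · exact ⟨id, fun h => absurd h hx⟩
  choose Λ hΛ using this
  refine ⟨Λ, hΛ, fun k L => ?_⟩
  obtain ⟨C0, h0⟩ := (hK.prod hA).exists_bound_of_continuousOn
    (f := fun q : P × X3 => G (q.1, 0, q.2)) fun q hq => ((hs _ hq.1 (0, q.2) hq.2).continuousAt.comp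
      (f := fun q : P × X3 => (q.1, 0, q.2)) (by fun_prop)).continuousWithinAt
  let J := {q : P × R4 // q.1 ∈ K ∧ q.2.2 ∈ interior A ∧ |q.2.1| ≤ L}
  have e : ∀ j : J, _ := fun j => hΛ _ j.2.1 j.1.2 (interior_subset j.2.2.1)
  have m : ∀ j : J, (Λ j.1.1 j.1.2).2 ∈ A := fun j => (e j).1.1.symm ▸ interior_subset j.2.2.1
  have b : ∀ j : J, |(Λ j.1.1 j.1.2).1| ≤ 2 * (L + C0) := fun j => by
    have k1 := rp_abs (s1 _ j.2.1) (hd _ j.2.1) (m j) 0 (Λ j.1.1 j.1.2).1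
    have k2 : |G (j.1.1, 0, (Λ j.1.1 j.1.2).2)| ≤ C0 := h0 (j.1.1, _) ⟨j.2.1, m j⟩
    simp only [Prod.mk.eta, (e j).1.2.1, sub_zero] at k1
    linarith [abs_sub j.1.2.1 (G (j.1.1, 0, (Λ j.1.1 j.1.2).2)), j.2.2.2]
  have o1 : Oj (k + 1) (fun j : J => Λ j.1.1 j.1.2) (fun j w => G (j.1.1, w)) 1 :=
    Oj.comp (f := fun (j : J) (w : R4) => (j.1.1, w)) (fun _ => by fun_prop) _
      ((Oj.cst (ContinuousLinearMap.inr ℝ P R4)).congr' fun j y =>
        (hasFDerivAt_prodMk_right j.1.1 y).fderiv)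
      (Oj.fix (hK.prod ((isCompact_Icc (a := -(2 * (L + C0))) (b := 2 * (L + C0))).prod hA))
        (fun y hy => hs _ hy.1 _ hy.2.2) fun j => ⟨j.2.1, abs_le.1 (b j), m j⟩)
  have o2 : Oj k (fun j : J => Λ j.1.1 j.1.2)
      (fun j => fderiv ℝ fun w : R4 => (G (j.1.1, w), w.2)) 1 :=
    ((o1.fd.clm ((ContinuousLinearMap.compL ℝ R4 ℝ R4) (.inl ℝ ℝ X3))).add (Oj.cst
      ((ContinuousLinearMap.inr ℝ ℝ X3).comp (.snd ℝ ℝ X3)))).congr fun j => by
      filter_upwards [P354YI.ev_dif (o1.sm j)] with w hw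
      rw [(hw.hasFDerivAt.prodMk hasFDerivAt_snd).fderiv]
      exact ContinuousLinearMap.ext fun v => by simp
  obtain ⟨C1, c1, h1⟩ := o1.fd.val
  obtain ⟨C2, c2, h2⟩ := o2.val
  have r : ∀ j : J, ∀ᶠ z in 𝓝 j.1.2, (G (j.1.1, Λ j.1.1 z), (Λ j.1.1 z).2) = z := fun j =>
    ((isOpen_interior.preimage continuous_snd).eventually_mem j.2.2.1).mono fun z hz =>
      have := (hΛ _ j.2.1 z (interior_subset hz)).1
      Prod.ext this.2.1 this.1
  have i := fun j : J => P354SG.inv_low (by positivity)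
    (rp_low (s1 _ j.2.1) (hd _ j.2.1) (m j) ((h1 j).trans_eq (mul_one C1)))
  have sY := fun j : J => (o1.sm j).prodMk (contDiffAt_snd (𝕜 := ℝ) (n := ∞))
  have sI := fun j : J => (e j).2 j.2.2.1
  obtain ⟨C3, h3⟩ := oj_jd (P354SG.oj_rinv (fun j => (sI j).at) sY r (fun j => (i j).1)
    ⟨_, fun j => (i j).2⟩ o2) sI
  refine ⟨|C3| + |2 * (L + C0)| + C2 + 1, by linarith [abs_nonneg C3, abs_nonneg (2 * (L + C0))],
    fun x hx z hz hL => ?_⟩
  let j : J := ⟨(x, z), hx, hz, hL⟩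
  have n1 := abs_nonneg C3
  have n2 := abs_nonneg (2 * (L + C0))
  refine ⟨((h3 j).ord k.le_succ).mono (by linarith [le_abs_self C3]),
    (b j).trans (by linarith [le_abs_self (2 * (L + C0))]), fun v => ?_⟩
  have D := (((sY j).differentiableAt (by simp)).hasFDerivAt.comp z (sI j).diff.hasFDerivAt).unique
    ((hasFDerivAt_id z).congr_of_eventuallyEq (r j))
  have k1 := (fderiv ℝ (fun w : R4 => (G (x, w), w.2)) (Λ x z)).le_of_opNorm_le
    ((h2 j).trans_eq (mul_one C2)) (fderiv ℝ (Λ x) z v)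
  rw [show fderiv ℝ (fun w : R4 => (G (x, w), w.2)) (Λ x z) (fderiv ℝ (Λ x) z v) = v from
    DFunLike.congr_fun D v] at k1
  exact k1.trans (mul_le_mul_of_nonneg_right (by linarith) (norm_nonneg _))

end Vale.Agent.P354RF
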