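import Vale.Agent.P354SA.Defs

/-!
Block REF: the ingoing rays of Kerr. Definitions and exact statements of the pieces.
The flow has the arguments x = (p, ρ, ζ), p = (M, a, r0), ρ = 1 / r; Y 0 = φ, Y 1 = cos θ,
Y 2 = W (t + r = const + W), Y 3 = the angle.
-/

open scoped ContDiff
open Set Real

noncomputable section

namespace Vale.Agent.P354RF

open Vale.Agent.P354n (R4)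
open Vale.Agent.P354H (X3)
open Vale.Agent.P354I (X P3 rm rp)
open Vale.Agent.P354R (ht omm kap)
open Vale.Agent.P354RG (Y3 IsG gs gz zh)
open Vale.Agent.P354XE (Tw pb gin rd xs pt)
open Vale.Agent.P354D (sgn)
open Vale.Agent.P354YJ (IsH hT hP rz JJ cy)
open Vale.Agent.P354YQ (JB JD)
open Vale.Agent.P354SA (e0 ey Om a0 a1 a2 dg gm jb shr tp et)

/-- The radial potential divided by r^4, and the coefficients. -/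
def q2 (x : Y3) : ℝ := (1 + x.1.2.1 ^ 2 * x.2.1 ^ 2) ^ 2 - x.1.2.1 ^ 2 * (1 - x.2.2 ^ 2) *
  (x.2.1 ^ 2 * (1 - 2 * x.1.1 * x.2.1 + x.1.2.1 ^ 2 * x.2.1 ^ 2))
def ww (x : Y3) : ℝ := |x.1.2.1| / √(q2 x)
def fq (x : Y3) : ℝ :=
  -(x.1.2.1 ^ 2 * (1 - x.2.2 ^ 2)) / (√(q2 x) + (1 + x.1.2.1 ^ 2 * x.2.1 ^ 2))

structure Fl (B : Set P3) (δ : ℝ) (Y : ℕ → Y3 → ℝ) : Prop where
  pos : 0 < δ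
  smooth : ∀ i, ContDiff ℝ ∞ (Y i)
  par : ∀ p ∈ B, p.2.1 ≠ 0 ∧ |p.2.1| < p.1 ∧ rm p.1 p.2.1 < p.2.2 ∧ p.2.2 < rp p.1 p.2.1
  init : ∀ p ∈ B, ∀ ζ, Y 0 (p, p.2.2⁻¹, ζ) = 0 ∧ Y 1 (p, p.2.2⁻¹, ζ) = ζ ∧
    Y 2 (p, p.2.2⁻¹, ζ) = 0 ∧ Y 3 (p, p.2.2⁻¹, ζ) = 0
  ode : ∀ x : Y3, x.1 ∈ B → x.2.1 ∈ Ioo (-δ) ((rm x.1.1 x.1.2.1)⁻¹ + δ) → |x.2.2| < 1 + δ →
    0 < q2 x ∧ gs (Y 0) x = ww x * Y 1 x ∧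
    gs (Y 1) x = ww x * ((1 - x.2.2 ^ 2) * (sin (Y 0 x) * cos (Y 0 x))) ∧
    gs (Y 2) x = fq x + |x.1.2.1| * ww x * ((1 - x.2.2 ^ 2) * sin (Y 0 x) ^ 2) ∧
    gs (Y 3) x = -(x.1.2.1 * (1 + x.2.1 ^ 2 * fq x) / √(q2 x))
  noc : ∀ x : Y3, x.1 ∈ B → x.2.1 ∈ Icc 0 (rm x.1.1 x.1.2.1)⁻¹ → x.2.2 ∈ Icc (-1 : ℝ) 1 →
    0 < gz (Y 1) x ∧ |Y 0 x| < π / 2 ∧ Y 1 x ^ 2 + (1 - x.2.2 ^ 2) * cos (Y 0 x) ^ 2 = 1 ∧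
    cos (Y 0 x) * gz (Y 2) x = |x.1.2.1| * sin (Y 0 x) * gz (Y 1) x ∧ Y 1 (x.1, x.2.1, 0) = 0

/-- The radius as a function of (p, ς, ζ). -/
structure Rd (B : Set P3) (k s2 s1 r1 η : ℝ) (H : ℕ → Y3 → ℝ) (R : Y3 → ℝ) : Prop where
  pos : 0 < s2 ∧ s2 ≤ s1
  smooth : ContDiff ℝ ∞ R
  mono : ∀ x : Y3, x.1 ∈ B → x.2.2 ∈ Icc (-1 : ℝ) 1 → rm x.1.1 x.1.2.1 < R x ∧ 0 < gs R x ∧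
    (0 ≤ x.2.1 → x.1.2.2 ≤ R x ∧ |gz R x| ≤ η)
  inn : ∀ x : Y3, x.2.1 ≤ s2 → R x = H 0 (x.1, exp (k * x.2.1 / 2), x.2.2)
  out : ∀ x : Y3, s1 ≤ x.2.1 → R x = r1 + (x.2.1 - s1) / 2

structure Cx where
  p0 : P3
  k : ℝ
  ε0 : ℝ
  δ0 : ℝ
  ε1 : ℝ
  δ : ℝ
  s2 : ℝ
  s1 : ℝ
  r1 : ℝ
  η : ℝ
  G : ℕ → Y3 → ℝ
  H : ℕ → Y3 → ℝ
  Y : ℕ → Y3 → ℝ
  R : Y3 → ℝ
  b : Bool
  σ : Bool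

namespace Cx

variable (c : Cx)

/-- The parameters p, and the parameters (p, s). -/
def B : Set P3 := Metric.closedBall c.p0 c.ε1
def K : Set (P3 × ℝ) := c.B ×ˢ Icc 0 1

structure Ok : Prop where
  hG : IsG c.p0 c.k c.ε0 c.δ0 c.G
  hH : IsH c.p0 c.k c.ε0 c.δ0 c.G c.H
  lt : c.ε1 < c.ε0
  fl : Fl c.B c.δ c.Y
  rd : Rd c.B c.k c.s2 c.s1 c.r1 c.η c.H c.R
  s2 : exp (c.k * c.s2 / 2) < 1 + c.δ0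
  r1 : 1 ≤ c.r1 ∧ ∀ p ∈ c.B, rp p.1 p.2.1 + 1 ≤ c.r1

def lam (p : P3) : ℝ := c.k / kap p.1 p.2.1
/-- The twist of the labels for the left end. -/
def tw (x : P3 × ℝ) (y : ℝ × ℝ) : ℝ := (1 - sgn c.b) * c.H 3 (x.1, x.2, ht c.σ y)
/-- The direction of the ray with the label y at the radius 1 / ρ. -/
def nd (x : P3 × ℝ) (ρ : ℝ) (y : ℝ × ℝ) : X :=
  rz (hP x.1.1 x.1.2.1 x.1.2.2 + c.Y 3 (x.1, ρ, ht c.σ y) + c.tw x y)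
    !₂[cos (c.Y 0 (x.1, ρ, ht c.σ y)) * (2 * y.1 / (1 + y.1 ^ 2 + y.2 ^ 2)),
      sgn c.b * (cos (c.Y 0 (x.1, ρ, ht c.σ y)) * (2 * y.2 / (1 + y.1 ^ 2 + y.2 ^ 2))),
      c.Y 1 (x.1, ρ, ht c.σ y)]
/-- The radius, the arguments of the flow, and the rays; z = (ς, v, y). -/
def rr (p : P3) (z : R4) : ℝ := c.R (p, z.1, ht c.σ z.2.2)
def ar (p : P3) (z : R4) : Y3 := (p, (c.rr p z)⁻¹, ht c.σ z.2.2)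
def Ps (x : P3 × ℝ) (z : R4) : R4 :=
  P354XM.sh (c.lam x.1 * z.2.1) (omm x.1.1 x.1.2.1 * (c.lam x.1 * z.2.1))
    (pt (x.1.2.2 + hT x.1.1 x.1.2.1 x.1.2.2 + c.Y 2 (c.ar x.1 z) - c.rr x.1 z)
      (c.rr x.1 z • c.nd x (c.rr x.1 z)⁻¹ z.2.2))
def gg (x : P3 × ℝ) : Tw := pb (c.Ps x ∘ shr) (gin x.1.1 x.1.2.1)
/-- From (s, v, y) to the double null chart of the interior. -/
def mi (x : P3 × ℝ) (z : R4) : R4 :=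
  ((z.2.1 - z.1) / 2, (z.2.1 + z.1) / 2,
    cos (c.tw x z.2.2) * z.2.2.1 - sin (c.tw x z.2.2) * (sgn c.b * z.2.2.2),
    sin (c.tw x z.2.2) * z.2.2.1 + cos (c.tw x z.2.2) * (sgn c.b * z.2.2.2))

/-- Smoothness, radius, height, symmetry. -/
def Bas : Prop := ∀ x ∈ c.K, 0 < c.lam x.1 ∧
  (∀ ρ y, ContDiffAt ℝ ∞ (fun w : (P3 × ℝ) × ℝ × ℝ × ℝ => c.nd w.1 w.2.1 w.2.2) (x, ρ, y) ∧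
    (ρ ∈ Icc 0 (rm x.1.1 x.1.2.1)⁻¹ → ‖c.nd x ρ y‖ = 1)) ∧
  ∀ z, ContDiffAt ℝ ∞ (fun w : (P3 × ℝ) × R4 => c.Ps w.1 w.2) (x, z) ∧ 0 < c.rr x.1 z ∧
    (c.rr x.1 z)⁻¹ ∈ Icc 0 (rm x.1.1 x.1.2.1)⁻¹ ∧ rd (c.Ps x z) = c.rr x.1 z ∧
    zh (xs (c.Ps x z)) = c.Y 1 (c.ar x.1 z) ∧ ∀ t, c.Ps x (z.1, z.2.1 + t, z.2.2) =
      P354XM.sh (c.lam x.1 * t) (omm x.1.1 x.1.2.1 * c.lam x.1 * t) (c.Ps x z)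

/-- The rays are the lines of the gradient of v. -/
def Key : Prop := ∀ x ∈ c.K, ∀ z, (fderiv ℝ (c.Ps x) z e0).1 < 0 ∧ ∀ A : R4,
  gin x.1.1 x.1.2.1 (c.Ps x z) (fderiv ℝ (c.Ps x) z e0) (fderiv ℝ (c.Ps x) z A) =
    gs c.R (x.1, z.1, ht c.σ z.2.2) * ((1 + x.1.2.1 ^ 2 * c.Y 1 (c.ar x.1 z) ^ 2 *
      (c.rr x.1 z)⁻¹ ^ 2) / √(q2 (c.ar x.1 z))) * c.lam x.1 * A.2.1

/-- The directions are embedded and miss the pole of the chart. -/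
def Nim : Prop := ∀ x ∈ c.K, ∀ ρ ∈ Icc 0 (rm x.1.1 x.1.2.1)⁻¹, Function.Injective (c.nd x ρ) ∧
  ∀ y, Function.Injective (fderiv ℝ (c.nd x ρ) y) ∧ 0 < 1 + P354E.sg c.σ * c.nd x ρ y 2

def Imm : Prop := ∀ x ∈ c.K, Function.Injective (c.Ps x) ∧
  ∀ z, Function.Injective (fderiv ℝ (c.Ps x) z)

def Ray : Prop := ∀ x ∈ c.K, ∀ z, c.gg x z e0 e0 = 0 ∧ (∀ a, c.gg x z e0 (ey a) = 0) ∧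
  0 < Om (c.gg x) z ∧ 0 < dg (c.gg x) z ∧ 0 < gm (c.gg x) 0 0 z

/-- The flow agrees with the characteristics H. -/
def Mat : Prop := ∀ p ∈ c.B, ∀ τ, exp (-c.k * τ) < 1 + c.δ0 → ∀ ζ ∈ Icc (-1 : ℝ) 1, ∀ h x : Y3,
  h = (p, exp (-c.k * τ), ζ) → x = (p, (c.H 0 h)⁻¹, ζ) →
  c.Y 1 x = c.H 1 h ∧ cos (c.Y 0 x) = c.H 2 h ∧
  p.2.2 + hT p.1 p.2.1 p.2.2 + c.Y 2 x - c.H 0 h = hT p.1 p.2.1 (c.H 0 h) - c.lam p * τ ∧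
  hP p.1 p.2.1 p.2.2 + c.Y 3 x = hP p.1 p.2.1 (c.H 0 h) - omm p.1 p.2.1 * (c.lam p * τ) - c.H 3 h

def Top : Prop := ∀ x ∈ c.K, (∀ t, x.2 = exp (-c.k * t) → ∀ y : X3,
    c.Ps x (-2 * t, y.1 + t, y.2) = tp c.k c.H c.b c.σ x.1 t y) ∧
  ∀ z : R4, z.1 - z.2.1 ≤ c.s2 → c.Ps x (shr z) = JJ c.k c.H true x.1 (cy c.σ 0 (c.mi x z))

end Cx

/-- The bounds for the coefficients of the eikonal equation. -/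
def Jt (g : Tw) (z : R4) (C : ℝ) : Prop :=
  JB 4 (a0 g) z C ∧ (∀ a, JB 4 (a1 g a) z C) ∧
    ∀ a b, JB 4 (a2 g a b) z C ∧ |a2 g a b z| ≤ C / jb (z.1 - z.2.1) ^ 2

def RFL : Prop := ∀ M a : ℝ, a ≠ 0 → |a| < M →
  ∃ ε > 0, ∃ δ Y, Fl (Metric.closedBall ((M, a, M) : P3) ε) δ Y

def RINV : Prop := ∀ B δ Y, IsCompact B → Fl B δ Y → ∃ (S : Y3 → ℝ) (C r2 : ℝ), ∀ p ∈ B,
  ∀ r ≥ r2, ∀ ζ ∈ Icc (-1 : ℝ) 1, ContDiffAt ℝ ∞ S (p, r, ζ) ∧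
    JD 2 (fun y : ℝ × ℝ => S (p, y)) (r, ζ) C ∧ |gs S (p, r, ζ)| ≤ 1 / 2 ∧
    S (p, r, Y 1 (p, r⁻¹, ζ)) = -Y 2 (p, r⁻¹, ζ)

def RRD : Prop := ∀ p0 k ε0 δ0 G H, IsG p0 k ε0 δ0 G → IsH p0 k ε0 δ0 G H → ∀ ε1 < ε0, ∀ η > 0,
  ∀ r1, (∀ p ∈ Metric.closedBall p0 ε1, rp p.1 p.2.1 + 1 ≤ r1) → ∃ s2 s1 R,
    Rd (Metric.closedBall p0 ε1) k s2 s1 r1 η H R ∧ exp (k * s2 / 2) < 1 + δ0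

def RBAS : Prop := ∀ c : Cx, c.Ok → c.Bas
def RKEY : Prop := ∀ c : Cx, c.Ok → c.Bas → c.Key
def RNIM : Prop := ∀ c : Cx, c.Ok → c.Bas → c.Nim
def RIMM : Prop := ∀ c : Cx, c.Ok → c.Bas → c.Key → c.Nim → c.Imm ∧ c.Ray
def RMAT : Prop := ∀ c : Cx, c.Ok → c.Mat
def RTOP : Prop := ∀ c : Cx, c.Ok → c.Mat → c.Top

def RJIN : Prop := ∀ c : Cx, c.Ok → c.Top → ∃ C, ∀ x ∈ c.K, ∀ z : R4, ‖z.2.2‖ ≤ 9 →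
  z.1 - z.2.1 ≤ 0 → a0 (c.gg x) z = 0 ∧ Jt (c.gg x) z C
def RJMID : Prop := ∀ c : Cx, c.Ok → c.Bas → c.Ray → ∀ L, ∃ C, ∀ x ∈ c.K, ∀ z : R4, ‖z.2.2‖ ≤ 9 →
  z.1 - z.2.1 ∈ Icc 0 L → Jt (c.gg x) z C
def RJFAR : Prop := ∀ c : Cx, c.Ok → c.Bas → c.Key → c.Nim → ∃ C, ∀ x ∈ c.K, ∀ z : R4,
  ‖z.2.2‖ ≤ 9 → c.s1 + 1 ≤ z.1 - z.2.1 → Jt (c.gg x) z C

def RANG : Prop := ∀ c : Cx, c.Ok → c.Bas → c.Nim → ∃ C, ∀ x ∈ c.K, ∀ z : R4, ‖z.2.2‖ ≤ 9 →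
  c.s1 < z.1 → ∀ η : R4 → ℝ × ℝ, (η = fun y => et x.1.1 x.1.2.1 c.σ (c.Ps x y)) →
    ‖η z‖ ≤ C ∧ ‖fderiv ℝ η z e0‖ ≤ C / rd (c.Ps x z) ^ 2 ∧
    ∀ y : ℝ × ℝ, ‖y‖ ≤ 9 → ‖z.2.2 - y‖ ≤ C * ‖η z - η (z.1, z.2.1, y)‖ ∧
      ‖η z - η (z.1, z.2.1, y)‖ ≤ C * ‖z.2.2 - y‖

/-- The height is uniformly monotone in the height of the label. -/
def RLAT : Prop := ∀ B δ Y, IsCompact B → Fl B δ Y → ∃ η > 0, ∀ c : Cx, c.Ok → c.B = B → c.Y = Y →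
  c.η ≤ η → c.Mat → ∃ C > 0, ∀ p ∈ B, ∀ ς ζ ζ' : ℝ, -1 ≤ ζ → ζ ≤ ζ' → ζ' ≤ 1 →
    (ζ' - ζ) / C ≤ Y 1 (p, (c.R (p, ς, ζ'))⁻¹, ζ') - Y 1 (p, (c.R (p, ς, ζ))⁻¹, ζ)

end Vale.Agent.P354RF
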