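import Vale.Agent.P354RG.NoC

/-!
The angular flow: reflection, absence of caustics outside, and the eikonal identity.
-/

open scoped ContDiff
open Set Filter Topology Real

set_option linter.unusedSectionVars false

namespace Vale.Agent.P354RG.Ang

open Vale.Agent.P354R

variable {φ z w : R3 → ℝ} {d lo hi r0 δ : ℝ} (h : Ang φ z w d lo hi r0 δ)
include h

/-- The flow in the variable - r. -/
lemma refl : Ang (fun c => -φ (c.1, -c.2.1, c.2.2)) (fun c => z (c.1, -c.2.1, c.2.2))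
    (fun c => w (c.1, -c.2.1, c.2.2)) d (-hi) (-lo) (-r0) δ := by
  have s : ContDiff ℝ ∞ fun c : R3 => ((c.1, -c.2.1, c.2.2) : R3) := by fun_prop
  have s1 := (h.sφ.comp s).neg
  have s2 := h.sz.comp s
  refine ⟨s1, s2, h.sw.comp s, h.pos, ⟨neg_lt_neg h.mem.2, neg_lt_neg h.mem.1⟩,
    fun ζ => by simp only [neg_neg, h.iφ, neg_zero], fun ζ => by simp only [neg_neg, h.iz],
    fun r hr ζ hζ => ?_, fun r hr ζ hζ => ?_⟩
  · have k := ((h.dφ (r := -r) ⟨by linarith [hr.2], by linarith [hr.1]⟩ hζ).comp r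
      (hasDerivAt_neg r)).neg
    exact ((hasDerivAt_ds (dAt s1 (d, r, ζ))).unique k).trans (by ring)
  · have k := (h.dzr (r := -r) ⟨by linarith [hr.2], by linarith [hr.1]⟩ hζ).comp r
      (hasDerivAt_neg r)
    refine ((hasDerivAt_ds (dAt s2 (d, r, ζ))).unique k).trans ?_
    simp only [sin_neg, cos_neg]
    ring

lemma phi_le (hm : lo < 0) {α ζ : ℝ} (hζ : |ζ| ≤ 1)
    (hw : ∀ r ∈ Icc 0 r0, 0 < w (d, r, ζ) ∧ w (d, r, ζ) ≤ α) {r : ℝ} (hr : r ∈ Icc 0 r0) :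
    |φ (d, r, ζ)| ≤ α * r0 := by
  have key : ∀ e : ℝ, |e| ≤ 1 → α * r + e * φ (d, r, ζ) ≤ α * r0 := fun e he => by
    have := mono_of (f := fun t => α * t + e * φ (d, t, ζ))
      (f' := fun t => α * 1 + e * (w (d, t, ζ) * z (d, t, ζ)))
      (fun t ht => ((hasDerivAt_id t).const_mul α).add
        ((h.dφ (h.sub hm ht) (h.lt1 hζ)).const_mul e)) (fun t ht => ?_) hr
    · simpa only [h.iφ, mul_zero, add_zero] using this
    · obtain ⟨k1, k2⟩ := hw t ht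
      have k5 : |e * z (d, t, ζ)| ≤ 1 := by
        rw [abs_mul]
        exact mul_le_one₀ he (abs_nonneg _) (h.z_le (h.sub hm ht) hζ)
      nlinarith [(abs_le.1 k5).1]
  have k0 : 0 ≤ α * r := mul_nonneg ((hw r hr).1.le.trans (hw r hr).2) hr.1
  have k1 := key 1 (by simp)
  have k2 := key (-1) (by simp)
  rw [abs_le]
  constructor <;> linarith

lemma u_ne' (hm : lo < 0) {ζ κ : ℝ} (hζ : |ζ| ≤ 1) (h0 : ζ ≠ 0) (hκ : 0 ≤ κ) (h1 : κ * r0 ^ 3 ≤ 1)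
    (hw : ∀ r ∈ Icc 0 r0, 0 < w (d, r, ζ) ∧ -(ζ ^ 2 * κ * r ^ 2) ≤ ζ * dz w (d, r, ζ) ∧
      |φ (d, r, ζ)| ≤ 1) {r : ℝ} (hr : r ∈ Icc 0 r0) :
    0 < ζ * z (d, r, ζ) ∧ ζ ^ 2 / 12 ≤ ζ * z (d, r, ζ) * dz z (d, r, ζ) := by
  have hζ' := h.lt1 hζ
  have h3 : ζ ^ 2 ≤ 1 := by rw [← sq_abs ζ]; nlinarith [abs_nonneg ζ]
  have h4 : 0 < ζ ^ 2 := by positivity
  have z0 : ∀ t ∈ Icc 0 r0, z (d, t, ζ) ≠ 0 := fun t ht e => by
    have h1 := h.cons (h.sub hm ht) hζ'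
    rw [e] at h1
    nlinarith [cos_sq_le_one (φ (d, t, ζ)), sq_nonneg (cos (φ (d, t, ζ)))]
  have z1 : ∀ t ∈ Icc 0 r0, 0 < ζ * z (d, t, ζ) := fun t ht =>
    pos_of (f := fun t => ζ * z (d, t, ζ))
      (fun t ht => ((h.dzr (h.sub hm ht) hζ').const_mul ζ).continuousAt.continuousWithinAt)
      (fun t ht => mul_ne_zero h0 (z0 t ht)) (by rw [h.iz]; nlinarith) ht
  have v1 : ζ * (dz φ (d, r, ζ) / z (d, r, ζ)) ≤ ζ ^ 2 / 3 := by
    have := mono_of (f := fun t => ζ * (dz φ (d, t, ζ) / z (d, t, ζ)) + ζ ^ 2 * κ / 3 * t ^ 3)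
      (f' := fun t => ζ * dz w (d, t, ζ) + ζ ^ 2 * κ * t ^ 2 +
        w (d, t, ζ) * (ζ ^ 2 * cos (φ (d, t, ζ)) ^ 2 / z (d, t, ζ) ^ 2))
      (fun t ht => ((((h.dv (h.sub hm ht) hζ').div (h.dzr (h.sub hm ht) hζ')
        (z0 t ht)).const_mul ζ).add ((hasDerivAt_pow 3 t).const_mul _)).congr_deriv ?_)
      (fun t ht => ?_) hr
    · simp only [h.v_init, zero_div, mul_zero, zero_add] at this
      have k1 : 0 ≤ ζ ^ 2 * κ / 3 * r ^ 3 := by have := hr.1; positivity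
      nlinarith
    · have k1 := h.cons' (h.sub hm ht) hζ'
      have k2 := z0 t ht
      push_cast
      field_simp
      linear_combination w (d, t, ζ) * k1
    · have k1 := (hw t ht).1
      have k2 := (hw t ht).2.1
      have : 0 ≤ w (d, t, ζ) * (ζ ^ 2 * cos (φ (d, t, ζ)) ^ 2 / z (d, t, ζ) ^ 2) := by positivity
      linarith
  have p1 : ζ * φ (d, r, ζ) ≤ 0 := by
    have := mono_of (f := fun t => ζ * φ (d, t, ζ))
      (fun t ht => (h.dφ (h.sub hm ht) hζ').const_mul ζ)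
      (fun t ht => by nlinarith [mul_pos (hw t ht).1 (z1 t ht)]) hr
    simpa only [h.iφ, mul_zero] using this
  have k1 := z1 r hr
  have v2 : dz φ (d, r, ζ) ≤ ζ * z (d, r, ζ) / 3 := by
    have k2 := z0 r hr
    have k3 : ζ * (dz φ (d, r, ζ) / z (d, r, ζ)) * z (d, r, ζ) ^ 2 =
        dz φ (d, r, ζ) * (ζ * z (d, r, ζ)) := by field_simp
    have k4 := mul_le_mul_of_nonneg_right v1 (sq_nonneg (z (d, r, ζ)))
    refine le_of_mul_le_mul_right ?_ k1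
    linarith
  have c1 := abs_le.1 (hw r hr).2.2
  have c2 : 1 / 2 ≤ cos (φ (d, r, ζ)) := by
    nlinarith [one_sub_sq_div_two_le_cos (x := φ (d, r, ζ))]
  have s1 : ζ * sin (φ (d, r, ζ)) ≤ 0 := by
    rcases lt_or_gt_of_ne h0 with k | k
    · have : 0 ≤ φ (d, r, ζ) := by nlinarith
      exact mul_nonpos_of_nonpos_of_nonneg k.le
        (sin_nonneg_of_nonneg_of_le_pi this (by linarith [pi_gt_three, c1.2]))
    · have : φ (d, r, ζ) ≤ 0 := by nlinarith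
      exact mul_nonpos_of_nonneg_of_nonpos k.le
        (sin_nonpos_of_nonpos_of_neg_pi_le this (by linarith [pi_gt_three, c1.1]))
  refine ⟨k1, ?_⟩
  have s2 : |sin (φ (d, r, ζ)) * z (d, r, ζ)| ≤ 1 := by
    rw [abs_mul]
    exact mul_le_one₀ (abs_sin_le_one _) (abs_nonneg _) (h.z_le (h.sub hm hr) hζ)
  have s3 : -(ζ ^ 2 / 3) ≤ ζ * sin (φ (d, r, ζ)) * dz φ (d, r, ζ) := by
    nlinarith [mul_le_mul_of_nonpos_left v2 s1, (abs_le.1 s2).1]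
  have k3 : ζ * z (d, r, ζ) * dz z (d, r, ζ) = cos (φ (d, r, ζ)) * (ζ ^ 2 * cos (φ (d, r, ζ)) +
      (1 - ζ ^ 2) * (ζ * sin (φ (d, r, ζ)) * dz φ (d, r, ζ))) := by
    linear_combination ζ * h.cons' (h.sub hm hr) hζ'
  have k4 : ζ ^ 2 / 6 ≤ ζ ^ 2 * cos (φ (d, r, ζ)) +
      (1 - ζ ^ 2) * (ζ * sin (φ (d, r, ζ)) * dz φ (d, r, ζ)) := by
    nlinarith [mul_le_mul_of_nonneg_left s3 (sub_nonneg.2 h3), mul_pos h4 h4]
  rw [k3]
  nlinarith

/-- No caustics outside. -/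
theorem u_pos' (hm : lo < 0) {κ : ℝ} (hκ : 0 ≤ κ) (h1 : κ * r0 ^ 3 ≤ 1)
    (hw : ∀ ζ, |ζ| ≤ 1 → ∀ r ∈ Icc 0 r0, 0 < w (d, r, ζ) ∧
      -(ζ ^ 2 * κ * r ^ 2) ≤ ζ * dz w (d, r, ζ) ∧ |φ (d, r, ζ)| ≤ 1) {r ζ : ℝ}
    (hr : r ∈ Icc 0 r0) (e2 : z (d, r, 0) = 0) (hζ : |ζ| ≤ 1) : 0 < dz z (d, r, ζ) := by
  have key : ∀ t, |t| ≤ 1 → t ≠ 0 → 0 < dz z (d, r, t) ∧
      1 / 12 ≤ z (d, r, t) / t * dz z (d, r, t) := fun t ht h0 => by
    obtain ⟨k1, k2⟩ := h.u_ne' hm ht h0 hκ h1 (hw t ht) hr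
    have k4 : 0 < t ^ 2 := by positivity
    refine ⟨(mul_pos_iff_of_pos_left k1).1 (lt_of_lt_of_le (by positivity) k2), ?_⟩
    refine le_of_mul_le_mul_left ((le_of_eq (by ring)).trans (k2.trans_eq ?_)) k4
    field_simp
  by_cases h0 : ζ ≠ 0
  · exact (key ζ hζ h0).1
  obtain rfl := not_not.1 h0
  have ev : ∀ᶠ t in 𝓝[≠] (0 : ℝ), |t| ≤ 1 ∧ t ≠ 0 :=
    (((ev_lt (ζ := 0) (b := 1) (by simp)).mono fun t ht => ht.le).filter_mono
      nhdsWithin_le_nhds).and self_mem_nhdsWithin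
  have t1 : Tendsto (fun t => dz z (d, r, t)) (𝓝[≠] 0) (𝓝 (dz z (d, r, 0))) :=
    (hasDerivAt_dz (dAt (dz_smooth h.sz) (d, r, 0))).continuousAt.tendsto.mono_left
      nhdsWithin_le_nhds
  have t3 : Tendsto (fun t => z (d, r, t) / t) (𝓝[≠] 0) (𝓝 (dz z (d, r, 0))) := by
    have := hasDerivAt_iff_tendsto_slope_zero.1 (hasDerivAt_dz (dAt h.sz (d, r, 0)))
    simpa only [zero_add, e2, sub_zero, smul_eq_mul, inv_mul_eq_div] using this
  have l1 := ge_of_tendsto t1 (ev.mono fun t ht => (key t ht.1 ht.2).1.le)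
  have l2 := ge_of_tendsto (t3.mul t1) (ev.mono fun t ht => (key t ht.1 ht.2).2)
  refine l1.lt_of_ne fun e => ?_
  rw [← e] at l2
  norm_num at l2

omit h in
lemma mixed {f : R3 → ℝ} (hf : ContDiff ℝ ∞ f) {r ζ b v : ℝ} {F : ℝ → ℝ} (hζ : |ζ| < b)
    (e : ∀ t, |t| < b → ds f (d, r, t) = F t) (hF : HasDerivAt F v ζ) :
    HasDerivAt (fun t => dz f (d, t, ζ)) v r := by
  have h1 := hasDerivAt_ds (dAt (dz_smooth hf) (d, r, ζ))
  rw [ds_dz hf] at h1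
  have h2 := hF.congr_of_eventuallyEq (f₁ := fun t => ds f (d, r, t)) ((ev_lt hζ).mono e)
  rwa [(hasDerivAt_dz (dAt (ds_smooth hf) (d, r, ζ))).unique h2] at h1

/-- The eikonal identity. -/
theorem wz {V : R3 → ℝ} (sV : ContDiff ℝ ∞ V) {α a b ζ : ℝ} {F : ℝ → ℝ → ℝ}
    (iV : ∀ ζ, V (d, r0, ζ) = 0) (hζ : |ζ| < 1 + δ) (sub : Icc a b ⊆ Ioo lo hi) (m : r0 ∈ Icc a b)
    (oV : ∀ r ∈ Icc a b, ∀ t, |t| < 1 + δ →
      ds V (d, r, t) = F r t + α * w (d, r, t) * ((1 - t ^ 2) * sin (φ (d, r, t)) ^ 2))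
    (hF : ∀ r ∈ Icc a b, HasDerivAt (F r) (α * w (d, r, ζ) * ζ) ζ ∧ cos (φ (d, r, ζ)) ≠ 0)
    {r : ℝ} (hr : r ∈ Icc a b) :
    cos (φ (d, r, ζ)) * dz V (d, r, ζ) = α * sin (φ (d, r, ζ)) * dz z (d, r, ζ) := by
  have D : ∀ t ∈ Icc a b, HasDerivAt (fun t => dz V (d, t, ζ) -
      α * (sin (φ (d, t, ζ)) / cos (φ (d, t, ζ)) * dz z (d, t, ζ))) 0 t := fun t ht => by
    have a1 := hasDerivAt_dz (dAt h.sw (d, t, ζ))
    have a2 := hasDerivAt_dz (dAt h.sφ (d, t, ζ))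
    have a3 := ((hasDerivAt_id ζ).pow 2).const_sub 1
    have b1 := mixed sV hζ (oV t ht) ((hF t ht).1.add ((a1.const_mul α).mul (a3.mul (a2.sin.pow 2))))
    have b2 := mixed h.sz hζ (h.oz t (sub ht)) (a1.mul (a3.mul (a2.sin.mul a2.cos)))
    have b3 := h.dφ (sub ht) hζ
    refine (b1.sub (((b3.sin.div b3.cos (hF t ht).2).mul b2).const_mul α)).congr_deriv ?_
    have c1 := h.cons' (sub ht) hζ
    have c2 := sin_sq_add_cos_sq (φ (d, t, ζ))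
    have c3 := (hF t ht).2
    simp only [Pi.pow_apply, Pi.div_apply, id]
    push_cast
    field_simp
    grind
  have K := constant_of_has_deriv_right_zero (fun t ht => (D t ht).continuousAt.continuousWithinAt)
    fun t ht => (D t (Ico_subset_Icc_self ht)).hasDerivWithinAt
  have k1 := (K r hr).trans (K r0 m).symm
  have k2 : dz V (d, r0, ζ) = 0 := by
    have h1 := hasDerivAt_dz (dAt sV (d, r0, ζ))
    simp only [iV] at h1
    exact h1.unique (hasDerivAt_const _ _)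
  simp only [k2, h.iφ, sin_zero, zero_div, zero_mul, mul_zero, sub_zero] at k1
  have c3 := (hF r hr).2
  rw [sub_eq_zero.1 k1]
  field_simp

end Vale.Agent.P354RG.Ang
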