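import Vale.Agent.P354RF.Bas
import Vale.Agent.P354RF.Noc
import Vale.Agent.P354RG.RFlow
import Vale.Agent.P354YJ.Iso2

/-!
Existence of the flow of the ingoing rays.
-/

open scoped ContDiff
open Set Filter Topology Real

noncomputable section

namespace Vale.Agent.P354RF

open Vale.Agent.P354I (P3 rm rp)
open Vale.Agent.P354R (W4 R3 ds dz dAt hasDerivAt_ds hasDerivAt_dz)
open Vale.Agent.P354RG
open Vale.Agent.P354YJ (gs_eq gz_eq)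

lemma q2_ge {x : Y3} (hM : 0 ≤ x.1.1) (h0 : 0 ≤ x.2.1) (hζ : |x.2.2| ≤ 1) :
    1 + x.1.2.1 ^ 2 * x.2.1 ^ 2 ≤ q2 x := by
  obtain ⟨⟨M, a, r⟩, ρ, ζ⟩ := x
  have h3 : ζ ^ 2 ≤ 1 := by rw [← sq_abs ζ]; nlinarith [abs_nonneg ζ]
  simp only [q2] at *
  have h1 : 0 ≤ a ^ 2 * ρ ^ 2 := by positivity
  have h2 : (1 - ζ ^ 2) * (1 - 2 * M * ρ + a ^ 2 * ρ ^ 2) ≤ 1 + a ^ 2 * ρ ^ 2 := by
    nlinarith [mul_nonneg hM h0, sq_nonneg ζ, mul_nonneg (sub_nonneg.2 h3) (mul_nonneg hM h0),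
      mul_nonneg h1 (sq_nonneg ζ)]
  nlinarith [mul_le_mul_of_nonneg_left h2 h1]

lemma q2_cd : ContDiff ℝ ∞ q2 := by unfold q2; fun_prop

/-- The four coefficients. -/
def co4 (x : Y3) : W4 :=
  (ww x, fq x, |x.1.2.1| * ww x, -(x.1.2.1 * (1 + x.2.1 ^ 2 * fq x) / √(q2 x)))

lemma co4_cd : ContDiffOn ℝ ∞ co4 {x | 0 < q2 x ∧ x.1.2.1 ≠ 0} := fun x hx => by
  have q := q2_cd.contDiffAt.sqrt hx.1.ne'
  have q0 := sqrt_pos.2 hx.1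
  have a : ContDiffAt ℝ ∞ (fun x : Y3 => |x.1.2.1|) x := ContDiffAt.abs (by fun_prop) hx.2
  have w : ContDiffAt ℝ ∞ ww x := a.div q q0.ne'
  have f : ContDiffAt ℝ ∞ fq x := ContDiffAt.div (by fun_prop) (q.add (by fun_prop)) (by positivity)
  exact (w.prodMk (f.prodMk ((a.mul w).prodMk (ContDiffAt.div (ContDiffAt.mul (by fun_prop)
    (contDiffAt_const.add (ContDiffAt.mul (by fun_prop) f))) q q0.ne').neg))).contDiffWithinAt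

lemma ex_coef {M a : ℝ} (ha : a ≠ 0) (hM : |a| < M) {b : ℝ} (hb : 0 ≤ b) : ∃ δ > 0, ∃ C : ℝ,
    ∃ (T : Y3 → W4) (cz : ℝ → ℝ) (t0 : P3 → ℝ), ContDiff ℝ ∞ T ∧ ContDiff ℝ ∞ cz ∧
      ContDiff ℝ ∞ t0 ∧ (∀ x, ‖T x‖ ≤ C) ∧ (∀ x, |x| ≤ 1 + δ → cz x = x) ∧ (∀ x, |cz x| < 3) ∧
      (∀ x, cz (-x) = -cz x) ∧ (∀ p r ζ, T (p, r, -ζ) = T (p, r, ζ)) ∧
      ∀ p, dist p (M, a, M) ≤ δ → t0 p = p.2.2⁻¹ ∧ ∀ r ζ, r ∈ Icc (0 - δ) (b + δ) → |ζ| ≤ 1 + δ →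
        0 < q2 (p, r, ζ) ∧ T (p, r, ζ) = co4 (p, r, ζ) := by
  have M0 : 0 < M := (abs_nonneg a).trans_lt hM
  obtain ⟨δ1, p1, hU⟩ := tube2 (U := {x : Y3 | (0 < q2 x ∧ x.1.2.1 ≠ 0) ∧ 0 < x.1.2.2})
    (((isOpen_lt continuous_const q2_cd.continuous).inter
      (isOpen_ne_fun (f := fun x : Y3 => x.1.2.1) (by fun_prop) continuous_const)).inter
      (isOpen_lt (g := fun x : Y3 => x.1.2.2) continuous_const (by fun_prop))) ((M, a, M) : P3) hb fun r hr ζ hζ =>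
    ⟨⟨lt_of_lt_of_le (by positivity) (q2_ge (x := ((M, a, M), r, ζ)) M0.le hr.1 (abs_le.2 hζ)),
      ha⟩, M0⟩
  obtain ⟨δ, p2, l1, l2⟩ : ∃ δ > 0, δ < δ1 ∧ δ ≤ 1 :=
    ⟨min (δ1 / 2) 1, by positivity, (min_le_left _ _).trans_lt (by linarith), min_le_right _ _⟩
  obtain ⟨δ2, l3, l4, l5⟩ : ∃ δ2, δ < δ2 ∧ δ2 ≤ δ1 ∧ δ2 ≤ 2 :=
    ⟨min δ1 2, lt_min l1 (by linarith), min_le_left _ _, min_le_right _ _⟩
  obtain ⟨cE, es, ei, eb⟩ := exists_clampE ((M, a, M) : P3) p2 l1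
  obtain ⟨cr, rs, ri, rb⟩ := exists_clampI hb p2 l1
  obtain ⟨cz, zs, zi, zb, zo⟩ := exists_clampO (r := 1 + δ) (r' := 1 + δ2) (by linarith)
    (by linarith)
  let cl : Y3 → Y3 := fun x => (cE x.1, cr x.2.1, cz x.2.2)
  have cls : ContDiff ℝ ∞ cl := by
    simp only [cl]
    fun_prop
  let K : Set Y3 := Metric.closedBall (M, a, M) δ1 ×ˢ Icc (0 - δ1) (b + δ1) ×ˢ
    Icc (-1 - δ1) (1 + δ1)
  have hK : IsCompact K := (isCompact_closedBall _ _).prod (isCompact_Icc.prod isCompact_Icc)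
  have hKU : ∀ x ∈ K, (0 < q2 x ∧ x.1.2.1 ≠ 0) ∧ 0 < x.1.2.2 := fun x hx =>
    hU _ _ _ hx.1 hx.2.1 hx.2.2
  have clK : ∀ x, cl x ∈ K := fun x => ⟨(eb _).le, Ioo_subset_Icc_self (rb _), by
    have := abs_lt.1 (zb x.2.2)
    constructor <;> simp only [cl] <;> linarith [this.1, this.2]⟩
  obtain ⟨C, hC⟩ := hK.exists_bound_of_continuousOn
    (co4_cd.continuousOn.mono fun x hx => (hKU x hx).1)
  refine ⟨δ, p2, C, co4 ∘ cl, cz, fun p => (cE p).2.2⁻¹,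
    co4_cd.comp_contDiff cls fun x => (hKU _ (clK x)).1, zs,
    es.snd.snd.inv fun p => (hKU _ (clK (p, 0))).2.ne', fun x => hC _ (clK x), zi,
    fun x => (zb x).trans_le (by linarith), zo, fun p r ζ => ?_,
    fun p a1 => ⟨by simp only [ei p a1], fun r ζ a2 a3 => ?_⟩⟩
  · simp only [Function.comp, cl, zo, co4, ww, fq, q2, neg_sq]
  · have e : cl (p, r, ζ) = (p, r, ζ) := by simp only [cl, ei p a1, ri r a2, zi ζ a3]
    exact ⟨e ▸ (hKU _ (clK _)).1.1, by simp only [Function.comp, e]⟩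

/-- The flow before the discussion of the caustics. -/
structure Fl0 (B : Set P3) (δ : ℝ) (W : Y3 → ℝ) (Y : ℕ → Y3 → ℝ) : Prop where
  pos : 0 < δ
  smooth : ∀ i, ContDiff ℝ ∞ (Y i)
  sW : ContDiff ℝ ∞ W
  par : ∀ p ∈ B, (p.2.1 ≠ 0 ∧ |p.2.1| < p.1 ∧ rm p.1 p.2.1 < p.2.2 ∧ p.2.2 < rp p.1 p.2.1) ∧
    |p.2.1| < p.2.2
  init : ∀ p ∈ B, ∀ ζ, Y 0 (p, p.2.2⁻¹, ζ) = 0 ∧ Y 1 (p, p.2.2⁻¹, ζ) = ζ ∧
    Y 2 (p, p.2.2⁻¹, ζ) = 0 ∧ Y 3 (p, p.2.2⁻¹, ζ) = 0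
  ode : ∀ x : Y3, x.1 ∈ B → x.2.1 ∈ Ioo (-δ) ((rm x.1.1 x.1.2.1)⁻¹ + δ) → |x.2.2| < 1 + δ →
    W x = ww x ∧ 0 < q2 x ∧ gs (Y 0) x = ww x * Y 1 x ∧
    gs (Y 1) x = ww x * ((1 - x.2.2 ^ 2) * (sin (Y 0 x) * cos (Y 0 x))) ∧
    gs (Y 2) x = fq x + |x.1.2.1| * ww x * ((1 - x.2.2 ^ 2) * sin (Y 0 x) ^ 2) ∧
    gs (Y 3) x = -(x.1.2.1 * (1 + x.2.1 ^ 2 * fq x) / √(q2 x))
  zero : ∀ p ρ, Y 1 (p, ρ, 0) = 0

def cmp4 (w : W4) : ℕ → ℝ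
  | 0 => w.1
  | 1 => w.2.1
  | 2 => w.2.2.1
  | _ => w.2.2.2

theorem ex_fl0 {M a : ℝ} (ha : a ≠ 0) (hM : |a| < M) :
    ∃ ε > 0, ∃ δ W Y, Fl0 (Metric.closedBall ((M, a, M) : P3) ε) δ W Y := by
  have M0 : 0 < M := (abs_nonneg a).trans_lt hM
  have m0 := P354YW.rm_pos ha hM
  have s0 : 0 < √(M ^ 2 - a ^ 2) := sqrt_pos.2 (by nlinarith [sq_abs a, abs_nonneg a])
  have u1 : rm M a < M := sub_lt_self _ s0
  have u2 : M < rp M a := lt_add_of_pos_right _ s0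
  set b := (rm M a)⁻¹ + 1 with hb
  have b0 : 0 ≤ b := by positivity
  obtain ⟨δ, p1, C, T, cz, t0, Ts, zs, ts, Tb, zi, zb, zo, To, Te⟩ := ex_coef ha hM b0
  have C0 : 0 ≤ C := (norm_nonneg _).trans (Tb 0)
  set N := 1 + δ + 9 * C * (b + δ) with hN
  have N0 : 0 < N := by positivity
  obtain ⟨cN, ns, ni, nb, no⟩ := exists_clampO N0 (lt_add_one N)
  let f : (P3 × ℝ) × ℝ × W4 → W4 := fun x =>
    ((T (x.1.1, x.2.1, x.1.2)).1 * cN x.2.2.2.1,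
      (T (x.1.1, x.2.1, x.1.2)).1 * ((1 - cz x.1.2 ^ 2) * (sin x.2.2.1 * cos x.2.2.1)),
      (T (x.1.1, x.2.1, x.1.2)).2.1 +
        (T (x.1.1, x.2.1, x.1.2)).2.2.1 * ((1 - cz x.1.2 ^ 2) * sin x.2.2.1 ^ 2),
      (T (x.1.1, x.2.1, x.1.2)).2.2.2)
  have fs : ContDiff ℝ ∞ f := by
    simp only [f]
    fun_prop
  have k2 : ∀ x, |1 - cz x ^ 2| ≤ 9 := fun x => by
    have := abs_lt.1 (zb x)
    rw [abs_le]
    constructor <;> nlinarith [this.1, this.2]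
  have fz : ∀ x, |(f x).2.1| ≤ 9 * C := fun x => by
    have k1 := (nm4 (Tb (x.1.1, x.2.1, x.1.2))).1
    have k2 := k2 x.1.2
    have k3 := abs_sin_le_one x.2.2.1
    have k4 := abs_cos_le_one x.2.2.1
    simp only [f, abs_mul]
    calc _ ≤ C * (9 * (1 * 1)) := by gcongr
      _ = 9 * C := by ring
  have fb : ∀ x, ‖f x‖ ≤ C * (N + 10) := fun x => by
    obtain ⟨k1, k3, k4, k5⟩ := nm4 (Tb (x.1.1, x.2.1, x.1.2))
    have k2 := k2 x.1.2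
    have k6 := (nb x.2.2.2.1).le
    have k7 := abs_sin_le_one x.2.2.1
    have k9 := mul_nonneg C0 N0.le
    have k10 : |(T (x.1.1, x.2.1, x.1.2)).1| * |cN x.2.2.2.1| ≤ C * (N + 1) := by gcongr
    have k11 : |(T (x.1.1, x.2.1, x.1.2)).2.2.1| * (|1 - cz x.1.2 ^ 2| * |sin x.2.2.1| ^ 2) ≤
      C * (9 * 1 ^ 2) := by gcongr
    simp only [Prod.norm_def, Real.norm_eq_abs, max_le_iff]
    refine ⟨?_, by linarith [fz x], (abs_add_le _ _).trans ?_, by linarith⟩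
    · simp only [f, abs_mul]
      linarith
    · simp only [abs_mul, abs_pow]
      linarith
  obtain ⟨y, ys, yi, yd, yu⟩ := exists_sol fs fb (t0 := fun e => t0 e.1)
    (w0 := fun e => (0, e.2, 0, 0)) (ts.comp contDiff_fst) (by fun_prop)
  obtain ⟨cm, cp, -⟩ := par_cd (p := (M, a, M)) ha hM u1 u2
  have ev : ∀ᶠ p : P3 in 𝓝 (M, a, M), ((p.2.1 ≠ 0 ∧ |p.2.1| < p.1 ∧ rm p.1 p.2.1 < p.2.2 ∧
      p.2.2 < rp p.1 p.2.1) ∧ |p.2.1| < p.2.2) ∧ (rm p.1 p.2.1)⁻¹ < b :=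
    (((ContinuousAt.eventually_ne (by fun_prop) ha).and
      ((ContinuousAt.eventually_lt (by fun_prop) (by fun_prop) hM).and
      ((cm.continuousAt.eventually_lt (by fun_prop) u1).and
      (ContinuousAt.eventually_lt (by fun_prop) cp.continuousAt u2)))).and
      (ContinuousAt.eventually_lt (by fun_prop) (by fun_prop) hM)).and
      ((cm.continuousAt.inv₀ m0.ne').eventually_lt continuousAt_const (lt_add_one _))
  obtain ⟨δ2, p2, ev⟩ := Metric.eventually_nhds_iff.1 ev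
  obtain ⟨ε, p3, l1, l2⟩ : ∃ ε > 0, ε ≤ δ ∧ ε < δ2 :=
    ⟨min δ (δ2 / 2), by positivity, min_le_left _ _, (min_le_right _ _).trans_lt (by linarith)⟩
  have par : ∀ p r, (y ((p, 0), r)).2.1 = 0 := fun p r => by
    have := yu (p, 0) (fun r => (-(y ((p, 0), r)).1, -(y ((p, 0), r)).2.1, (y ((p, 0), r)).2.2))
      (by simp only [yi (p, 0), neg_zero]) (fun t => by
        have k := yd (p, 0) t
        refine ((hd1 k).neg.prodMk ((hd1 (hd2 k)).neg.prodMk (hd2 (hd2 k)))).congr_deriv ?_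
        simp only [f, no, sin_neg, cos_neg, neg_sq, mul_neg, neg_mul]) r
    have := congrArg (fun w : W4 => w.2.1) this
    simp only at this
    linarith
  let Y : ℕ → Y3 → ℝ := fun i x => cmp4 (y ((x.1, x.2.2), x.2.1)) i
  have s0 : ContDiff ℝ ∞ fun x : Y3 => y ((x.1, x.2.2), x.2.1) := by fun_prop
  have Ys : ∀ i, ContDiff ℝ ∞ (Y i) := fun i => by
    match i with
    | 0 => exact s0.fst
    | 1 => exact s0.snd.fst
    | 2 => exact s0.snd.snd.fst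
    | _ + 3 => exact s0.snd.snd.snd
  refine ⟨ε, p3, δ, fun x => (T x).1, Y, p1, Ys, Ts.fst, fun p hp => (ev (lt_of_le_of_lt hp l2)).1,
    fun p hp ζ => ?_, ?_, par⟩
  · have := yi (p, ζ)
    simp only [(Te p (le_trans hp l1)).1] at this
    simp only [Y, this, cmp4, and_self]
  · rintro ⟨p, r, ζ⟩ hp hr hζ
    obtain ⟨⟨⟨a0, a1, a2, -⟩, -⟩, a4⟩ := ev (lt_of_le_of_lt hp l2)
    obtain ⟨e0, e1⟩ := Te p (le_trans hp l1)
    obtain ⟨e1, e2⟩ := e1 r ζ ⟨by linarith [hr.1], by linarith [hr.2]⟩ hζ.le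
    have r0 := P354YW.rm_pos a0 a1
    have r1 := inv_pos.2 (r0.trans a2)
    have r2 := inv_strictAnti₀ r0 a2
    have k0 : |r - t0 p| ≤ b + δ := by
      rw [abs_le, e0]
      constructor <;> linarith [hr.1, hr.2]
    have k1 := lip (fun t => hd1 (hd2 (yd (p, ζ) t))) (fun t => fz _) r (t0 p)
    simp only [yi (p, ζ)] at k1
    have k3 := mul_le_mul_of_nonneg_left k0 C0
    have k5 := abs_sub_abs_le_abs_sub (y ((p, ζ), r)).2.1 ζ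
    have k6 : cN (y ((p, ζ), r)).2.1 = (y ((p, ζ), r)).2.1 := ni _ (by linarith)
    have D := yd (p, ζ) r
    simp only [f, e2, k6, zi ζ hζ.le, co4] at D
    exact ⟨by simp only [e2, co4], e1, (gs_eq (Ys 0) p r ζ).unique (hd1 D),
      (gs_eq (Ys 1) p r ζ).unique (hd1 (hd2 D)), (gs_eq (Ys 2) p r ζ).unique (hd1 (hd2 (hd2 D))),
      (gs_eq (Ys 3) p r ζ).unique (hd2 (hd2 (hd2 D)))⟩

end Vale.Agent.P354RF
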