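import Vale.Agent.P354RF.Defs

/-!
RNIM: the directions of the rays are embedded.
-/

open scoped ContDiff
open Set Real

noncomputable section

namespace Vale.Agent.P354RF

open Vale.Agent.P354I (X P3 rm rp)
open Vale.Agent.P354R (ht)
open Vale.Agent.P354RG (Y3 gs gz)
open Vale.Agent.P354D (sgn)
open Vale.Agent.P354E (sg)
open Vale.Agent.P354YJ (hP rz)

namespace Ni

theorem ht_eq (σ : Bool) (y : ℝ × ℝ) : 1 + sg σ * ht σ y = 2 / (1 + y.1 ^ 2 + y.2 ^ 2) := by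
  have : 0 < 1 + y.1 ^ 2 + y.2 ^ 2 := by positivity
  cases σ <;> simp only [sg, ht, cond] <;> field_simp <;> ring

theorem ht_pos (σ : Bool) (y : ℝ × ℝ) : 0 < 1 + sg σ * ht σ y := by rw [ht_eq]; positivity

theorem ht_mem (σ : Bool) (y : ℝ × ℝ) : ht σ y ∈ Icc (-1 : ℝ) 1 := by
  have h := ht_eq σ y
  have h1 := ht_pos σ y
  have : 2 / (1 + y.1 ^ 2 + y.2 ^ 2) ≤ 2 := div_le_self zero_le_two (by nlinarith)
  cases σ <;> simp only [sg, cond] at h h1 <;> constructor <;> linarith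

theorem ht_df (σ : Bool) : Differentiable ℝ (ht σ) := fun y => by
  have : 1 + y.1 ^ 2 + y.2 ^ 2 ≠ 0 := by positivity
  unfold ht; fun_prop (disch := assumption)

theorem zd {E F : Type} [NormedAddCommGroup E] [NormedSpace ℝ E] [NormedAddCommGroup F]
    [NormedSpace ℝ F] {f : ℝ → E} {Φ : E → F} (h : HasDerivAt f 0 0)
    (d : DifferentiableAt ℝ Φ (f 0)) : HasDerivAt (fun t => Φ (f t)) 0 0 := by
  simpa only [map_zero, Function.comp_def] using d.hasFDerivAt.comp_hasDerivAt 0 h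

theorem ln {E F : Type} [NormedAddCommGroup E] [NormedSpace ℝ E] [NormedAddCommGroup F]
    [NormedSpace ℝ F] {Φ : E → F} {z : E} (d : DifferentiableAt ℝ Φ z) (A : E) :
    HasDerivAt (fun t : ℝ => Φ (z + t • A)) (fderiv ℝ Φ z A) 0 := d.hasFDerivAt.hasLineDerivAt A

theorem cz {f : Y3 → ℝ} (s : ContDiff ℝ ∞ f) (p : P3) {ρ ζ : ℝ → ℝ} {a d t : ℝ}
    (hρ : HasDerivAt ρ a t) (hζ : HasDerivAt ζ d t) : HasDerivAt (fun t => f (p, ρ t, ζ t))
      (a * gs f (p, ρ t, ζ t) + d * gz f (p, ρ t, ζ t)) t := by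
  have := (s.differentiable (by simp) (p, ρ t, ζ t)).hasFDerivAt.comp_hasDerivAt t
    ((hasDerivAt_const t p).prodMk (hρ.prodMk hζ))
  rwa [show ((0, a, d) : Y3) = a • (0, 1, 0) + d • (0, 0, 1) by simp, map_add, map_smul,
    map_smul] at this

theorem mono {B : Set P3} {δ : ℝ} {Y : ℕ → Y3 → ℝ} (h : Fl B δ Y) {p : P3} (hp : p ∈ B) {ρ : ℝ}
    (hρ : ρ ∈ Icc 0 (rm p.1 p.2.1)⁻¹) : StrictMonoOn (fun ζ => Y 1 (p, ρ, ζ)) (Icc (-1) 1) := by
  have d := fun t => cz (h.smooth 1) p (hasDerivAt_const t ρ) (hasDerivAt_id t)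
  refine strictMonoOn_of_deriv_pos (convex_Icc _ _)
    (fun t _ => (d t).continuousAt.continuousWithinAt) fun t m => ?_
  rw [show deriv (fun ζ => Y 1 (p, ρ, ζ)) t = _ from (d t).deriv, zero_mul, zero_add, one_mul]
  exact (h.noc (p, ρ, t) hp hρ (interior_subset m)).1

variable (c : Cx) (x : P3 × ℝ)

/-- The angle, and the label in terms of the radius, the direction and the height. -/
def an (w : ℝ × X × ℝ) : ℝ := hP x.1.1 x.1.2.1 x.1.2.2 + c.Y 3 (x.1, w.1, w.2.2) +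
  (1 - sgn c.b) * c.H 3 (x.1, x.2, w.2.2)
def ld (w : ℝ × X × ℝ) : ℝ × ℝ :=
  (cos (c.Y 0 (x.1, w.1, w.2.2)) * (1 + sg c.σ * w.2.2))⁻¹ •
    (cos (an c x w) * w.2.1 0 + sin (an c x w) * w.2.1 1,
      sgn c.b * (cos (an c x w) * w.2.1 1 - sin (an c x w) * w.2.1 0))

variable {c x} {ρ : ℝ} {y : ℝ × ℝ}

theorem ld_eq (h : cos (c.Y 0 (x.1, ρ, ht c.σ y)) ≠ 0) : ld c x (ρ, c.nd x ρ y, ht c.σ y) = y := by
  have : 1 + y.1 ^ 2 + y.2 ^ 2 ≠ 0 := by positivity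
  have s : sgn c.b * sgn c.b = 1 := by cases c.b <;> simp [sgn]
  have e := cos_sq_add_sin_sq (an c x (ρ, c.nd x ρ y, ht c.σ y))
  simp only [ld, ht_eq, Cx.nd, rz, an, Cx.tw] at e ⊢
  ext <;> simp <;> field_simp
  · linear_combination y.1 * e
  · linear_combination y.2 * sgn c.b ^ 2 * e + y.2 * s

theorem ld_df (k : c.Ok) {w : ℝ × X × ℝ} (h : cos (c.Y 0 (x.1, w.1, w.2.2)) ≠ 0)
    (h' : 1 + sg c.σ * w.2.2 ≠ 0) : DifferentiableAt ℝ (ld c x) w := by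
  have := fun i => (k.fl.smooth i).differentiable (by simp)
  have := fun i => (k.hH.smooth i).differentiable (by simp)
  have := mul_ne_zero h h'
  unfold ld an
  fun_prop (disch := assumption)

theorem cos_ne (k : c.Ok) (hx : x ∈ c.K) (hρ : ρ ∈ Icc 0 (rm x.1.1 x.1.2.1)⁻¹) (y : ℝ × ℝ) :
    cos (c.Y 0 (x.1, ρ, ht c.σ y)) ≠ 0 :=
  (cos_pos_of_mem_Ioo (abs_lt.1 (k.fl.noc (x.1, ρ, _) hx.1 hρ (ht_mem _ y)).2.1)).ne'

/-- The height is stationary when the radius and the latitude are. -/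
theorem ht_zd (k : c.Ok) (hx : x ∈ c.K) {ρ : ℝ → ℝ} (hρ : ρ 0 ∈ Icc 0 (rm x.1.1 x.1.2.1)⁻¹)
    (A : ℝ × ℝ) (h : HasDerivAt ρ 0 0)
    (h' : HasDerivAt (fun t => c.Y 1 (x.1, ρ t, ht c.σ (y + t • A))) 0 0) :
    HasDerivAt (fun t : ℝ => ht c.σ (y + t • A)) 0 0 := by
  have d := ln (ht_df c.σ y) A
  have := h'.unique (cz (k.fl.smooth 1) x.1 h d)
  rw [zero_mul, zero_add, eq_comm, mul_eq_zero] at this
  exact (this.resolve_right (k.fl.noc (x.1, ρ 0, _) hx.1 hρ (ht_mem _ _)).1.ne') ▸ d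

theorem lab_zd (k : c.Ok) (hx : x ∈ c.K) {ρ : ℝ → ℝ} (hρ : ∀ t, ρ t ∈ Icc 0 (rm x.1.1 x.1.2.1)⁻¹)
    (A : ℝ × ℝ) (h : HasDerivAt ρ 0 0)
    (h' : HasDerivAt (fun t => c.nd x (ρ t) (y + t • A)) 0 0) : A = 0 := by
  have h1 := ht_zd k hx (hρ 0) A h (zd (Φ := fun n : X => n 2) h' (by fun_prop))
  have h2 := zd (h.prodMk (h'.prodMk h1)) (ld_df k (cos_ne k hx (hρ 0) _) (ht_pos _ _).ne')
  simp only [ld_eq (cos_ne k hx (hρ _) _)] at h2
  simpa using (ln (Φ := id) differentiableAt_id A).unique h2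

end Ni

open Ni in
/-- RNIM. -/
theorem rnim : RNIM := fun c k b x hx ρ hρ => by
  have m := mono k.fl hx.1 hρ
  refine ⟨fun y y' e => ?_, fun y => ⟨(injective_iff_map_eq_zero _).2 fun A e => ?_, ?_⟩⟩
  · have : ht c.σ y = ht c.σ y' := m.injOn (ht_mem _ y) (ht_mem _ y') (congrArg (fun n : X => n 2) e)
    rw [← ld_eq (cos_ne k hx hρ y), e, this, ld_eq (cos_ne k hx hρ y')]
  · have d : DifferentiableAt ℝ (c.nd x ρ) y :=
      ((((b x hx).2.1 ρ y).1.differentiableAt (by simp)).comp y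
        (f := fun y : ℝ × ℝ => (x, ρ, y)) (by fun_prop) :)
    exact lab_zd k hx (fun _ => hρ) A (hasDerivAt_const _ _) (e ▸ ln d A)
  · obtain ⟨-, -, h1, -, h2⟩ := k.fl.noc (x.1, ρ, ht c.σ y) hx.1 hρ (ht_mem c.σ y)
    have h3 := ht_pos c.σ y
    have h4 := ht_mem c.σ y
    have h5 := sq_pos_of_ne_zero (cos_ne k hx hρ y)
    have h6 := m.monotoneOn
    have z : (0 : ℝ) ∈ Icc (-1 : ℝ) 1 := by norm_num
    show 0 < 1 + sg c.σ * c.Y 1 (x.1, ρ, ht c.σ y)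
    by_contra n
    have s := P354E.sg_sq c.σ
    have : sg c.σ * ht c.σ y < 0 := by
      by_contra n'
      cases hσ : c.σ <;> simp only [hσ, sg, cond] at n n' h4 h2
      · linarith [h6 h4 z (by linarith)]
      · linarith [h6 z h4 (by linarith)]
    have : 0 < 1 - ht c.σ y ^ 2 := by nlinarith
    have := mul_pos this h5
    have : (sg c.σ * c.Y 1 (x.1, ρ, ht c.σ y)) ^ 2 < 1 := by
      rw [mul_pow, sq (sg _), s]; linarith
    nlinarith

end Vale.Agent.P354RF
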