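import Vale.Agent.P354RF.Defs
import Vale.Agent.P354YJ.Iso2
import Vale.Agent.P354YJ.Sw

/-!
RTOP: between the horizons the rays are the lines of the double null chart.
-/

open scoped ContDiff
open Set Real

noncomputable section

namespace Vale.Agent.P354RF

open Vale.Agent.P354n (R4)
open Vale.Agent.P354H (X3)
open Vale.Agent.P354I (X P3)
open Vale.Agent.P354R (ht omm kap)
open Vale.Agent.P354RG (Y3)
open Vale.Agent.P354D (sgn)
open Vale.Agent.P354YJ (hT hP JJ cy fj an aq fj_eq)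
open Vale.Agent.P354SA (shr tp)
open Vale.Agent.P354JK (qq)

variable {c : Cx}

/-- The rays in the interior. -/
theorem ps_in (h : c.Ok) (m : c.Mat) {x : P3 × ℝ} (hx : x.1 ∈ c.B) {ς v : ℝ} {y : ℝ × ℝ}
    (hs : ς ≤ c.s2) (u : Y3) (hu : u = (x.1, exp (c.k * ς / 2), ht c.σ y)) (α : ℝ)
    (hα : α = omm x.1.1 x.1.2.1 * (c.lam x.1 * (v + ς / 2)) + hP x.1.1 x.1.2.1 (c.H 0 u) -
      c.H 3 u + c.tw x y) :
    c.Ps x (ς, v, y) = (c.lam x.1 * (v + ς / 2) + hT x.1.1 x.1.2.1 (c.H 0 u),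
      c.H 0 u * (cos α * (c.H 2 u * (2 * y.1 / (1 + y.1 ^ 2 + y.2 ^ 2))) -
        sin α * (sgn c.b * (c.H 2 u * (2 * y.2 / (1 + y.1 ^ 2 + y.2 ^ 2))))),
      c.H 0 u * (sin α * (c.H 2 u * (2 * y.1 / (1 + y.1 ^ 2 + y.2 ^ 2))) +
        cos α * (sgn c.b * (c.H 2 u * (2 * y.2 / (1 + y.1 ^ 2 + y.2 ^ 2))))),
      c.H 0 u * c.H 1 u) := by
  have k0 := h.hG.pos0.1
  have e : -c.k * (-ς / 2) = c.k * ς / 2 := by ring
  have r : c.rr x.1 (ς, v, y) = c.H 0 u := by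
    rw [hu]
    exact h.rd.inn (x.1, ς, ht c.σ y) hs
  have a : c.ar x.1 (ς, v, y) = (x.1, (c.H 0 u)⁻¹, ht c.σ y) := by rw [Cx.ar, r]
  obtain ⟨m1, m2, m3, m4⟩ := m x.1 hx (-ς / 2) (by
    rw [e]
    exact (exp_le_exp.2 (by gcongr)).trans_lt h.s2) _ (P354R.ht_mem c.σ y) u _ (by rw [e, hu]) rfl
  have eα : α = omm x.1.1 x.1.2.1 * (c.lam x.1 * v) + (hP x.1.1 x.1.2.1 x.1.2.2 +
      c.Y 3 (x.1, (c.H 0 u)⁻¹, ht c.σ y) + c.tw x y) := by
    rw [hα, m4]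
    ring
  rw [Cx.Ps, r, a, m3, Cx.nd, m1, m2, eα]
  simp only [P354XM.sh, P354XE.pt, P354YJ.rz, PiLp.smul_apply, smul_eq_mul, Matrix.cons_val]
  generalize omm x.1.1 x.1.2.1 * (c.lam x.1 * v) = β
  generalize hP x.1.1 x.1.2.1 x.1.2.2 + c.Y 3 (x.1, (c.H 0 u)⁻¹, ht c.σ y) + c.tw x y = γ
  rw [cos_add, sin_add]
  refine Prod.ext ?_ (Prod.ext ?_ (Prod.ext ?_ rfl)) <;> simp only <;> ring

theorem sgn_sq (b : Bool) : sgn b ^ 2 = 1 := by cases b <;> simp [sgn]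

/-- The twisted label has the same distance from the pole. -/
theorem mi_sq (x : P3 × ℝ) (z : R4) :
    (c.mi x z).2.2.1 ^ 2 + (c.mi x z).2.2.2 ^ 2 = z.2.2.1 ^ 2 + z.2.2.2 ^ 2 := by
  have := cos_sq_add_sin_sq (c.tw x z.2.2)
  have s := sgn_sq c.b
  simp only [Cx.mi]
  linear_combination (z.2.2.1 ^ 2 + (sgn c.b * z.2.2.2) ^ 2) * this + z.2.2.2 ^ 2 * s

theorem mi_ht (x : P3 × ℝ) (z : R4) : ht c.σ (c.mi x z).2.2 = ht c.σ z.2.2 := by
  simp only [ht, sub_sub, add_assoc, mi_sq]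

theorem rtop : RTOP := fun c h m x hx => by
  have k0 := h.hG.pos0.1
  refine ⟨fun t e y => ?_, fun z hz => ?_⟩
  · have t0 : 0 ≤ t := by
      have := hx.2.2
      rw [e, exp_le_one_iff] at this
      by_contra n
      nlinarith [not_le.1 n]
    have e1 : tp c.k c.H c.b c.σ x.1 t y = fj c.k t c.H c.b c.σ x.1 (0, sgn c.b * y.1, y.2) := by
      rw [tp, P354YJ.iv_phi]
      cases c.b <;> simp [fj, cy, P354YJ.Js, sgn, P354YJ.ng]
    have e2 : aq c.k t c.σ x.1 (0, sgn c.b * y.1, y.2) =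
        (x.1, exp (c.k * (-2 * t) / 2), ht c.σ y.2) := by
      rw [aq]
      congr 3
      ring
    have e3 : (x.1, x.2, ht c.σ y.2) = aq c.k t c.σ x.1 (0, sgn c.b * y.1, y.2) := by
      rw [aq, e, add_zero]
    have s := sgn_sq c.b
    rw [e1, fj_eq, ps_in h m hx.1 (by linarith [h.rd.pos.1]) _ e2
      (an c.k t c.H c.b c.σ x.1 (0, sgn c.b * y.1, y.2)) (by
        rw [an, Cx.tw, e3, Cx.lam]
        linear_combination omm x.1.1 x.1.2.1 * (c.k / kap x.1.1 x.1.2.1 * y.1) * s)]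
    refine Prod.ext ?_ rfl
    simp only [Cx.lam]
    linear_combination -(c.k / kap x.1.1 x.1.2.1 * y.1) * s
  · have e2 : aq c.k 0 c.σ x.1 (c.mi x z) =
        (x.1, exp (c.k * (z.1 - z.2.1) / 2), ht c.σ z.2.2) := by
      rw [aq, mi_ht]
      congr 3
      simp only [Cx.mi]
      ring
    have q : qq (c.mi x z).2 = 1 + z.2.2.1 ^ 2 + z.2.2.2 ^ 2 := by rw [qq, add_assoc, mi_sq, add_assoc]
    change c.Ps x (z.1 - z.2.1, z.2.1, z.2.2) = fj c.k 0 c.H true c.σ x.1 (c.mi x z)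
    rw [fj_eq, q, ps_in h m hx.1 hz _ e2 (an c.k 0 c.H true c.σ x.1 (c.mi x z) + c.tw x z.2.2) (by
      simp only [an, sgn, cond_true, Cx.lam, Cx.mi]
      ring), cos_add, sin_add]
    generalize an c.k 0 c.H true c.σ x.1 (c.mi x z) = α
    generalize aq c.k 0 c.σ x.1 (c.mi x z) = u
    have s1 : sgn true = 1 := rfl
    refine Prod.ext ?_ (Prod.ext ?_ (Prod.ext ?_ rfl)) <;> simp only [Cx.mi, Cx.lam, s1] <;> ring

end Vale.Agent.P354RF
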