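import Vale.Agent.P354RF.Flo

/-!
The flow has no caustics.
-/

open scoped ContDiff
open Set Filter Topology Real

set_option linter.unusedSectionVars false

noncomputable section

namespace Vale.Agent.P354RF

open Vale.Agent.P354I (P3 rm rp)
open Vale.Agent.P354R (W4 R3 ds dz dAt hasDerivAt_ds hasDerivAt_dz)
open Vale.Agent.P354RG
open Vale.Agent.P354YJ (gs_eq gz_eq)

/-- The function 1 - 2 M ρ + a^2 ρ^2. -/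
def dd (p : P3) (ρ : ℝ) : ℝ := 1 - 2 * p.1 * ρ + p.2.1 ^ 2 * ρ ^ 2

lemma q_dz {p : P3} {ρ ζ : ℝ} (h : 0 < q2 (p, ρ, ζ)) : HasDerivAt (fun t => √(q2 (p, ρ, t)))
    (p.2.1 ^ 2 * ζ * ρ ^ 2 * dd p ρ / √(q2 (p, ρ, ζ))) ζ := by
  have k : HasDerivAt (fun t => q2 (p, ρ, t)) _ ζ :=
    (((((hasDerivAt_id ζ).pow 2).const_sub 1).const_mul (p.2.1 ^ 2)).mul_const
      (ρ ^ 2 * dd p ρ)).const_sub ((1 + p.2.1 ^ 2 * ρ ^ 2) ^ 2)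
  refine (k.sqrt h.ne').congr_deriv ?_
  have := (sqrt_pos.2 h).ne'
  simp only [dd, id]
  push_cast
  field_simp

lemma fq_dz {p : P3} {ρ ζ : ℝ} (h : 0 < q2 (p, ρ, ζ)) :
    HasDerivAt (fun t => fq (p, ρ, t)) (|p.2.1| * ww (p, ρ, ζ) * ζ) ζ := by
  have q0 := sqrt_pos.2 h
  have n : √(q2 (p, ρ, ζ)) + (1 + p.2.1 ^ 2 * ρ ^ 2) ≠ 0 := by positivity
  refine (((((hasDerivAt_id ζ).pow 2).const_sub 1).const_mul (p.2.1 ^ 2)).neg.div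
    ((q_dz h).add_const (1 + p.2.1 ^ 2 * ρ ^ 2)) n).congr_deriv ?_
  have e : √(q2 (p, ρ, ζ)) ^ 2 = (1 + p.2.1 ^ 2 * ρ ^ 2) ^ 2 -
      p.2.1 ^ 2 * (1 - ζ ^ 2) * (ρ ^ 2 * dd p ρ) := sq_sqrt h.le
  rw [show |p.2.1| * ww (p, ρ, ζ) = p.2.1 ^ 2 / √(q2 (p, ρ, ζ)) by
    rw [ww, ← mul_div_assoc, abs_mul_abs_self, sq]]
  simp only [id, Pi.pow_apply, Pi.neg_apply]
  generalize √(q2 (p, ρ, ζ)) = q at *
  push_cast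
  field_simp
  linear_combination (p.2.1 ^ 2 * ζ) * e

lemma sl_ds {f : Y3 → ℝ} (hf : ContDiff ℝ ∞ f) (p : P3) (r ζ : ℝ) :
    ds (fun c => f (p, c.2)) (0, r, ζ) = gs f (p, r, ζ) :=
  (hasDerivAt_ds (dAt (f := fun c => f (p, c.2)) (hf.comp (by fun_prop)) _)).unique (gs_eq hf _ _ _)

lemma sl_dz {f : Y3 → ℝ} (hf : ContDiff ℝ ∞ f) (p : P3) (r ζ : ℝ) :
    dz (fun c => f (p, c.2)) (0, r, ζ) = gz f (p, r, ζ) :=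
  (hasDerivAt_dz (dAt (f := fun c => f (p, c.2)) (hf.comp (by fun_prop)) _)).unique (gz_eq hf _ _ _)

lemma sl_dz' {f : Y3 → ℝ} (hf : ContDiff ℝ ∞ f) (p : P3) (r ζ : ℝ) :
    dz (fun c => f (p, -c.2.1, c.2.2)) (0, r, ζ) = gz f (p, -r, ζ) :=
  (hasDerivAt_dz (dAt (f := fun c => f (p, -c.2.1, c.2.2)) (hf.comp (by fun_prop)) _)).unique
    (gz_eq hf p (-r) ζ)

namespace Fl0

variable {B : Set P3} {δ : ℝ} {W : Y3 → ℝ} {Y : ℕ → Y3 → ℝ} (h : Fl0 B δ W Y) {p : P3} (hp : p ∈ B)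
include h hp

lemma r0 : 0 < p.2.2 ∧ p.2.2⁻¹ < (rm p.1 p.2.1)⁻¹ ∧ 0 < rm p.1 p.2.1 := by
  obtain ⟨⟨a0, a1, a2, -⟩, -⟩ := h.par p hp
  have r0 := P354YW.rm_pos a0 a1
  exact ⟨r0.trans a2, inv_strictAnti₀ r0 a2, r0⟩

lemma sub : Icc 0 (rm p.1 p.2.1)⁻¹ ⊆ Ioo (-δ) ((rm p.1 p.2.1)⁻¹ + δ) :=
  Icc_subset_Ioo (neg_neg_of_pos h.pos) (lt_add_of_pos_right _ h.pos)

lemma ang : Ang (fun c => Y 0 (p, c.2)) (fun c => Y 1 (p, c.2)) (fun c => W (p, c.2)) 0 (-δ)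
    ((rm p.1 p.2.1)⁻¹ + δ) p.2.2⁻¹ δ := by
  refine ⟨(h.smooth 0).comp (by fun_prop), (h.smooth 1).comp (by fun_prop),
    h.sW.comp (by fun_prop), h.pos, h.sub hp ⟨(inv_pos.2 (h.r0 hp).1).le, (h.r0 hp).2.1.le⟩,
    fun ζ => (h.init p hp ζ).1, fun ζ => (h.init p hp ζ).2.1, fun r hr ζ hζ => ?_,
    fun r hr ζ hζ => ?_⟩ <;> obtain ⟨e0, -, e1, e2, -⟩ := h.ode (p, r, ζ) hp hr hζ
  · rw [sl_ds (h.smooth 0), e1, e0]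
  · rw [sl_ds (h.smooth 1), e2, e0]

variable {ρ ζ : ℝ} (hρ : ρ ∈ Icc 0 (rm p.1 p.2.1)⁻¹) (hζ : |ζ| ≤ 1)
include hρ hζ

lemma wv : 1 + p.2.1 ^ 2 * ρ ^ 2 ≤ q2 (p, ρ, ζ) ∧ 1 ≤ √(q2 (p, ρ, ζ)) ∧
    W (p, ρ, ζ) = |p.2.1| / √(q2 (p, ρ, ζ)) ∧ 0 < W (p, ρ, ζ) ∧ W (p, ρ, ζ) ≤ |p.2.1| ∧
    ζ * gz W (p, ρ, ζ) = -(ζ ^ 2 * |p.2.1| ^ 3 * ρ ^ 2 * (dd p ρ / √(q2 (p, ρ, ζ)) ^ 3)) := by
  obtain ⟨⟨a0, a1, -⟩, -⟩ := h.par p hp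
  have z : |ζ| < 1 + δ := by linarith [h.pos]
  have k1 := q2_ge (x := (p, ρ, ζ)) ((abs_nonneg _).trans a1.le) hρ.1 hζ
  have k2 : 1 ≤ √(q2 (p, ρ, ζ)) := one_le_sqrt.2 (le_trans (le_add_of_nonneg_right (by positivity)) k1)
  obtain ⟨e0, e1, -⟩ := h.ode (p, ρ, ζ) hp (h.sub hp hρ) z
  have q0 := (sqrt_pos.2 e1).ne'
  have a2 := abs_pos.2 a0
  have D := ((hasDerivAt_const ζ |p.2.1|).div (q_dz e1) q0).congr_of_eventuallyEq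
    (f₁ := fun t => W (p, ρ, t)) ((ev_lt z).mono fun t ht => (h.ode (p, ρ, t) hp (h.sub hp hρ) ht).1)
  refine ⟨k1, k2, e0, e0 ▸ div_pos a2 (sqrt_pos.2 e1), e0 ▸ div_le_self a2.le k2, ?_⟩
  rw [(gz_eq h.sW p ρ ζ).unique D, ← sq_abs p.2.1]
  field_simp
  ring

omit hρ hζ in
lemma out (hρ : ρ ∈ Icc 0 p.2.2⁻¹) (hζ : |ζ| ≤ 1) :
    0 < gz (Y 1) (p, ρ, ζ) ∧ |Y 0 (p, ρ, ζ)| < π / 2 := by
  obtain ⟨⟨a0, a1, -⟩, a4⟩ := h.par p hp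
  obtain ⟨r0, r1, -⟩ := h.r0 hp
  have s : Icc 0 p.2.2⁻¹ ⊆ Icc 0 (rm p.1 p.2.1)⁻¹ := Icc_subset_Icc_right r1.le
  have a5 : |p.2.1| * p.2.2⁻¹ ≤ 1 := by rw [← div_eq_mul_inv, div_le_one r0]; exact a4.le
  have f : ∀ t, |t| ≤ 1 → ∀ r ∈ Icc 0 p.2.2⁻¹, |Y 0 (p, r, t)| ≤ 1 := fun t ht r hr =>
    ((h.ang hp).phi_le (neg_neg_of_pos h.pos) ht (fun r hr =>
      ⟨(h.wv hp (s hr) ht).2.2.2.1, (h.wv hp (s hr) ht).2.2.2.2.1⟩) hr).trans a5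
  refine ⟨?_, (f ζ hζ ρ hρ).trans_lt (by linarith [pi_gt_three])⟩
  rw [← sl_dz (h.smooth 1)]
  refine (h.ang hp).u_pos' (neg_neg_of_pos h.pos) (κ := |p.2.1| ^ 3) (by positivity)
    (by rw [← mul_pow]; exact pow_le_one₀ (by positivity) a5) (fun t ht r hr => ?_) hρ
    (h.zero p ρ) hζ
  obtain ⟨k1, k2, -, k3, -, k4⟩ := h.wv hp (s hr) ht
  refine ⟨k3, ?_, f t ht r hr⟩
  rw [sl_dz h.sW, k4, neg_le_neg_iff]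
  refine mul_le_of_le_one_right (by positivity) ((div_le_one (by positivity)).2 ?_)
  have k5 := sq_sqrt (le_trans (by positivity) k1)
  have k6 := mul_nonneg ((abs_nonneg _).trans a1.le) hr.1
  unfold dd
  nlinarith

omit hρ hζ in
lemma inn (hρ : ρ ∈ Icc p.2.2⁻¹ (rm p.1 p.2.1)⁻¹) (hζ : |ζ| ≤ 1) :
    0 < gz (Y 1) (p, ρ, ζ) ∧ |Y 0 (p, ρ, ζ)| < π / 2 := by
  obtain ⟨⟨a0, a1, a2, a3⟩, a4⟩ := h.par p hp
  obtain ⟨r0, r1, r2⟩ := h.r0 hp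
  have i0 := inv_pos.2 r0
  have a5 := abs_pos.2 a0
  have A := (h.ang hp).refl
  have hm : -((rm p.1 p.2.1)⁻¹ + δ) < -(rm p.1 p.2.1)⁻¹ := by linarith [h.pos]
  have s : ∀ r ∈ Icc (-(rm p.1 p.2.1)⁻¹) (-p.2.2⁻¹), -r ∈ Icc 0 (rm p.1 p.2.1)⁻¹ ∧ dd p (-r) ≤ 0 :=
    fun r hr => by
    obtain ⟨-, -, e1, e2, -⟩ := P354YJ.roots a0 a1
    have e3 : dd p (-r) = (1 - rp p.1 p.2.1 * -r) * (1 - rm p.1 p.2.1 * -r) := by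
      change P354I.rm _ _ + P354I.rp _ _ = _ at e1
      change P354I.rm _ _ * P354I.rp _ _ = _ at e2
      unfold dd
      linear_combination (-r) * e1 - r ^ 2 * e2
    have e4 : p.2.2⁻¹ ≤ -r := by linarith [hr.2]
    have e5 : -r ≤ (rm p.1 p.2.1)⁻¹ := by linarith [hr.1]
    refine ⟨⟨i0.le.trans e4, e5⟩, e3 ▸ mul_nonpos_of_nonpos_of_nonneg ?_ ?_⟩
    · nlinarith [mul_le_mul_of_nonneg_left e4 r0.le, mul_inv_cancel₀ r0.ne']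
    · nlinarith [mul_le_mul_of_nonneg_left e5 r2.le, mul_inv_cancel₀ r2.ne']
  have f : ∀ t, |t| ≤ 1 → ∀ r ∈ Icc (-(rm p.1 p.2.1)⁻¹) (-p.2.2⁻¹), |-Y 0 (p, -r, t)| < π / 2 :=
    fun t ht r hr => by
    refine (A.phi_bd hm (a := |p.2.1|⁻¹) (by positivity) ht (fun r hr => ?_) hr).trans_lt ?_
    · obtain ⟨-, -, k2, k3, -⟩ := h.wv hp (s r hr).1 ht
      refine ⟨k3, k2.trans_le ?_⟩
      have t1 : t ^ 2 ≤ 1 := by rw [← sq_abs t]; nlinarith [abs_nonneg t]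
      have k4 : 1 + p.2.1 ^ 2 * r ^ 2 ≤ √(q2 (p, -r, t)) := le_sqrt_of_sq_le (by
        have := mul_nonneg (mul_nonneg (sq_nonneg p.2.1) (sub_nonneg.2 t1))
          (mul_nonneg (sq_nonneg r) (neg_nonneg.2 (s r hr).2))
        simp only [q2, dd, neg_sq] at this ⊢
        linarith)
      refine (div_le_div_of_nonneg_left a5.le (by positivity) k4).trans_eq ?_
      rw [← sq_abs p.2.1]
      field_simp
      ring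
    · have k1 : arctan (-p.2.2⁻¹ / |p.2.1|⁻¹) < 0 :=
        arctan_lt_zero.2 (div_neg_of_neg_of_pos (neg_neg_of_pos i0) (by positivity))
      linarith [neg_pi_div_two_lt_arctan (r / |p.2.1|⁻¹)]
  have m : -ρ ∈ Icc (-(rm p.1 p.2.1)⁻¹) (-p.2.2⁻¹) := ⟨neg_le_neg hρ.2, neg_le_neg hρ.1⟩
  refine ⟨?_, by simpa only [neg_neg, abs_neg] using f ζ hζ _ m⟩
  have := A.u_pos hm (W := |p.2.1|) (fun t ht r hr => ?_) m hζ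
  · rwa [sl_dz' (h.smooth 1), neg_neg] at this
  obtain ⟨-, k2, -, k3, k4, k5⟩ := h.wv hp (s r hr).1 ht
  refine ⟨k3, k4, ?_, f t ht r hr⟩
  rw [sl_dz' h.sW, k5, neg_nonneg]
  exact mul_nonpos_of_nonneg_of_nonpos (by positivity)
    (div_nonpos_of_nonpos_of_nonneg (s r hr).2 (by positivity))

lemma noc : 0 < gz (Y 1) (p, ρ, ζ) ∧ |Y 0 (p, ρ, ζ)| < π / 2 :=
  (le_total ρ p.2.2⁻¹).elim (fun k => h.out hp ⟨hρ.1, k⟩ hζ) fun k => h.inn hp ⟨k, hρ.2⟩ hζ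

lemma eik : cos (Y 0 (p, ρ, ζ)) * gz (Y 2) (p, ρ, ζ) =
    |p.2.1| * sin (Y 0 (p, ρ, ζ)) * gz (Y 1) (p, ρ, ζ) := by
  have z : |ζ| < 1 + δ := by linarith [h.pos]
  rw [← sl_dz (h.smooth 1), ← sl_dz (h.smooth 2)]
  refine (h.ang hp).wz (V := fun c => Y 2 (p, c.2)) ((h.smooth 2).comp (by fun_prop))
    (F := fun r t => fq (p, r, t)) (fun t => (h.init p hp t).2.2.1) z (h.sub hp)
    ⟨(inv_pos.2 (h.r0 hp).1).le, (h.r0 hp).2.1.le⟩ (fun r hr t ht => ?_) (fun r hr => ?_) hρ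
  · obtain ⟨e0, -, -, -, e1, -⟩ := h.ode (p, r, t) hp (h.sub hp hr) ht
    rw [sl_ds (h.smooth 2), e1, e0]
  · obtain ⟨e0, e1, -⟩ := h.ode (p, r, ζ) hp (h.sub hp hr) z
    exact ⟨e0 ▸ fq_dz e1, (cos_pos_of_mem_Ioo (abs_lt.1 (h.noc hp hr hζ).2)).ne'⟩

end Fl0

theorem rflo : RFL := fun _ _ ha hM => by
  obtain ⟨ε, p, δ, W, Y, h⟩ := ex_fl0 ha hM
  refine ⟨ε, p, δ, Y, h.pos, h.smooth, fun p hp => (h.par p hp).1, h.init,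
    fun x a b c => (h.ode x a b c).2, fun x a b c => ?_⟩
  have z := abs_le.2 c
  exact ⟨(h.noc a b z).1, (h.noc a b z).2, (h.ang a).cons (h.sub a b) ((h.ang a).lt1 z),
    h.eik a b z, h.zero _ _⟩

end Vale.Agent.P354RF
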